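import Vale.Agent.P148.R2.H592.Del6

/-!
# The darts of the sphere triangulation (P148, module B)
-/

open Set Metric Topology Filter

namespace Vale.Agent.P148.R2.H592

/-- A linear order on the plane used to choose a first corner. -/
noncomputable def code (z : ℂ) : ℝ ×ₗ ℝ := toLex (z.re, z.im)

theorem code_inj {z w : ℂ} (h : code z = code w) : z = w := by
  have h1 : (z.re, z.im) = (w.re, w.im) := toLex.injective h
  exact Complex.ext (congrArg Prod.fst h1) (congrArg Prod.snd h1)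

/-- The faces of the sphere triangulation: counterclockwise triples starting with the smallest
corner. -/
def Fc (X : Set ℂ) (b : ZMod 3 → ℂ) : Type :=
  {t : ℂ × ℂ × ℂ // Tl X b t.1 t.2.1 t.2.2 ∧ code t.1 < code t.2.1 ∧ code t.1 < code t.2.2}

/-- The corners of a face. -/
def vc {X : Set ℂ} {b : ZMod 3 → ℂ} (t : Fc X b) (j : ZMod 3) : ℂ :=
  match j with
  | 0 => t.1.1
  | 1 => t.1.2.1
  | 2 => t.1.2.2

/-- The start of a dart: the dart `(t, j)` is the side opposite to corner `j`. -/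
def tail {X : Set ℂ} {b : ZMod 3 → ℂ} (q : Fc X b × ZMod 3) : ℂ := vc q.1 (q.2 + 1)

/-- The end of a dart. -/
def head {X : Set ℂ} {b : ZMod 3 → ℂ} (q : Fc X b × ZMod 3) : ℂ := vc q.1 (q.2 + 2)

theorem vc_Tl {X : Set ℂ} {b : ZMod 3 → ℂ} (t : Fc X b) (j : ZMod 3) :
    Tl X b (vc t j) (vc t (j + 1)) (vc t (j + 2)) := by
  have h3 : j = 0 ∨ j = 1 ∨ j = 2 := by revert j; decide
  rcases h3 with rfl | rfl | rfl
  · exact t.2.1
  · exact HullTri.Tl_rot t.2.1
  · exact HullTri.Tl_rot (HullTri.Tl_rot t.2.1)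

theorem th_Tl {X : Set ℂ} {b : ZMod 3 → ℂ} (q : Fc X b × ZMod 3) :
    Tl X b (tail q) (head q) (vc q.1 q.2) := HullTri.Tl_rot (vc_Tl q.1 q.2)

namespace HullTri

variable {X : Set ℂ} {b : ZMod 3 → ℂ} (h : HullTri X b)
include h

theorem vc_inj (t : Fc X b) {i j : ZMod 3} (hij : vc t i = vc t j) : i = j := by
  by_contra hne
  obtain ⟨h1, h2, h3⟩ := h.Tl_ne (vc_Tl t i)
  rcases z3_of_ne i j hne with rfl | rfl
  · exact h1 hij
  · exact h3 hij.symm

theorem nbr_th (q : Fc X b × ZMod 3) : nbr X (tail q) (head q) := h.Tl_nbr (th_Tl q)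

theorem exists_face_of_Tl {u v w : ℂ} (ht : Tl X b u v w) :
    ∃ q : Fc X b × ZMod 3, tail q = u ∧ head q = v ∧ vc q.1 q.2 = w := by
  obtain ⟨huv, hvw, hwu⟩ := h.Tl_ne ht
  have hc : ∀ {x y : ℂ}, x ≠ y → code x < code y ∨ code y < code x := fun hxy =>
    lt_or_gt_of_ne fun he => hxy (code_inj he)
  rcases hc huv with h1 | h1
  · rcases hc hwu with h2 | h2
    · -- w smallest
      exact ⟨(⟨(w, u, v), Tl_rot (Tl_rot ht), h2, h2.trans h1⟩, 0), rfl, rfl, rfl⟩
    · exact ⟨(⟨(u, v, w), ht, h1, h2⟩, 2), rfl, rfl, rfl⟩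
  · rcases hc hvw with h2 | h2
    · exact ⟨(⟨(v, w, u), Tl_rot ht, h2, h1⟩, 1), rfl, rfl, rfl⟩
    · exact ⟨(⟨(w, u, v), Tl_rot (Tl_rot ht), h2.trans h1, h2⟩, 0), rfl, rfl, rfl⟩

theorem th_inj {q r : Fc X b × ZMod 3} (h1 : tail q = tail r) (h2 : head q = head r) : q = r := by
  have h3 : vc q.1 q.2 = vc r.1 r.2 := by
    have e1 := th_Tl q
    have e2 := th_Tl r
    rw [h1, h2] at e1
    exact h.Tl_unique e1 e2
  obtain ⟨t, i⟩ := q
  obtain ⟨s, j⟩ := r
  simp only [tail, head] at h1 h2 h3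
  -- the first corner is the smallest one
  have hmin : ∀ (t : Fc X b) (k : ZMod 3), k ≠ 0 → code (vc t 0) < code (vc t k) := by
    intro t k hk
    have : k = 1 ∨ k = 2 := by revert k; decide
    rcases this with rfl | rfl
    · exact t.2.2.1
    · exact t.2.2.2
  -- there are indices
  have hall : ∀ k, vc t (i + k) = vc s (j + k) := by
    intro k
    have : k = 0 ∨ k = 1 ∨ k = 2 := by revert k; decide
    rcases this with rfl | rfl | rfl
    · simpa using h3
    · exact h1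
    · exact h2
  have hij : i = j := by
    by_contra hne
    have e1 := hall (-i)
    have e2 := hall (-j)
    rw [add_neg_cancel] at e1 e2
    have l1 := hmin s (j + -i) (fun h => hne (by
      have := congrArg (· + i) h; simpa using this.symm))
    have l2 := hmin t (i + -j) (fun h => hne (by
      have := congrArg (· + j) h; simpa using this))
    rw [← e1] at l1
    rw [e2] at l2
    exact lt_irrefl _ (l1.trans l2)
  subst hij
  have hv : ∀ k, vc t k = vc s k := by
    intro k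
    have := hall (k - i)
    simpa using this
  have : t = s := by
    apply Subtype.ext
    exact Prod.ext (hv 0) (Prod.ext (hv 1) (hv 2))
  rw [this]

theorem exists_dart {u v : ℂ} (huv : nbr X u v) : ∃ q : Fc X b × ZMod 3, tail q = u ∧ head q = v := by
  obtain ⟨w, hw⟩ := h.Tl_exists huv
  obtain ⟨q, h1, h2, -⟩ := h.exists_face_of_Tl hw
  exact ⟨q, h1, h2⟩

/-- The dart of a pair of neighbours. -/
noncomputable def dart {u v : ℂ} (huv : nbr X u v) : Fc X b × ZMod 3 := (h.exists_dart huv).choose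

theorem tail_dart {u v : ℂ} (huv : nbr X u v) : tail (h.dart huv) = u :=
  (h.exists_dart huv).choose_spec.1

theorem head_dart {u v : ℂ} (huv : nbr X u v) : head (h.dart huv) = v :=
  (h.exists_dart huv).choose_spec.2

/-- The opposite dart. -/
noncomputable def rv (q : Fc X b × ZMod 3) : Fc X b × ZMod 3 := h.dart (nbr_symm (h.nbr_th q))

theorem tail_rv (q : Fc X b × ZMod 3) : tail (h.rv q) = head q := h.tail_dart _

theorem head_rv (q : Fc X b × ZMod 3) : head (h.rv q) = tail q := h.head_dart _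

theorem rv_rv (q : Fc X b × ZMod 3) : h.rv (h.rv q) = q :=
  h.th_inj (by rw [h.tail_rv, h.head_rv]) (by rw [h.head_rv, h.tail_rv])

theorem rv_ne (q : Fc X b × ZMod 3) : h.rv q ≠ q := by
  intro he
  have h1 := h.tail_rv q
  rw [he] at h1
  exact (h.nbr_th q).2.2.1 h1

/-- The opposite dart as a permutation. -/
noncomputable def rvPerm : Equiv.Perm (Fc X b × ZMod 3) := ⟨h.rv, h.rv, h.rv_rv, h.rv_rv⟩

theorem finite_Fc : Finite (Fc X b) := by
  have hf : ((X ×ˢ (X ×ˢ X) : Set (ℂ × ℂ × ℂ))).Finite := h.fin.prod (h.fin.prod h.fin)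
  have hf' := hf.to_subtype
  have hmem : ∀ t : Fc X b, t.1 ∈ (X ×ˢ (X ×ˢ X) : Set (ℂ × ℂ × ℂ)) := fun t =>
    ⟨(h.Tl_nbr t.2.1).1, (h.Tl_nbr t.2.1).2.1, (h.Tl_nbr (Tl_rot t.2.1)).2.1⟩
  refine Finite.of_injective (fun t : Fc X b =>
    (⟨t.1, hmem t⟩ : (X ×ˢ (X ×ˢ X) : Set (ℂ × ℂ × ℂ)))) fun t s hts => ?_
  have h1 : t.1 = s.1 := congrArg (fun z : (X ×ˢ (X ×ˢ X) : Set (ℂ × ℂ × ℂ)) => z.1) hts
  exact Subtype.ext h1

end HullTri

end Vale.Agent.P148.R2.H592
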