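import Vale.Agent.P148.R2.H592.Gen

/-!
# P148, module B2b: the Poisson points in a bounded set with three far points form a `HullTri`
-/

open MeasureTheory Set Metric Topology Filter ProbabilityTheory
open scoped ENNReal NNReal

namespace Vale.Agent.P148.R2.H592

open _root_.P148

/-- The points of `T` over `U` together with the three points `b`. -/
def XU (T : Set Pt) (U : Set ℂ) (b : ZMod 3 → ℂ) : Set ℂ := (pts T ∩ U) ∪ range b

theorem XU_subset (T : Set Pt) (U : Set ℂ) (b : ZMod 3 → ℂ) : XU T U b ⊆ pts T ∪ range b :=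
  union_subset_union_left _ inter_subset_left

theorem finite_pts_inter {T : Set Pt} (hT : ∀ r : ℝ, (T ∩ ball (0 : ℂ) r ×ˢ univ).Finite)
    {U : Set ℂ} (hU : Bornology.IsBounded U) : (pts T ∩ U).Finite := by
  obtain ⟨r, hr⟩ := hU.subset_ball (0 : ℂ)
  refine ((hT r).image Prod.fst).subset ?_
  rintro x ⟨⟨p, hp, rfl⟩, hx⟩
  exact ⟨p, ⟨hp, hr hx, mem_univ _⟩, rfl⟩

theorem finite_XU {T : Set Pt} (hT : ∀ r : ℝ, (T ∩ ball (0 : ℂ) r ×ˢ univ).Finite)
    {U : Set ℂ} (hU : Bornology.IsBounded U) (b : ZMod 3 → ℂ) : (XU T U b).Finite :=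
  (finite_pts_inter hT hU).union (finite_range b)

theorem no_four : ∀ i j k l : ZMod 3, i ≠ j → j ≠ k → k ≠ i → l ≠ i → l ≠ j → l ≠ k → False := by
  decide

/-- The deterministic form: genericity of the configuration gives `Three`. -/
theorem three_of_conc {T : Set Pt} {b : ZMod 3 → ℂ} {X : Set ℂ} (hX : X ⊆ pts T ∪ range b)
    (hg : ∀ a ∈ pts T, ∀ b' ∈ pts T ∪ range b, ∀ c ∈ pts T ∪ range b, ∀ d ∈ pts T ∪ range b,
      a ≠ b' → a ≠ c → a ≠ d → b' ≠ c → b' ≠ d → c ≠ d → ¬ Conc a b' c d) : Three X := by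
  intro z a b' c d ha hb hc hd hza hzb hzc hzd hab hbc hca
  by_contra hcon
  push Not at hcon
  obtain ⟨hda, hdb, hdc⟩ := hcon
  have e1 : dist z a = dist z b' := le_antisymm (hza _ hb) (hzb _ ha)
  have e2 : dist z a = dist z c := le_antisymm (hza _ hc) (hzc _ ha)
  have e3 : dist z a = dist z d := le_antisymm (hza _ hd) (hzd _ ha)
  by_cases h1 : a ∈ pts T
  · exact hg a h1 b' (hX hb) c (hX hc) d (hX hd) hab hca.symm hda.symm hbc hdb.symm hdc.symm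
      ⟨z, e1, e2, e3⟩
  by_cases h2 : b' ∈ pts T
  · exact hg b' h2 a (hX ha) c (hX hc) d (hX hd) hab.symm hbc hdb.symm hca.symm hda.symm hdc.symm
      ⟨z, e1.symm, e1.symm.trans e2, e1.symm.trans e3⟩
  by_cases h3 : c ∈ pts T
  · exact hg c h3 a (hX ha) b' (hX hb) d (hX hd) hca hbc.symm hdc.symm hab hda.symm hdb.symm
      ⟨z, e2.symm, e2.symm.trans e1, e2.symm.trans e3⟩
  by_cases h4 : d ∈ pts T
  · exact hg d h4 a (hX ha) b' (hX hb) c (hX hc) hda hdb hdc hab hca.symm hbc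
      ⟨z, e3.symm, e3.symm.trans e1, e3.symm.trans e2⟩
  obtain ⟨i, hi⟩ := (hX ha).resolve_left h1
  obtain ⟨j, hj⟩ := (hX hb).resolve_left h2
  obtain ⟨k, hk⟩ := (hX hc).resolve_left h3
  obtain ⟨l, hl⟩ := (hX hd).resolve_left h4
  have hij : i ≠ j := fun h => hab (by rw [← hi, ← hj, h])
  have hjk : j ≠ k := fun h => hbc (by rw [← hj, ← hk, h])
  have hki : k ≠ i := fun h => hca (by rw [← hk, ← hi, h])
  have hli : l ≠ i := fun h => hda (by rw [← hl, ← hi, h])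
  have hlj : l ≠ j := fun h => hdb (by rw [← hl, ← hj, h])
  have hlk : l ≠ k := fun h => hdc (by rw [← hl, ← hk, h])
  exact no_four i j k l hij hjk hki hli hlj hlk

/-- The configuration `T` is generic with respect to `b`. -/
def Generic (T : Set Pt) (b : ZMod 3 → ℂ) : Prop :=
  (∀ r : ℝ, (T ∩ ball (0 : ℂ) r ×ˢ univ).Finite) ∧
  ∀ a ∈ pts T, ∀ b' ∈ pts T ∪ range b, ∀ c ∈ pts T ∪ range b, ∀ d ∈ pts T ∪ range b,
      a ≠ b' → a ≠ c → a ≠ d → b' ≠ c → b' ≠ d → c ≠ d → ¬ Conc a b' c d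

theorem Generic.hullTri {T : Set Pt} {b : ZMod 3 → ℂ} (hT : Generic T b) {U : Set ℂ}
    (hU : Bornology.IsBounded U) (hb : 0 < cr (b 0) (b 1) (b 2))
    (hin : ∀ x ∈ U, ∀ j, 0 < cr (b j) (b (j + 1)) x) : HullTri (XU T U b) b where
  fin := finite_XU hT.1 hU b
  three := three_of_conc (XU_subset T U b) hT.2
  mem j := Or.inr ⟨j, rfl⟩
  ccw := hb
  inside x hx hxb j := by
    rcases hx with hx | ⟨i, rfl⟩
    · exact hin x hx.2 j
    · exact absurd rfl (hxb i)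

/-- **B2b.** Almost surely the process is generic. -/
theorem ae_generic {Ω : Type*} [MeasurableSpace Ω] {P : Measure Ω} [IsProbabilityMeasure P]
    {S : Ω → Set Pt} {lam : ℝ≥0} (h : IsColouredPoisson P S lam) (b : ZMod 3 → ℂ) :
    ∀ᵐ ω ∂P, Generic (S ω) b := by
  filter_upwards [ae_conc h (range b) (countable_range b)] with ω hω
  exact ⟨h.locFin ω, hω⟩

/-- The vertices of a large equilateral triangle. -/
noncomputable def bfar (ρ : ℝ) (j : ZMod 3) : ℂ :=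
  match j with
  | 0 => ⟨ρ, 0⟩
  | 1 => ⟨- ρ / 2, ρ * (Real.sqrt 3 / 2)⟩
  | 2 => ⟨- ρ / 2, - (ρ * (Real.sqrt 3 / 2))⟩

theorem bfar_ccw {ρ : ℝ} (hρ : 0 < ρ) : 0 < cr (bfar ρ 0) (bfar ρ 1) (bfar ρ 2) := by
  have h3 : 0 < Real.sqrt 3 := by positivity
  have : cr (bfar ρ 0) (bfar ρ 1) (bfar ρ 2) = 3 / 2 * Real.sqrt 3 * ρ ^ 2 := by
    show (- ρ / 2 - ρ) * (- (ρ * (Real.sqrt 3 / 2)) - 0) -
      (ρ * (Real.sqrt 3 / 2) - 0) * (- ρ / 2 - ρ) = _
    ring
  rw [this]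
  positivity

theorem bfar_inside {ρ : ℝ} (hρ : 0 < ρ) {x : ℂ} (hx : ‖x‖ < ρ / 2) (j : ZMod 3) :
    0 < cr (bfar ρ j) (bfar ρ (j + 1)) x := by
  have h3 : 0 < Real.sqrt 3 := by positivity
  have h33 : Real.sqrt 3 ^ 2 = 3 := Real.sq_sqrt (by norm_num)
  have hn : x.re ^ 2 + x.im ^ 2 < (ρ / 2) ^ 2 := by
    have h1 : ‖x‖ ^ 2 = x.re ^ 2 + x.im ^ 2 := by
      rw [← Complex.normSq_eq_norm_sq, Complex.normSq_apply]; ring
    rw [← h1]
    exact pow_lt_pow_left₀ hx (norm_nonneg _) two_ne_zero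
  have key : ∀ a c : ℝ, a ^ 2 + c ^ 2 = 1 → a * x.re + c * x.im < ρ / 2 := by
    intro a c hac
    by_contra hcon
    push Not at hcon
    have h1 : (ρ / 2) ^ 2 ≤ (a * x.re + c * x.im) ^ 2 :=
      pow_le_pow_left₀ (by positivity) hcon 2
    nlinarith [sq_nonneg (a * x.im - c * x.re)]
  have hj : j = 0 ∨ j = 1 ∨ j = 2 := by revert j; decide
  rcases hj with rfl | rfl | rfl
  · have e : cr (bfar ρ 0) (bfar ρ (0 + 1)) x =
        Real.sqrt 3 * ρ * (ρ / 2 - (1 / 2 * x.re + Real.sqrt 3 / 2 * x.im)) := by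
      show (- ρ / 2 - ρ) * (x.im - 0) - (ρ * (Real.sqrt 3 / 2) - 0) * (x.re - ρ) = _
      linear_combination ρ / 2 * x.im * h33
    rw [e]
    have := key (1 / 2) (Real.sqrt 3 / 2) (by linear_combination h33 / 4)
    have h4 : 0 < ρ / 2 - (1 / 2 * x.re + Real.sqrt 3 / 2 * x.im) := by linarith
    positivity
  · have e : cr (bfar ρ 1) (bfar ρ (1 + 1)) x = Real.sqrt 3 * ρ * (ρ / 2 - (- 1 * x.re + 0 * x.im)) := by
      show (- ρ / 2 - - ρ / 2) * (x.im - ρ * (Real.sqrt 3 / 2)) -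
        (- (ρ * (Real.sqrt 3 / 2)) - ρ * (Real.sqrt 3 / 2)) * (x.re - - ρ / 2) = _
      ring
    rw [e]
    have := key (- 1) 0 (by ring)
    have h4 : 0 < ρ / 2 - (- 1 * x.re + 0 * x.im) := by linarith
    positivity
  · have e : cr (bfar ρ 2) (bfar ρ (2 + 1)) x =
        Real.sqrt 3 * ρ * (ρ / 2 - (1 / 2 * x.re + - (Real.sqrt 3 / 2) * x.im)) := by
      show (ρ - - ρ / 2) * (x.im - - (ρ * (Real.sqrt 3 / 2))) -
        (0 - - (ρ * (Real.sqrt 3 / 2))) * (x.re - - ρ / 2) = _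
      linear_combination - ρ / 2 * x.im * h33
    rw [e]
    have := key (1 / 2) (- (Real.sqrt 3 / 2)) (by linear_combination h33 / 4)
    have h4 : 0 < ρ / 2 - (1 / 2 * x.re + - (Real.sqrt 3 / 2) * x.im) := by linarith
    positivity

/-- The standard form. -/
theorem Generic.hullTri_ball {T : Set Pt} {ρ : ℝ} (hT : Generic T (bfar ρ)) {U : Set ℂ}
    (hρ : 0 < ρ) (hU : U ⊆ ball 0 (ρ / 2)) : HullTri (XU T U (bfar ρ)) (bfar ρ) :=
  hT.hullTri (isBounded_ball.subset hU) (bfar_ccw hρ) fun x hx j =>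
    bfar_inside hρ (by simpa using hU hx) j

end Vale.Agent.P148.R2.H592
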