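import Vale.Agent.P148.R2.H592.Del9

/-!
# P148, module B2a: connected sets of Delaunay vertices; contraction of several of them
-/

open Set Metric Topology Filter

namespace Vale.Agent.P148.R2.H592

/-- `O` is a connected set of vertices of the Delaunay graph of `X`. -/
def ConnIn (X O : Set ℂ) : Prop :=
  O ⊆ X ∧ ∀ x ∈ O, ∀ y ∈ O, Relation.ReflTransGen (fun a b => nbr X a b ∧ a ∈ O ∧ b ∈ O) x y

theorem ConnIn.subset {X O : Set ℂ} (h : ConnIn X O) : O ⊆ X := h.1

theorem connIn_empty (X : Set ℂ) : ConnIn X ∅ := ⟨empty_subset _, fun _ h => h.elim⟩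

theorem connIn_singleton {X : Set ℂ} {x : ℂ} (hx : x ∈ X) : ConnIn X {x} :=
  ⟨singleton_subset_iff.2 hx, fun a ha b hb => by
    rw [mem_singleton_iff] at ha hb
    rw [ha, hb]⟩

theorem ConnIn.lift {X O O' : Set ℂ} (h : ConnIn X O) (hO : O ⊆ O') {x y : ℂ} (hx : x ∈ O)
    (hy : y ∈ O) : Relation.ReflTransGen (fun a b => nbr X a b ∧ a ∈ O' ∧ b ∈ O') x y :=
  Relation.ReflTransGen.mono (fun _ _ (h : nbr X _ _ ∧ _ ∧ _) => ⟨h.1, hO h.2.1, hO h.2.2⟩) _ _
    (h.2 x hx y hy)

/-- The vertices in an open disc are connected. -/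
theorem connIn_ball {X : Set ℂ} (hX : X.Finite) (c : ℂ) (r : ℝ) : ConnIn X (X ∩ ball c r) := by
  refine ⟨inter_subset_left, fun x hx y hy => ?_⟩
  refine Relation.ReflTransGen.mono (fun a b (h : nbr X a b ∧ dist a c < r ∧ dist b c < r) => ?_)
    _ _ (disc_connected hX c r hx.1 hy.1 hx.2 hy.2)
  exact ⟨h.1, ⟨h.1.1, h.2.1⟩, ⟨h.1.2.1, h.2.2⟩⟩

/-- The vertices in an open half plane are connected. -/
theorem connIn_half {X : Set ℂ} (hX : X.Finite) (u : ℂ) (a : ℝ) :
    ConnIn X (X ∩ {z | a < u.re * z.re + u.im * z.im}) := by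
  by_cases hu : u = 0
  · subst hu
    by_cases ha : a < 0
    · have : X ∩ {z : ℂ | a < (0 : ℂ).re * z.re + (0 : ℂ).im * z.im} = X := by
        ext z
        simp [ha]
      rw [this]
      exact ⟨subset_rfl, fun x hx y hy => Relation.ReflTransGen.mono
        (fun a b (h : nbr X a b) => ⟨h, h.1, h.2.1⟩) _ _ (graph_connected hX hx hy)⟩
    · have : X ∩ {z : ℂ | a < (0 : ℂ).re * z.re + (0 : ℂ).im * z.im} = ∅ := by
        ext z
        simp [ha]
      rw [this]
      exact connIn_empty X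
  · -- a large disc tangent to the line
    have hn : 0 < Complex.normSq u := Complex.normSq_pos.2 hu
    have hn' : Complex.normSq u = u.re ^ 2 + u.im ^ 2 := by rw [Complex.normSq_apply]; ring
    -- centre `s u + (a/|u|^2) u`, radius `s |u|`
    have key : ∀ z : ℂ, ∀ s : ℝ, z ∈ ball (((a / Complex.normSq u + s : ℝ) : ℂ) * u) (s * ‖u‖) ↔
        0 < s ∧ Complex.normSq (z - ((a / Complex.normSq u : ℝ) : ℂ) * u) <
          2 * s * (u.re * z.re + u.im * z.im - a) := by
      intro z s
      rw [mem_ball, Complex.dist_eq]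
      constructor
      · intro h
        have hs : 0 < s := by
          have h1 : 0 < s * ‖u‖ := (norm_nonneg _).trans_lt h
          exact pos_of_mul_pos_left h1 (norm_nonneg _)
        refine ⟨hs, ?_⟩
        have h2 : ‖z - ((a / Complex.normSq u + s : ℝ) : ℂ) * u‖ ^ 2 < (s * ‖u‖) ^ 2 :=
          pow_lt_pow_left₀ h (norm_nonneg _) two_ne_zero
        rw [mul_pow, ← Complex.normSq_eq_norm_sq, ← Complex.normSq_eq_norm_sq] at h2
        have e : a / Complex.normSq u * Complex.normSq u = a := div_mul_cancel₀ _ hn.ne'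
        set q := a / Complex.normSq u with hq
        simp only [Complex.normSq_apply, Complex.sub_re, Complex.sub_im, Complex.mul_re,
          Complex.mul_im, Complex.ofReal_re, Complex.ofReal_im] at h2 e ⊢
        nlinarith [h2, e]
      · rintro ⟨hs, h⟩
        have h2 : ‖z - ((a / Complex.normSq u + s : ℝ) : ℂ) * u‖ ^ 2 < (s * ‖u‖) ^ 2 := by
          rw [mul_pow, ← Complex.normSq_eq_norm_sq, ← Complex.normSq_eq_norm_sq]
          have e : a / Complex.normSq u * Complex.normSq u = a := div_mul_cancel₀ _ hn.ne'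
          set q := a / Complex.normSq u with hq
          simp only [Complex.normSq_apply, Complex.sub_re, Complex.sub_im, Complex.mul_re,
            Complex.mul_im, Complex.ofReal_re, Complex.ofReal_im] at h e ⊢
          nlinarith [h, e]
        exact lt_of_pow_lt_pow_left₀ 2 (by positivity) h2
    -- choose `s` large for all points of `X` in the half plane
    obtain ⟨s, hs, hs'⟩ : ∃ s : ℝ, 0 < s ∧ ∀ z ∈ X, a < u.re * z.re + u.im * z.im →
        Complex.normSq (z - ((a / Complex.normSq u : ℝ) : ℂ) * u) <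
          2 * s * (u.re * z.re + u.im * z.im - a) := by
      have h1 : ∀ᶠ s : ℝ in atTop, ∀ z ∈ X, a < u.re * z.re + u.im * z.im →
          Complex.normSq (z - ((a / Complex.normSq u : ℝ) : ℂ) * u) <
            2 * s * (u.re * z.re + u.im * z.im - a) := by
        refine hX.eventually_all.2 fun z _ => ?_
        by_cases hz : a < u.re * z.re + u.im * z.im
        · have hz' : 0 < u.re * z.re + u.im * z.im - a := sub_pos.2 hz
          filter_upwards [eventually_gt_atTop
            (Complex.normSq (z - ((a / Complex.normSq u : ℝ) : ℂ) * u) /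
              (2 * (u.re * z.re + u.im * z.im - a)))] with s hs _
          rw [div_lt_iff₀ (by positivity)] at hs
          linarith
        · exact Eventually.of_forall fun s h => absurd h hz
      obtain ⟨s, hs⟩ := (h1.and (eventually_gt_atTop 0)).exists
      exact ⟨s, hs.2, hs.1⟩
    have e : X ∩ {z | a < u.re * z.re + u.im * z.im} =
        X ∩ ball (((a / Complex.normSq u + s : ℝ) : ℂ) * u) (s * ‖u‖) := by
      ext z
      constructor
      · rintro ⟨hz, hz'⟩
        exact ⟨hz, (key z s).2 ⟨hs, hs' z hz hz'⟩⟩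
      · rintro ⟨hz, hz'⟩
        refine ⟨hz, ?_⟩
        have h1 := ((key z s).1 hz').2
        have h2 : 0 < 2 * s * (u.re * z.re + u.im * z.im - a) := (Complex.normSq_nonneg _).trans_lt h1
        have h3 : 0 < u.re * z.re + u.im * z.im - a :=
          pos_of_mul_pos_right h2 (by positivity)
        exact sub_pos.1 h3
    rw [e]
    exact connIn_ball hX _ _

theorem ConnIn.union {X O O' : Set ℂ} (h : ConnIn X O) (h' : ConnIn X O')
    (hO : (O ∩ O').Nonempty) : ConnIn X (O ∪ O') := by
  obtain ⟨p, hp, hp'⟩ := hO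
  have h1 : ∀ x ∈ O ∪ O', Relation.ReflTransGen (fun a b => nbr X a b ∧ a ∈ O ∪ O' ∧ b ∈ O ∪ O')
      x p ∧ Relation.ReflTransGen (fun a b => nbr X a b ∧ a ∈ O ∪ O' ∧ b ∈ O ∪ O') p x := by
    rintro x (hx | hx)
    · exact ⟨h.lift subset_union_left hx hp, h.lift subset_union_left hp hx⟩
    · exact ⟨h'.lift subset_union_right hx hp', h'.lift subset_union_right hp' hx⟩
  exact ⟨union_subset h.1 h'.1, fun x hx y hy => (h1 x hx).1.trans (h1 y hy).2⟩

/-- The union of a linked family of connected sets is connected. -/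
theorem connIn_iUnion {X : Set ℂ} {ι : Type*} {O : ι → Set ℂ} (h : ∀ i, ConnIn X (O i))
    (hl : ∀ i j, Relation.ReflTransGen (fun i j => (O i ∩ O j).Nonempty) i j) :
    ConnIn X (⋃ i, O i) := by
  refine ⟨iUnion_subset fun i => (h i).1, fun x hx y hy => ?_⟩
  obtain ⟨i, hi⟩ := mem_iUnion.1 hx
  obtain ⟨j, hj⟩ := mem_iUnion.1 hy
  have key : ∀ j, Relation.ReflTransGen (fun i j => (O i ∩ O j).Nonempty) i j → ∀ y ∈ O j,
      Relation.ReflTransGen (fun a b => nbr X a b ∧ a ∈ ⋃ i, O i ∧ b ∈ ⋃ i, O i) x y := by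
    intro j hij
    induction hij with
    | refl => exact fun y hy => (h i).lift (subset_iUnion O i) hi hy
    | tail _ hjk ih =>
      intro y hy
      obtain ⟨p, hp, hp'⟩ := hjk
      exact (ih p hp).trans ((h _).lift (subset_iUnion O _) hp' hy)
  exact key j (hl i j) y hj

/-- Discs of a family indexed by a set, linked by common points of `X`. -/
theorem connIn_discs {X : Set ℂ} (hX : X.Finite) {ι : Type*} (J : Set ι) (c : ι → ℂ) (r : ι → ℝ)
    (hl : ∀ i ∈ J, ∀ j ∈ J, Relation.ReflTransGen (fun i j => i ∈ J ∧ j ∈ J ∧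
      (X ∩ (ball (c i) (r i) ∩ ball (c j) (r j))).Nonempty) i j) :
    ConnIn X (X ∩ ⋃ i ∈ J, ball (c i) (r i)) := by
  have e : X ∩ ⋃ i ∈ J, ball (c i) (r i) = ⋃ i : J, X ∩ ball (c i) (r i) := by
    ext z
    simp only [mem_inter_iff, mem_iUnion, Subtype.exists, exists_prop]
    constructor
    · rintro ⟨hz, i, hi, hz'⟩
      exact ⟨i, hi, hz, hz'⟩
    · rintro ⟨i, hi, hz, hz'⟩
      exact ⟨hz, i, hi, hz'⟩
  rw [e]
  refine connIn_iUnion (fun i => connIn_ball hX _ _) ?_
  rintro ⟨i, hi⟩ ⟨j, hj⟩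
  have key : ∀ j, Relation.ReflTransGen (fun i j => i ∈ J ∧ j ∈ J ∧
      (X ∩ (ball (c i) (r i) ∩ ball (c j) (r j))).Nonempty) i j → ∀ hj : j ∈ J,
      Relation.ReflTransGen (fun i j : J => (X ∩ ball (c i) (r i) ∩
        (X ∩ ball (c j) (r j))).Nonempty) ⟨i, hi⟩ ⟨j, hj⟩ := by
    intro j hij
    induction hij with
    | refl => exact fun _ => Relation.ReflTransGen.refl
    | tail _ hjk ih =>
      intro hj
      obtain ⟨h1, h2, p, hp, hp'⟩ := hjk
      exact (ih h1).tail ⟨p, ⟨hp, hp'.1⟩, ⟨hp, hp'.2⟩⟩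
  exact key j (hl i hi j hj) hj

/-! ### contraction -/

section

variable (X : Set ℂ) {ι : Type*} (O : ι → Set ℂ)

/-- The vertices which are not contracted. -/
def Free : Type := {x : ℂ // x ∈ X ∧ ∀ j, x ∉ O j}

/-- The vertices of the contracted triangulation. -/
abbrev CV : Type _ := ι ⊕ Free X O

open Classical in
/-- The contraction of the sets `O j`. -/
noncomputable def cmap [Inhabited ι] (x : ℂ) : CV X O :=
  if h : ∃ j, x ∈ O j then Sum.inl h.choose
  else if h' : x ∈ X then Sum.inr ⟨x, h', fun j hj => h ⟨j, hj⟩⟩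
  else Sum.inl default

variable {X O} [Inhabited ι]

theorem cmap_of_mem (hd : Pairwise fun i j => Disjoint (O i) (O j)) {x : ℂ} {j : ι}
    (hx : x ∈ O j) : cmap X O x = Sum.inl j := by
  have h : ∃ j, x ∈ O j := ⟨j, hx⟩
  unfold cmap
  rw [dif_pos h]
  congr 1
  by_contra hne
  exact Set.disjoint_left.1 (hd hne) h.choose_spec hx

theorem cmap_of_free {x : ℂ} (hx : x ∈ X) (hO : ∀ j, x ∉ O j) :
    cmap X O x = Sum.inr ⟨x, hx, hO⟩ := by
  unfold cmap
  rw [dif_neg (not_exists.2 hO), dif_pos hx]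

theorem cmap_free (v : Free X O) : cmap X O v.1 = Sum.inr v := cmap_of_free v.2.1 v.2.2

theorem mem_of_cmap {x : ℂ} (hx : x ∈ X) {j : ι} (h : cmap X O x = Sum.inl j) : x ∈ O j := by
  unfold cmap at h
  by_cases h1 : ∃ j, x ∈ O j
  · rw [dif_pos h1] at h
    rw [← Sum.inl_injective h]
    exact h1.choose_spec
  · rw [dif_neg h1, dif_pos hx] at h
    exact absurd h (by simp)

theorem eq_of_cmap {x : ℂ} {v : Free X O} (h : cmap X O x = Sum.inr v) : x = v.1 := by
  unfold cmap at h
  by_cases h1 : ∃ j, x ∈ O j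
  · rw [dif_pos h1] at h
    exact absurd h (by simp)
  · rw [dif_neg h1] at h
    by_cases h2 : x ∈ X
    · rw [dif_pos h2] at h
      exact congrArg Subtype.val (Sum.inr_injective h)
    · rw [dif_neg h2] at h
      exact absurd h (by simp)

/-- **B2a.** The contraction map has connected nonempty fibres. -/
theorem fib_cmap (hd : Pairwise fun i j => Disjoint (O i) (O j)) (hc : ∀ j, ConnIn X (O j))
    (hne : ∀ j, (O j).Nonempty) : Fib X (cmap X O) where
  conn := by
    intro x hx y hy hxy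
    cases hv : cmap X O x with
    | inl j =>
      have h1 := mem_of_cmap hx hv
      have h2 := mem_of_cmap hy (hxy.symm.trans hv)
      refine Relation.ReflTransGen.mono (fun a b (h : nbr X a b ∧ a ∈ O j ∧ b ∈ O j) => ?_) _ _
        ((hc j).2 x h1 y h2)
      exact ⟨h.1, by rw [cmap_of_mem hd h.2.1, cmap_of_mem hd h.2.2]⟩
    | inr v =>
      have h1 := eq_of_cmap hv
      have h2 := eq_of_cmap (hxy.symm.trans hv)
      rw [h1, h2]
  surj := by
    rintro (j | v)
    · obtain ⟨x, hx⟩ := hne j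
      exact ⟨x, (hc j).1 hx, cmap_of_mem hd hx⟩
    · exact ⟨v.1, v.2.1, cmap_free v⟩

instance [Finite X] : Finite (Free X O) :=
  Finite.of_injective (β := X) (fun v : Free X O => (⟨v.1, v.2.1⟩ : X)) fun v w h => by
    have h' : (⟨v.1, v.2.1⟩ : X) = ⟨w.1, w.2.1⟩ := h
    have : v.1 = w.1 := Subtype.mk_eq_mk.1 h'
    exact Subtype.ext this

end

/-- The map to the vertices themselves. -/
noncomputable def idmap (X : Set ℂ) (x₀ : X) (x : ℂ) : X := by
  classical exact if h : x ∈ X then ⟨x, h⟩ else x₀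

theorem fib_id (X : Set ℂ) (x₀ : X) : Fib X (idmap X x₀) where
  conn := by
    intro x hx y hy hxy
    unfold idmap at hxy
    rw [dif_pos hx, dif_pos hy] at hxy
    have : x = y := congrArg Subtype.val hxy
    rw [this]
  surj v := ⟨v.1, v.2, by unfold idmap; rw [dif_pos v.2]⟩

end Vale.Agent.P148.R2.H592
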