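import Vale.Agent.P148.R2.H592.Contr

/-!
# P148, module B2J, part 1: components, maximal extension of connected classes
-/

open Set Metric Topology Filter

namespace Vale.Agent.P148.R2.H592

/-- The component of `x` in the vertex set `O`. -/
def comp (X O : Set ℂ) (x : ℂ) : Set ℂ :=
  {y | y ∈ O ∧ Relation.ReflTransGen (fun a b => nbr X a b ∧ a ∈ O ∧ b ∈ O) x y}

theorem comp_subset (X O : Set ℂ) (x : ℂ) : comp X O x ⊆ O := fun _ h => h.1

theorem mem_comp_self {X O : Set ℂ} {x : ℂ} (hx : x ∈ O) : x ∈ comp X O x :=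
  ⟨hx, Relation.ReflTransGen.refl⟩

theorem symm_in {X O : Set ℂ} {x y : ℂ}
    (h : Relation.ReflTransGen (fun a b => nbr X a b ∧ a ∈ O ∧ b ∈ O) x y) :
    Relation.ReflTransGen (fun a b => nbr X a b ∧ a ∈ O ∧ b ∈ O) y x := by
  induction h with
  | refl => exact Relation.ReflTransGen.refl
  | tail _ hbc ih => exact Relation.ReflTransGen.head ⟨nbr_symm hbc.1, hbc.2.2, hbc.2.1⟩ ih

theorem comp_closed {X O : Set ℂ} {x y z : ℂ} (hy : y ∈ comp X O x) (hyz : nbr X y z)
    (hz : z ∈ O) : z ∈ comp X O x := ⟨hz, hy.2.tail ⟨hyz, hy.1, hz⟩⟩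

theorem connIn_comp {X O : Set ℂ} (hO : O ⊆ X) (x : ℂ) : ConnIn X (comp X O x) := by
  refine ⟨(comp_subset X O x).trans hO, fun y hy z hz => ?_⟩
  have key : ∀ z, Relation.ReflTransGen (fun a b => nbr X a b ∧ a ∈ O ∧ b ∈ O) y z →
      Relation.ReflTransGen (fun a b => nbr X a b ∧ a ∈ comp X O x ∧ b ∈ comp X O x) y z ∧
        z ∈ comp X O x := by
    intro z hyz
    induction hyz with
    | refl => exact ⟨Relation.ReflTransGen.refl, hy⟩
    | tail _ hbc ih =>
      have h1 := comp_closed ih.2 hbc.1 hbc.2.2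
      exact ⟨ih.1.tail ⟨hbc.1, ih.2, h1⟩, h1⟩
  exact (key z ((symm_in hy.2).trans hz.2)).1

/-- A connected set contained in `O` which meets a component is contained in it. -/
theorem ConnIn.subset_comp {X O A : Set ℂ} (hA : ConnIn X A) (hAO : A ⊆ O) {x y : ℂ}
    (hy : y ∈ A) (hy' : y ∈ comp X O x) : A ⊆ comp X O x := fun _ hz =>
  ⟨hAO hz, hy'.2.trans (hA.lift hAO hy hz)⟩

theorem connIn_insert {X O : Set ℂ} (h : ConnIn X O) {a c : ℂ} (ha : a ∈ O) (hac : nbr X a c) :
    ConnIn X (insert c O) := by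
  refine ⟨Set.insert_subset hac.2.1 h.1, ?_⟩
  have h1 : ∀ x ∈ insert c O, Relation.ReflTransGen
      (fun u v => nbr X u v ∧ u ∈ insert c O ∧ v ∈ insert c O) a x := by
    rintro x (rfl | hx)
    · exact Relation.ReflTransGen.single ⟨hac, mem_insert_of_mem _ ha, mem_insert _ _⟩
    · exact h.lift (subset_insert _ _) ha hx
  exact fun x hx y hy => (symm_in (h1 x hx)).trans (h1 y hy)

/-- A path which leaves a set crosses its boundary. -/
theorem exists_exit {α : Type*} {R : α → α → Prop} {A : Set α} {x y : α}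
    (h : Relation.ReflTransGen R x y) (hx : x ∈ A) (hy : y ∉ A) : ∃ a c, R a c ∧ a ∈ A ∧ c ∉ A := by
  induction h with
  | refl => exact absurd hx hy
  | tail _ hbc ih =>
    rename_i b c _
    by_cases hb : b ∈ A
    · exact ⟨b, c, hbc, hb, hy⟩
    · exact ih hb

/-- **Maximal extension.** Disjoint connected subsets of a connected set can be extended to a
partition into connected sets. -/
theorem exists_ext {X E : Set ℂ} (hX : X.Finite) (hE : ConnIn X E) {ι : Type*} (O : ι → Set ℂ)
    (hO : ∀ j, ConnIn X (O j)) (hd : Pairwise fun i j => Disjoint (O i) (O j))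
    (hsub : ∀ j, O j ⊆ E) (hne : ∃ j, (O j).Nonempty) :
    ∃ O' : ι → Set ℂ, (∀ j, O j ⊆ O' j) ∧ (∀ j, ConnIn X (O' j)) ∧
      (Pairwise fun i j => Disjoint (O' i) (O' j)) ∧ ⋃ j, O' j = E := by
  classical
  generalize hn : (E \ ⋃ j, O j).ncard = n
  induction n using Nat.strong_induction_on generalizing O with
  | _ n ih =>
    by_cases hcov : E ⊆ ⋃ j, O j
    · exact ⟨O, fun _ => subset_rfl, hO, hd, Subset.antisymm (iUnion_subset hsub) hcov⟩
    · obtain ⟨w, hwE, hw⟩ := Set.not_subset.1 hcov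
      obtain ⟨j₀, r, hr⟩ := hne
      obtain ⟨a, c, hac, ha, hc⟩ := exists_exit (hE.2 r (hsub j₀ hr) w hwE)
        (mem_iUnion.2 ⟨j₀, hr⟩) hw
      obtain ⟨j, haj⟩ := mem_iUnion.1 ha
      have hfin : (E \ ⋃ j, O j).Finite := (hX.subset hE.1).subset sdiff_subset
      set O₁ : ι → Set ℂ := fun i => if i = j then insert c (O i) else O i with hO₁
      have e1 : O₁ j = insert c (O j) := by simp [hO₁]
      have e2 : ∀ i, i ≠ j → O₁ i = O i := fun i hi => by simp [hO₁, hi]
      have hle : ∀ i, O i ⊆ O₁ i := by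
        intro i
        by_cases hi : i = j
        · subst hi; rw [e1]; exact subset_insert _ _
        · rw [e2 i hi]
      have hcn : ∀ i, c ∉ O i := fun i hi => hc (mem_iUnion.2 ⟨i, hi⟩)
      have hcm : c ∈ ⋃ i, O₁ i := mem_iUnion.2 ⟨j, by rw [e1]; exact mem_insert _ _⟩
      have hlt : (E \ ⋃ i, O₁ i).ncard < n := by
        rw [← hn]
        refine Set.ncard_lt_ncard ?_ hfin
        refine ⟨sdiff_subset_sdiff_right (iUnion_mono hle), fun h => ?_⟩
        exact (h ⟨hac.2.2, hc⟩).2 hcm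
      have g1 : ∀ i, ConnIn X (O₁ i) := by
        intro i
        by_cases hi : i = j
        · subst hi; rw [e1]; exact connIn_insert (hO i) haj hac.1
        · rw [e2 i hi]; exact hO i
      have g2 : Pairwise fun i k => Disjoint (O₁ i) (O₁ k) := by
        intro i k hik
        by_cases hi : i = j
        · subst hi
          rw [e1, e2 k (Ne.symm hik), Set.disjoint_insert_left]
          exact ⟨hcn k, hd hik⟩
        · by_cases hk : k = j
          · subst hk
            rw [e1, e2 i hi, Set.disjoint_insert_right]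
            exact ⟨hcn i, hd hik⟩
          · rw [e2 i hi, e2 k hk]
            exact hd hik
      have g3 : ∀ i, O₁ i ⊆ E := by
        intro i
        by_cases hi : i = j
        · subst hi; rw [e1]; exact Set.insert_subset hac.2.2 (hsub i)
        · rw [e2 i hi]; exact hsub i
      obtain ⟨O', h1, h2, h3, h4⟩ := ih _ hlt O₁ g1 g2 g3 ⟨j₀, r, hle j₀ hr⟩ rfl
      exact ⟨O', fun i => (hle i).trans (h1 i), h2, h3, h4⟩

/-- The complement of a component of the complement of a connected set is connected. -/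
theorem connIn_compl_comp {X R : Set ℂ} (hX : X.Finite) (hR : ConnIn X R) (hne : R.Nonempty)
    (i₀ : ℂ) : ConnIn X (X \ comp X (X \ R) i₀) := by
  set I := comp X (X \ R) i₀ with hI
  have hRE : R ⊆ X \ I := fun x hx => ⟨hR.1 hx, fun h => (comp_subset _ _ _ h).2 hx⟩
  obtain ⟨r, hr⟩ := hne
  have key : ∀ w, Relation.ReflTransGen (fun a b => nbr X a b) w r → w ∈ X \ I →
      ∃ r' ∈ R, Relation.ReflTransGen (fun a b => nbr X a b ∧ a ∈ X \ I ∧ b ∈ X \ I) w r' := by
    intro w hw
    induction hw using Relation.ReflTransGen.head_induction_on with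
    | refl => exact fun _ => ⟨r, hr, Relation.ReflTransGen.refl⟩
    | head hac _ ih =>
      rename_i a c _
      intro ha
      by_cases haR : a ∈ R
      · exact ⟨a, haR, Relation.ReflTransGen.refl⟩
      · have hc : c ∈ X \ I := by
          refine ⟨hac.2.1, fun hc => ha.2 ?_⟩
          exact comp_closed hc (nbr_symm hac) ⟨ha.1, haR⟩
        obtain ⟨r', hr', h⟩ := ih hc
        exact ⟨r', hr', Relation.ReflTransGen.head ⟨hac, ha, hc⟩ h⟩
  refine ⟨sdiff_subset, fun x hx y hy => ?_⟩
  obtain ⟨x', hx', h1⟩ := key x (graph_connected hX hx.1 (hR.1 hr)) hx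
  obtain ⟨y', hy', h2⟩ := key y (graph_connected hX hy.1 (hR.1 hr)) hy
  exact h1.trans ((hR.lift hRE hx' hy').trans (symm_in h2))

/-- The neighbours of a component of the complement of `R` are in `R`. -/
theorem nbr_comp {X R : Set ℂ} {i₀ u v : ℂ} (hu : u ∈ comp X (X \ R) i₀) (huv : nbr X u v) :
    v ∈ comp X (X \ R) i₀ ∨ v ∈ R := by
  by_cases hv : v ∈ R
  · exact Or.inr hv
  · exact Or.inl (comp_closed hu huv ⟨huv.2.1, hv⟩)

end Vale.Agent.P148.R2.H592
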