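import Vale.Agent.P148.R2.H592.Conv7
import Vale.Agent.P148.R2.H990.X14

/-!
# P148, module CONV, part 8: existence of the discrete domains, `ConvD`
-/

open Set Metric Topology Filter MeasureTheory

namespace Vale.Agent.P148.R2.H592

open _root_.P148 (sq side corner Quad Pt pts)
open Vale.Agent.P148.R2.F (arc3 whp Conv)
open Vale.Agent.P148.R2.H990 (QA QA' Win)

universe u

/-- A discrete domain from three classes. -/
theorem exists_dom {X : Set ℂ} {b : ZMod 3 → ℂ} {O : ZMod 3 → Set ℂ} (hX : HullTri X b)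
    (conn : ∀ j, ConnIn X (O j)) (disj : Pairwise fun i j => Disjoint (O i) (O j))
    (face : ∃ o : ZMod 3 → ℂ, (∀ j, o j ∈ O j) ∧
      (Tl X b (o 0) (o 1) (o 2) ∨ Tl X b (o 1) (o 0) (o 2))) :
    ∃ D : F.Dom, D.X = X ∧ D.b = b ∧ D.O = O := by
  obtain ⟨o, ho, h1⟩ := face
  have : ∃ q : Fc X b × ZMod 3, head q ∈ O 0 ∧
      ((tail q ∈ O 1 ∧ vc q.1 q.2 ∈ O 2) ∨ (tail q ∈ O 2 ∧ vc q.1 q.2 ∈ O 1)) := by
    rcases h1 with h1 | h1
    · obtain ⟨q, q1, q2, q3⟩ := hX.exists_dart_face (HullTri.Tl_rot (HullTri.Tl_rot h1))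
      have q3' : vc q.1 q.2 = o 1 := q3
      exact ⟨q, by rw [q2]; exact ho 0, Or.inr ⟨by rw [q1]; exact ho 2, by rw [q3']; exact ho 1⟩⟩
    · obtain ⟨q, q1, q2, q3⟩ := hX.exists_dart_face h1
      have q3' : vc q.1 q.2 = o 2 := q3
      exact ⟨q, by rw [q2]; exact ho 0, Or.inl ⟨by rw [q1]; exact ho 1, by rw [q3']; exact ho 2⟩⟩
  obtain ⟨q, hq, hq'⟩ := this
  exact ⟨⟨X, b, hX, O, disj, conn, fun j => ⟨o j, ho j⟩, q, hq, hq'⟩, rfl, rfl, rfl⟩

theorem pts_empty : pts (∅ : Set Pt) = ∅ := by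
  ext x
  simp [pts]

/-- A discrete domain with three sites. -/
instance : Nonempty F.Dom := by
  have hg : Generic (∅ : Set Pt) (bfar 1) := by
    refine ⟨fun r => by simp, fun a ha => ?_⟩
    rw [pts_empty] at ha
    exact ha.elim
  have hX : HullTri (XU ∅ (ball 0 (1 / 2)) (bfar 1)) (bfar 1) :=
    hg.hullTri isBounded_ball (bfar_ccw one_pos) fun x hx j =>
      bfar_inside one_pos (by rwa [mem_ball_zero_iff] at hx) j
  have hmem : ∀ j, bfar 1 j ∈ XU ∅ (ball 0 (1 / 2)) (bfar 1) := fun j => Or.inr ⟨j, rfl⟩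
  have hinj : ∀ i j : ZMod 3, i ≠ j → bfar 1 i ≠ bfar 1 j := fun i j => hX.b_ne
  obtain ⟨D, -⟩ := exists_dom (O := fun j => {bfar 1 j}) hX (fun j => ⟨by
      rintro x rfl; exact hmem j, by
      rintro x rfl y rfl; exact Relation.ReflTransGen.refl⟩)
    (fun i j hij => Set.disjoint_singleton.2 (hinj i j hij))
    ⟨bfar 1, fun j => rfl, Or.inr (Or.inr ⟨0, rfl, rfl, rfl⟩)⟩
  exact ⟨D⟩

theorem le_norm_bfar {ρ : ℝ} (hρ : 0 ≤ ρ) (j : ZMod 3) : ρ / 2 ≤ ‖bfar ρ j‖ := by
  refine le_trans ?_ (Complex.abs_re_le_norm _)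
  have hj : j = 0 ∨ j = 1 ∨ j = 2 := by revert j; decide
  rcases hj with rfl | rfl | rfl
  · show ρ / 2 ≤ |ρ|
    rw [abs_of_nonneg hρ]; linarith
  · show ρ / 2 ≤ |- ρ / 2|
    rw [abs_of_nonpos (by linarith)]; linarith
  · show ρ / 2 ≤ |- ρ / 2|
    rw [abs_of_nonpos (by linarith)]; linarith

/-- **Row CONV.** -/
theorem convD : H990.ConvD.{u} := by
  classical
  intro Q P hP r1 R1 hr1
  have hnear : NearQ P Q := by
    rcases hP with rfl | rfl
    · exact nearQ_QA Q
    · exact nearQ_QA' Q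
  set r : ℕ → ℝ := fun n => min (r1 n) (1 / ((n : ℝ) + 1)) with hr
  have hr0 : ∀ n, 0 < r n := fun n => lt_min (hr1 n) (by positivity)
  have hrt : Tendsto r atTop (𝓝 0) := by
    refine tendsto_of_tendsto_of_tendsto_of_le_of_le tendsto_const_nhds
      tendsto_one_div_add_atTop_nhds_zero_nat (fun n => (hr0 n).le) fun n => min_le_right _ _
  choose t e δ ρ R s hδ hρ hR hG using fun n => exists_good (P n) (hr0 n)
  set R' : ℕ → ℝ := fun n => max (max (R n) (R1 n)) n + 2 with hR'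
  have hR'1 : ∀ n, R n + 2 ≤ R' n := fun n => by
    have : R n ≤ max (max (R n) (R1 n)) n := (le_max_left _ _).trans (le_max_left _ _)
    simp only [hR']; linarith
  have hR'2 : ∀ n, R1 n + 2 ≤ R' n := fun n => by
    have : R1 n ≤ max (max (R n) (R1 n)) n := (le_max_right _ _).trans (le_max_left _ _)
    simp only [hR']; linarith
  have hR'0 : ∀ n, 0 < R' n := fun n => by linarith [hR'1 n, hR n]
  have hR't : Tendsto R' atTop atTop := by
    refine tendsto_atTop_mono (fun n => ?_) tendsto_natCast_atTop_atTop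
    have : (n : ℝ) ≤ max (max (R n) (R1 n)) n := le_max_right _ _
    simp only [hR']; linarith
  set ρ' : ℕ → ℝ := fun n => min (min (ρ n) (r1 n)) 1 with hρ'
  have hρ'0 : ∀ n, 0 < ρ' n := fun n => lt_min (lt_min (hρ n) (hr1 n)) one_pos
  have hρ'1 : ∀ n, ρ' n ≤ ρ n := fun n => (min_le_left _ _).trans (min_le_left _ _)
  have hρ'2 : ∀ n, ρ' n ≤ r1 n := fun n => (min_le_left _ _).trans (min_le_right _ _)
  have hρ'3 : ∀ n, ρ' n ≤ 1 := fun n => min_le_right _ _
  set OK : ℕ → ℝ × Set Pt → F.Dom → Prop := fun n m D => Spec P r R' n m.2 D ∧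
    QDom (P n) (r n) D.X D.b D.O ∧ Win D.X (pts m.2) (closedBall 0 (R1 n)) (ρ' n) with hOK
  have hex : ∀ n, ∀ᶠ m in whp.{u}, ∃ D, OK n m D := by
    intro n
    filter_upwards [F.whp_net.{u} (max (R n) (R1 n)) (hρ'0 n),
      F.whp_generic.{u} (bfar (2 * R' n))] with m hnet hgen
    have hX : HullTri (XU m.2 (ball 0 (R' n)) (bfar (2 * R' n))) (bfar (2 * R' n)) :=
      hgen.hullTri isBounded_ball (bfar_ccw (by linarith [hR'0 n])) fun x hx j =>
        bfar_inside (by linarith [hR'0 n]) (by rw [mem_ball_zero_iff] at hx; linarith) j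
    have hnet' : ∀ z ∈ closedBall (0 : ℂ) (max (R n) (R1 n)),
        ∃ x ∈ XU m.2 (ball 0 (R' n)) (bfar (2 * R' n)), dist z x ≤ ρ' n := by
      intro z hz
      obtain ⟨x, hx, hzx⟩ := hnet z hz
      refine ⟨x, Or.inl ⟨hx, ?_⟩, hzx.le⟩
      rw [mem_closedBall, dist_zero_right] at hz
      rw [mem_ball, dist_zero_right]
      have h1 : ‖x‖ ≤ ‖z‖ + dist z x := by
        have := norm_sub_norm_le x z
        rw [Complex.dist_eq, norm_sub_rev]
        linarith
      have h2 := hρ'3 n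
      have h3 : max (R n) (R1 n) + 2 ≤ R' n := by
        have : max (R n) (R1 n) ≤ max (max (R n) (R1 n)) n := le_max_left _ _
        simp only [hR']; linarith
      linarith
    obtain ⟨i₀, h⟩ := hG n _ _ hX (fun z hz => by
      obtain ⟨x, hx, hzx⟩ := hnet' z (closedBall_subset_closedBall (le_max_left _ _) hz)
      exact ⟨x, hx, hzx.trans (hρ'1 n)⟩)
    have hq := h.qdom
    obtain ⟨D, h1, h2, h3⟩ := exists_dom hX hq.conn hq.disj hq.face
    have hw : Win (XU m.2 (ball 0 (R' n)) (bfar (2 * R' n))) (pts m.2) (closedBall 0 (R1 n))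
        (ρ' n) := by
      refine ⟨hX.fin, hρ'0 n, fun z hz => ⟨fun hz' => ?_, fun hz' => Or.inl ⟨hz', ?_⟩⟩, ?_⟩
      · rcases hz' with hz' | ⟨j, hj⟩
        · exact hz'.1
        · exfalso
          rw [mem_closedBall, dist_zero_right, ← hj] at hz
          have h4 := le_norm_bfar (show 0 ≤ 2 * R' n by linarith [hR'0 n]) j
          have h5 := hR'2 n
          linarith
      · rw [mem_closedBall] at hz
        rw [mem_ball]
        linarith [hR'2 n]
      · intro z hz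
        exact hnet' z (closedBall_subset_closedBall (le_max_right _ _) hz)
    have hb : ∀ j, R' n ≤ ‖bfar (2 * R' n) j‖ := fun j => by
      have := le_norm_bfar (show 0 ≤ 2 * R' n by linarith [hR'0 n]) j
      linarith
    refine ⟨D, ⟨?_, by rw [h1, h2], by rw [h2]; exact hb⟩, by rw [h1, h2, h3]; exact hq,
      by rw [h1]; exact hw⟩
    exact ⟨t n, e n, δ n, ρ n, R n, s n, i₀, by rw [h1, h2]; exact h, by rw [h1, h3]⟩
  set E : ℕ × (ℝ × Set Pt) → F.Dom := fun i =>
    if h : ∃ D, OK i.1 i.2 D then h.choose else Classical.arbitrary _ with hE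
  have hEs : ∀ n m, (∃ D, OK n m D) → OK n m (E (n, m)) := by
    intro n m h
    have : E (n, m) = h.choose := dif_pos h
    rw [this]
    exact h.choose_spec
  refine ⟨E, conv_of hnear hrt hR't (r := r) fun n => ?_, fun n => ?_⟩
  · filter_upwards [hex n] with m hm
    exact (hEs n m hm).1
  · filter_upwards [hex n] with m hm
    obtain ⟨-, h2, h3⟩ := hEs n m hm
    exact ⟨r n, ρ' n, min_le_left _ _, hρ'2 n, h2, h3⟩

/-- **`XStmt` from the arm bound.** -/
theorem xs (h : F.ArmStmt.{u}) : F.XStmt.{u} := H990.xs_of_convD h convD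

end Vale.Agent.P148.R2.H592
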