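import Vale.Agent.P148.R2.H291.Site
import Vale.Agent.P148.R2.H598.Dict

/-!
# P148, row WLD: the facts about world 0 which do not depend on the comb, `PCW` instance
-/

open Set Metric Topology Filter

namespace Vale.Agent.P148.R2.H592

open _root_.P148 (Pt pts)
open _root_.P148.H729 (OneCol)
open Vale.Agent.P148.R2.H995 (nsup)
open Vale.Agent.P148.R2.H184 (PCW A0)
open Vale.Agent.P148.R2.H291 (SiteOK site bR InEnv norm_le_nsup nsup_le_norm)
open Vale.Agent.P148.R2.H566 (W0)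
open Vale.Agent.P148.R2.H598 (mkT pts_mkT col_mkT oneCol_mkT mem_mkT)

theorem generic_mkT {T : Set Pt} {b : ZMod 3 → ℂ} (h : Generic T b) (c : ℂ → Bool) :
    Generic (mkT (pts T) c) b := by
  refine ⟨fun r => ?_, ?_⟩
  · have h1 := finite_pts_inter h.1 (U := ball (0 : ℂ) r) isBounded_ball
    refine (h1.image fun x => (x, c x)).subset ?_
    rintro ⟨x, y⟩ ⟨⟨h2, h3⟩, h4, -⟩
    exact ⟨x, ⟨h2, h4⟩, Prod.ext rfl h3.symm⟩
  · rw [pts_mkT]
    exact h.2

theorem site_mkT (T : Set Pt) (R : ℝ) (c : ℂ → Bool) : site (mkT (pts T) c) R = site T R := by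
  unfold site XU
  rw [pts_mkT]

theorem siteOK_mkT {T : Set Pt} {R s : ℝ} (h : SiteOK T R s) (c : ℂ → Bool) :
    SiteOK (mkT (pts T) c) R s where
  hR := h.hR
  hs := h.hs
  hs1 := h.hs1
  gen := generic_mkT h.gen c
  one := oneCol_mkT _ _
  stab := by rw [pts_mkT]; exact h.stab

/-- The deterministic facts about the explored set `E`, the free component `I` and the colours `sg`
of the explored sites (mesh `a`). -/
structure WFacts (a : ℝ) (X E I : Set ℂ) (sg : ℂ → Bool) : Prop where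
  a0 : 0 < a
  a1 : a ≤ 1 / 2
  sub : I ⊆ X
  near : ∀ z ∈ I, nsup z < 1 + 5 * a / 8
  conn : ConnIn X (X \ I)
  ne : (X \ I).Nonempty
  bdry : ∀ u ∈ I, ∀ v, nbr X u v → v ∉ I → v ∈ E ∧ sg v = true
  core : X ∩ ball 0 (1 - a / 8) ⊆ I

namespace WFacts

variable {a : ℝ} {E I : Set ℂ} {sg : ℂ → Bool} {T : Set Pt} {R s : ℝ}
  (F : WFacts a (site T R) E I sg) (h : SiteOK T R s)
include F

theorem norm_lt {z : ℂ} (hz : z ∈ I) : ‖z‖ < 21 / 8 := by
  have h1 := norm_le_nsup z
  have h2 := F.near z hz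
  have h3 := F.a1
  linarith

/-- World 0. -/
noncomputable def w0 (h : SiteOK T R s) : W0 := ⟨site T R, bR R, h.hull, site T R \ I, F.conn, F.ne⟩

theorem free_iff {w : W0} (hX : w.X = site T R) (hB : w.B = site T R \ I) (x : ℂ) :
    w.Free x ↔ x ∈ I := by
  unfold W0.Free
  rw [hX, hB]
  constructor
  · rintro ⟨h1, h2⟩
    by_contra h3
    exact h2 ⟨h1, h3⟩
  · intro h1
    exact ⟨F.sub h1, fun h2 => h2.2 h1⟩

include h

theorem b_mem {w : W0} (hb : w.b = bR R) (hB : w.B = site T R \ I)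
    (hR : 3 ≤ R) (j : ZMod 3) : w.b j ∈ w.B := by
  rw [hb, hB]
  refine ⟨h.b_mem j, fun h1 => ?_⟩
  have h2 := F.near _ h1
  have h3 := h.far j
  have h4 := F.a1
  linarith

/-- A neighbour of a free site is a point of the configuration. -/
theorem nbr_pts (hR : 4 ≤ R) {u v : ℂ} (hu : u ∈ I) (huv : nbr (site T R) u v) :
    v ∈ pts T ∧ ‖v‖ < 3 := by
  have h1 := F.norm_lt hu
  have h2 := h.edge (x := u) (y := v) (by rw [mem_closedBall, dist_zero_right]; linarith) huv
  have h3 := h.hs1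
  have h4 := h.hs
  have h5 : ‖v‖ < 3 := by
    have := norm_sub_norm_le v u
    rw [dist_comm, Complex.dist_eq] at h2
    linarith
  refine ⟨(h.mem_pts huv.2.1 fun j => h.ne_b ?_ j).1, h5⟩
  rw [mem_ball, dist_zero_right]
  linarith

theorem mem_pts (hR : 4 ≤ R) {u : ℂ} (hu : u ∈ I) : u ∈ pts T := by
  refine (h.mem_pts (F.sub hu) fun j => h.ne_b ?_ j).1
  rw [mem_ball, dist_zero_right]
  have := F.norm_lt hu
  linarith

theorem inner {x : ℂ} (hx : x ∈ site T R) (hxA : x ∈ A0) : x ∈ I := by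
  refine F.core ⟨hx, ?_⟩
  obtain ⟨⟨h1, h2⟩, h3, h4⟩ := hxA
  simp only at h1 h2 h3 h4
  have h5 : ‖x‖ ^ 2 ≤ 1 / 2 := by
    rw [← Complex.normSq_eq_norm_sq, Complex.normSq_apply]
    nlinarith
  have h6 := F.a1
  rw [mem_ball, dist_zero_right]
  nlinarith [norm_nonneg x]

/-- **The hypotheses of row PC for every recoloured configuration with the right colours on the
explored set.** -/
theorem pcw (hR : 6 ≤ R) {w : W0} (hX : w.X = site T R) (hb : w.b = bR R)
    (hB : w.B = site T R \ I) {c : ℂ → Bool} (hc : ∀ v ∈ E, v ∈ pts T → c v = sg v) :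
    PCW (mkT (pts T) c) w := by
  refine (siteOK_mkT h c).pcw hR (by rw [site_mkT, hX]) hb
    (F.b_mem h hb hB (by linarith)) (fun x hx => ?_) (fun x y hxy hx hy => ?_)
    (fun x hx hxA hxB => ?_)
  · have h1 := F.near x ((F.free_iff hX hB x).1 hx)
    have h2 := F.a1
    linarith
  · have h1 := (F.free_iff hX hB x).1 hx
    rw [hX] at hxy
    rw [hB] at hy
    obtain ⟨h2, h3⟩ := F.bdry x h1 y hxy hy.2
    have h4 := (F.nbr_pts h (by linarith) h1 hxy).1
    rw [col_mkT h4, hc y h2 h4, h3]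
  · rw [hX] at hx
    rw [hB] at hxB
    exact hxB.2 (F.inner h hx hxA)

/-- The environment of world 0. -/
theorem inEnv (hR : 4 ≤ R) {w : W0} (hX : w.X = site T R) (hb : w.b = bR R)
    (hB : w.B = site T R \ I) : InEnv w (pts T) 3 s := by
  refine h.inEnv hX (F.b_mem h hb hB (by linarith)) (by linarith) fun x hx => ?_
  rw [mem_closedBall, dist_zero_right]
  have := F.norm_lt ((F.free_iff hX hB x).1 hx)
  linarith

/-- The sites in the small square are free and are points of the configuration. -/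
theorem ok (hR : 4 ≤ R) {w : W0} (hX : w.X = site T R) (hB : w.B = site T R \ I) :
    w.X ∩ A0 = pts T ∩ A0 ∧ ∀ x ∈ w.X, x ∈ A0 → x ∉ w.B := by
  refine ⟨?_, fun x hx hxA hxB => ?_⟩
  · rw [hX]
    refine h.agree fun z hz => ?_
    obtain ⟨⟨h1, h2⟩, h3, h4⟩ := hz
    simp only at h1 h2 h3 h4
    have h5 : ‖z‖ ^ 2 ≤ 1 / 2 := by
      rw [← Complex.normSq_eq_norm_sq, Complex.normSq_apply]
      nlinarith
    rw [mem_ball, dist_zero_right]
    nlinarith [norm_nonneg z]
  · rw [hX] at hx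
    rw [hB] at hxB
    exact hxB.2 (F.inner h hx hxA)

end WFacts

end Vale.Agent.P148.R2.H592
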