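import Vale.Agent.P148.R2.H592.Del8

/-!
# Closed walks of the quotiented sphere triangulation bound mod 2 (P148, module B)
-/

open Set Metric Topology Filter

namespace Vale.Agent.P148.R2.H592

namespace HullTri

variable {X : Set ℂ} {b : ZMod 3 → ℂ} (h : HullTri X b) {V : Type*} (π : ℂ → V) (hπ : Fib X π)

/-- The mod 2 chain of a list of darts. -/
noncomputable def lch (l : List (Fc X b × ZMod 3)) (u v : ℂ) : ZMod 2 :=
  (l.map fun d => eind (tail d) (head d) u v).sum

include h

theorem path_chain {x y : ℂ} (hx : x ∈ X)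
    (hxy : Relation.ReflTransGen (fun a b => nbr X a b ∧ π a = π b) x y) :
    ∃ c : ℂ → ℂ → ZMod 2, (∀ u v, c u v = c v u) ∧
      (∀ u v, c u v ≠ 0 → nbr X u v ∧ π u = π x ∧ π v = π x) ∧
      ∀ v, ∑ w ∈ h.fin.toFinset, c v w = (if v = x then 1 else 0) + (if v = y then 1 else 0) := by
  classical
  induction hxy with
  | refl =>
    refine ⟨fun _ _ => 0, fun _ _ => rfl, fun u v huv => absurd rfl huv, fun v => ?_⟩
    have : ∀ x : ZMod 2, 0 = x + x := by decide
    simp only [Finset.sum_const_zero]
    exact this _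
  | tail hab hbc ih =>
    rename_i a d
    obtain ⟨c, h1, h2, h3⟩ := ih
    have hpa : π a = π x := by
      have : ∀ y, Relation.ReflTransGen (fun a b => nbr X a b ∧ π a = π b) x y → π y = π x := by
        intro y hy
        induction hy with
        | refl => rfl
        | tail _ hbc ih => rw [← ih]; exact hbc.2.symm
      exact this a hab
    refine ⟨fun u v => c u v + eind a d u v, fun u v => ?_, fun u v huv => ?_, fun v => ?_⟩
    · show c u v + eind a d u v = c v u + eind a d v u
      rw [h1, eind_symm]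
    · by_cases hc : c u v = 0
      · have he : eind a d u v ≠ 0 := by
          intro h0
          apply huv
          show c u v + eind a d u v = 0
          rw [hc, h0, add_zero]
        by_contra hcon
        apply he
        refine eind_of_ne ?_
        rintro (⟨rfl, rfl⟩ | ⟨rfl, rfl⟩)
        · exact hcon ⟨hbc.1, hpa, hbc.2.symm.trans hpa⟩
        · exact hcon ⟨nbr_symm hbc.1, hbc.2.symm.trans hpa, hpa⟩
      · exact h2 u v hc
    · show ∑ w ∈ h.fin.toFinset, (c v w + eind a d v w) = _
      rw [Finset.sum_add_distrib, h3 v, sum_eind hbc.1.2.2.1 (h.fin.mem_toFinset.2 hbc.1.1)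
        (h.fin.mem_toFinset.2 hbc.1.2.1)]
      have : ∀ x y z : ZMod 2, x + y + (y + z) = x + z := by decide
      exact this _ _ _

include hπ

theorem walk_chain {v w : V} {l : List (Fc X b × ZMod 3)} (hl : (h.tri258 π hπ).Walk v w l) :
    ∀ x ∈ X, ∀ y ∈ X, π x = v → π y = w →
    ∃ c : ℂ → ℂ → ZMod 2, (∀ u v, c u v = c v u) ∧
      (∀ u v, c u v ≠ 0 → nbr X u v ∧ π u = π v ∧ ((∃ e ∈ l, π (tail e) = π u) ∨ π u = w)) ∧
      ∀ v, ∑ w ∈ h.fin.toFinset, (lch l v w + c v w) =
        (if v = x then 1 else 0) + (if v = y then 1 else 0) := by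
  classical
  induction hl with
  | nil v =>
    intro x hx y hy hxv hyv
    obtain ⟨c, h1, h2, h3⟩ := h.path_chain π hx (hπ.conn x hx y hy (hxv.trans hyv.symm))
    refine ⟨c, h1, fun u v' huv => ?_, fun v' => ?_⟩
    · obtain ⟨h4, h5, h6⟩ := h2 u v' huv
      exact ⟨h4, h5.trans h6.symm, Or.inr (h5.trans hxv)⟩
    · rw [← h3 v']
      refine Finset.sum_congr rfl fun w _ => ?_
      simp [lch]
  | cons d w l hl ih =>
    intro x hx y hy hxv hyw
    have hd := h.nbr_th d
    have hxd : π x = π (tail d) := hxv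
    have hhd : π (head d) = (h.tri258 π hπ).tgt d := by
      show π (head d) = π (tail (h.rv d))
      rw [h.tail_rv]
    obtain ⟨c₁, h1, h2, h3⟩ := h.path_chain π hx (hπ.conn x hx (tail d) hd.1 hxd)
    obtain ⟨c₂, k1, k2, k3⟩ := ih (head d) hd.2.1 y hy hhd hyw
    refine ⟨fun u v => c₁ u v + c₂ u v, fun u v => ?_, fun u v huv => ?_, fun v => ?_⟩
    · show c₁ u v + c₂ u v = c₁ v u + c₂ v u
      rw [h1, k1]
    · by_cases hc : c₁ u v = 0
      · have hc2 : c₂ u v ≠ 0 := by
          intro h0
          apply huv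
          show c₁ u v + c₂ u v = 0
          rw [hc, h0, add_zero]
        obtain ⟨h4, h5, h6⟩ := k2 u v hc2
        refine ⟨h4, h5, ?_⟩
        rcases h6 with ⟨e, he, he'⟩ | h6
        · exact Or.inl ⟨e, List.mem_cons_of_mem _ he, he'⟩
        · exact Or.inr h6
      · obtain ⟨h4, h5, h6⟩ := h2 u v hc
        exact ⟨h4, h5.trans h6.symm, Or.inl ⟨d, List.mem_cons_self, (h5.trans hxd).symm⟩⟩
    · have e : ∀ w, lch (d :: l) v w + (c₁ v w + c₂ v w) =
          c₁ v w + eind (tail d) (head d) v w + (lch l v w + c₂ v w) := by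
        intro w
        simp only [lch, List.map_cons, List.sum_cons]
        ring
      rw [Finset.sum_congr rfl fun w _ => e w, Finset.sum_add_distrib, Finset.sum_add_distrib,
        h3 v, k3 v, sum_eind hd.2.2.1 (h.fin.mem_toFinset.2 hd.1) (h.fin.mem_toFinset.2 hd.2.1)]
      have : ∀ x y z w : ZMod 2, x + y + (y + z) + (z + w) = x + w := by decide
      exact this _ _ _ _

omit h hπ in
theorem lch_symm (l : List (Fc X b × ZMod 3)) (u v : ℂ) : lch l u v = lch l v u := by
  unfold lch
  congr 1
  refine List.map_congr_left fun d _ => ?_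
  rw [eind_symm]

omit hπ in
theorem lch_nbr (l : List (Fc X b × ZMod 3)) {u v : ℂ} (huv : ¬ nbr X u v) : lch l u v = 0 := by
  unfold lch
  apply List.sum_eq_zero
  intro x hx
  obtain ⟨d, -, rfl⟩ := List.mem_map.1 hx
  refine eind_of_ne ?_
  rintro (⟨rfl, rfl⟩ | ⟨rfl, rfl⟩)
  · exact huv (h.nbr_th d)
  · exact huv (nbr_symm (h.nbr_th d))

theorem mu_eq (l : List (Fc X b × ZMod 3)) (d : Fc X b × ZMod 3) :
    (h.tri258 π hπ).mu l d = lch l (tail d) (head d) := by
  classical
  induction l with
  | nil => simp [lch, H258.Tri.mu]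
  | cons e l ih =>
    have h1 : (h.tri258 π hπ).mu (e :: l) d = (h.tri258 π hπ).mu l d +
        eind (tail e) (head e) (tail d) (head d) := by
      rw [H258.Tri.mu_cons, add_comm]
      congr 1
      have hrev : (h.tri258 π hπ).rev d = h.rv d := rfl
      rw [hrev]
      by_cases h1 : e = d
      · subst h1
        rw [if_pos rfl, if_neg (h.rv_ne e).symm, add_zero, eind_self]
      · by_cases h2 : e = h.rv d
        · rw [if_neg h1, if_pos h2, zero_add, h2, h.tail_rv, h.head_rv, eind_symm', eind_self]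
        · rw [if_neg h1, if_neg h2, add_zero, eind_of_ne]
          rintro (⟨h3, h4⟩ | ⟨h3, h4⟩)
          · exact h1 (h.th_inj h3.symm h4.symm)
          · exact h2 (h.th_inj (by rw [h.tail_rv, h4]) (by rw [h.head_rv, h3]))
    rw [h1, ih]
    simp only [lch, List.map_cons, List.sum_cons]
    ring

theorem planar258 : (h.tri258 π hπ).Planar := by
  classical
  intro v l hl
  by_cases hln : l = []
  · subst hln
    refine ⟨fun _ => 0, fun _ => rfl, fun d _ => ?_⟩
    rw [H258.Tri.mu_nil]
    simp
  obtain ⟨x, hx, hxv⟩ := hπ.surj v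
  obtain ⟨c, h1, h2, h3⟩ := h.walk_chain π hπ hl x hx x hx hxv hxv
  have hvis : ∃ e ∈ l, π (tail e) = v := by
    cases hl with
    | nil => exact absurd rfl hln
    | cons d w l hl => exact ⟨d, List.mem_cons_self, rfl⟩
  obtain ⟨N, hN⟩ := h.homology (z := fun u v => lch l u v + c u v)
    (fun u v => by
      show lch l u v + c u v = lch l v u + c v u
      rw [lch_symm, h1])
    (fun u v huv => by
      show lch l u v + c u v = 0
      rw [h.lch_nbr l huv, zero_add]
      by_contra hc
      exact huv (h2 u v hc).1)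
    (fun v _ => by
      have h4 : ∀ x : ZMod 2, x + x = 0 := by decide
      rw [h3 v]
      exact h4 _)
  refine ⟨fun d => N (tail d) (head d), fun d => ?_, fun d hd => ?_⟩
  · show N (tail (d.1, d.2 + 1)) (head (d.1, d.2 + 1)) = N (tail d) (head d)
    rw [tail_next, head_next]
    exact (hN.1 _ _ _ (th_Tl d)).symm
  · show N (tail d) (head d) + N (tail (h.rv d)) (head (h.rv d)) = _
    rw [h.tail_rv, h.head_rv, hN.2 _ _ (h.nbr_th d), h.mu_eq π hπ]
    show lch l (tail d) (head d) + c (tail d) (head d) = _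
    have hc : c (tail d) (head d) = 0 := by
      by_contra hc
      obtain ⟨-, h5, h6⟩ := h2 _ _ hc
      rcases hd with hd | hd
      · apply hd
        show π (tail d) = π (tail (h.rv d))
        rw [h.tail_rv]
        exact h5
      · rcases h6 with ⟨e, he, he'⟩ | h6
        · exact hd e he he'
        · obtain ⟨e, he, he'⟩ := hvis
          exact hd e he (he'.trans h6.symm)
    rw [hc, add_zero]

end HullTri

end Vale.Agent.P148.R2.H592
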