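import Vale.Agent.P148.R2.H592.Dom7

/-!
# P148, module CONV, part 1: all the facts about a good discrete domain of a Jordan quad
-/

open Set Metric Topology Filter

namespace Vale.Agent.P148.R2.H592

open _root_.P148 (sq side corner Quad)

/-- The data of a good discrete domain: `X` is a `ρ`-net of a large window. -/
structure Good (Q : Quad) (r t e δ ρ R s : ℝ) (X : Set ℂ) (b : ZMod 3 → ℂ) (i₀ : ℂ) : Prop where
  t0 : 0 < t
  t1 : t < 1
  tr : t ≤ r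
  e0 : 0 < e
  e1 : e ≤ 1
  er : e ≤ r
  s0 : 0 ≤ s
  s1 : s < 1
  sr : 1 - r ≤ s
  δ0 : 0 < δ
  δ2 : δ ≤ r / 2
  ρ0 : 0 < ρ
  ρδ : ρ ≤ δ / 5
  ρ1 : ρ ≤ 1 / 2
  R0 : 0 < R
  hX : HullTri X b
  net : ∀ z ∈ closedBall (0 : ℂ) R, ∃ x ∈ X, dist z x ≤ ρ
  win : ∀ w : ℂ, nrm w ≤ 2 → Q.H w ∈ closedBall (0 : ℂ) (R - 1)
  sep : Sep δ (KQ Q t e) (GQ Q t e)
  dis : Disjoint (thickening δ (FQ Q s)) (thickening δ (curve (KQ Q t e) (GQ Q t e)))
  i₀X : i₀ ∈ X
  i₀H : dist i₀ (Q.H 0) < δ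
  deep : ∀ x, ball x r ⊆ Q.D → x ∈ FQ Q s
  modH : ∀ w w' : ℂ, nrm w ≤ 2 → nrm w' ≤ 2 → dist w w' < 5 * max e t → dist (Q.H w) (Q.H w') < r / 2
  mod : ∀ z z', nrm (Q.H.symm z) ≤ 2 → dist z z' < 3 * δ → dist (Q.H.symm z) (Q.H.symm z') < r

/-- Uniform continuity of the inverse of the parametrisation. -/
theorem exists_unif_symm (Q : Quad) {r : ℝ} (hr : 0 < r) : ∃ η > 0, ∀ z z' : ℂ,
    nrm (Q.H.symm z) ≤ 2 → dist z z' < η → dist (Q.H.symm z) (Q.H.symm z') < r := by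
  have h := (isCompact_FQ Q 2).uniformContinuousAt_of_continuousAt (f := Q.H.symm)
    (fun a _ => Q.H.symm.continuous.continuousAt) (Metric.dist_mem_uniformity hr)
  rw [Metric.mem_uniformity_dist] at h
  obtain ⟨η, hη, h⟩ := h
  refine ⟨η, hη, fun z z' hz hzz => h hzz ⟨Q.H.symm z, hz, Q.H.apply_symm_apply z⟩⟩

/-- **Existence of the parameters.** -/
theorem exists_good (Q : Quad) {r : ℝ} (hr : 0 < r) : ∃ t e δ ρ R s : ℝ, 0 < δ ∧ 0 < ρ ∧ 0 < R ∧
    ∀ (X : Set ℂ) (b : ZMod 3 → ℂ), HullTri X b →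
    (∀ z ∈ closedBall (0 : ℂ) R, ∃ x ∈ X, dist z x ≤ ρ) →
    ∃ i₀, Good Q r t e δ ρ R s X b i₀ := by
  obtain ⟨η, hη, hH⟩ := exists_unif Q (half_pos hr)
  obtain ⟨η', hη', hΦ⟩ := exists_unif_symm Q hr
  obtain ⟨s', hs0', hs1', hdeep'⟩ := exists_deep Q hr
  set s : ℝ := max s' (1 - r) with hs
  have hs0 : 0 ≤ s := hs0'.trans (le_max_left _ _)
  have hs1 : s < 1 := max_lt hs1' (by linarith)
  have hdeep : ∀ x, ball x r ⊆ Q.D → x ∈ FQ Q s := fun x hx => by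
    obtain ⟨w, hw, rfl⟩ := hdeep' x hx
    have hw' : nrm w ≤ s' := hw
    exact ⟨w, hw'.trans (le_max_left _ _), rfl⟩
  set e : ℝ := min (min 1 r) (η / 8) with he
  have he0 : 0 < e := lt_min (lt_min one_pos hr) (by positivity)
  have he1 : e ≤ 1 := (min_le_left _ _).trans (min_le_left _ _)
  have her : e ≤ r := (min_le_left _ _).trans (min_le_right _ _)
  have heη : e ≤ η / 8 := min_le_right _ _
  set t : ℝ := min (min (1 / 2) r) (η / 8) with ht
  have ht0 : 0 < t := lt_min (lt_min (by norm_num) hr) (by positivity)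
  have ht1 : t < 1 := ((min_le_left _ _).trans (min_le_left _ _)).trans_lt (by norm_num)
  have htr : t ≤ r := (min_le_left _ _).trans (min_le_right _ _)
  have htη : t ≤ η / 8 := min_le_right _ _
  have hG := geoQ Q ht0 ht1 he0
  obtain ⟨δ₀, hδ₀, hsep⟩ := hG.exists_sep
  obtain ⟨δ₁, hδ₁, hdis⟩ := FQ_disj_curve Q ht0 ht1 he0 hs1
  set δ : ℝ := min (min δ₀ δ₁) (min (r / 2) (η' / 3)) with hδ
  have hδ0 : 0 < δ := lt_min (lt_min hδ₀ hδ₁) (lt_min (by positivity) (by positivity))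
  have hδ₀' : δ ≤ δ₀ := (min_le_left _ _).trans (min_le_left _ _)
  have hδ₁' : δ ≤ δ₁ := (min_le_left _ _).trans (min_le_right _ _)
  have hδr : δ ≤ r / 2 := (min_le_right _ _).trans (min_le_left _ _)
  have hδη : δ ≤ η' / 3 := (min_le_right _ _).trans (min_le_right _ _)
  obtain ⟨R₀, hR₀⟩ := ((isCompact_FQ Q 2).isBounded).subset_closedBall (0 : ℂ)
  set R : ℝ := max R₀ 0 + 1 with hR
  have hRpos : 0 < R := by have := le_max_right R₀ 0; linarith
  set ρ : ℝ := min (δ / 5) (1 / 2) with hρ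
  have hρ0 : 0 < ρ := lt_min (by positivity) (by norm_num)
  have hρδ : ρ ≤ δ / 5 := min_le_left _ _
  have hρ1 : ρ ≤ 1 / 2 := min_le_right _ _
  refine ⟨t, e, δ, ρ, R, s, hδ0, hρ0, hRpos, fun X b hX hnet => ?_⟩
  have hwin : ∀ w : ℂ, nrm w ≤ 2 → Q.H w ∈ closedBall (0 : ℂ) (R - 1) := by
    intro w hw
    have h1 := hR₀ ⟨w, hw, rfl⟩
    rw [mem_closedBall] at h1 ⊢
    have := le_max_left R₀ 0
    linarith
  obtain ⟨i₀, hi₀, hi₀'⟩ := hnet (Q.H 0) (closedBall_subset_closedBall (by linarith)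
    (hwin 0 (by simp [nrm])))
  rw [dist_comm] at hi₀'
  refine ⟨i₀, ⟨ht0, ht1, htr, he0, he1, her, hs0, hs1, le_max_right _ _, hδ0,
      hδr, hρ0, hρδ, hρ1, hRpos, hX, hnet, hwin, hsep δ hδ₀',
      hdis.mono (thickening_mono hδ₁' _) (thickening_mono hδ₁' _), hi₀, by linarith, hdeep,
      fun w w' hw hw' hd => hH w w' hw hw' (hd.trans_le ?_),
      fun z z' hz hzz => hΦ z z' hz (by linarith)⟩⟩
  have : max e t ≤ η / 8 := max_le heη htη
  linarith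

namespace Good

variable {Q : Quad} {r t e δ ρ R s : ℝ} {X : Set ℂ} {b : ZMod 3 → ℂ} {i₀ : ℂ}
  (h : Good Q r t e δ ρ R s X b i₀)
include h

theorem r0 : 0 < r := by
  have := h.δ0
  have := h.δ2
  linarith

theorem δr : δ < r := by
  have := h.r0
  have := h.δ2
  linarith

theorem net2 {w : ℂ} (hw : nrm w ≤ 2) : ∃ x ∈ X, dist x (Q.H w) ≤ ρ := by
  obtain ⟨x, hx, hxz⟩ := h.net _ (closedBall_subset_closedBall (by linarith) (h.win w hw))
  exact ⟨x, hx, by rw [dist_comm]; exact hxz⟩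

theorem net3 {w : ℂ} (hw : nrm w ≤ 2) : ∃ x ∈ X, dist x (Q.H w) < δ / 2 := by
  obtain ⟨x, hx, hxz⟩ := h.net2 hw
  have := h.ρδ
  have := h.δ0
  exact ⟨x, hx, by linarith⟩

/-- The edges near the domain are short. -/
theorem short {u v : ℂ} (huv : nbr X u v) (hu : nrm (Q.H.symm u) ≤ 2) : dist u v ≤ 2 * ρ := by
  have h1 := h.win _ hu
  rw [Q.H.apply_symm_apply] at h1
  have hρ1 := h.ρ1
  refine edge_short h.ρ0 (fun z hz => h.net z ?_) huv
  rw [mem_closedBall] at hz h1 ⊢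
  have := dist_triangle z u 0
  linarith

theorem curve_two {z : ℂ} (hz : z ∈ curve (KQ Q t e) (GQ Q t e)) :
    1 ≤ nrm (Q.H.symm z) ∧ nrm (Q.H.symm z) ≤ 1 + e := by
  obtain ⟨w, ⟨hw, hw'⟩, rfl⟩ := nrm_curve Q h.t0 h.t1 h.e0 hz
  rw [Q.H.symm_apply_apply]
  exact ⟨hw, hw'⟩

theorem neck : Necklace X (thk X δ (KQ Q t e)) (thk X δ (GQ Q t e)) :=
  (geoQ Q h.t0 h.t1 h.e0).necklace h.δ0 h.sep h.hX.fin fun z hz => by
    have h1 := (h.curve_two hz).2
    have h2 := h.e1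
    have h3 := h.net3 (w := Q.H.symm z) (by linarith)
    rwa [Q.H.apply_symm_apply] at h3

theorem dom : Dom X b (thk X δ (KQ Q t e)) (thk X δ (GQ Q t e)) i₀ (clsQ Q t e δ X i₀) :=
  h.neck.dom h.hX i₀

theorem core : X ∩ thickening δ (FQ Q s) ⊆
    inn X (thk X δ (KQ Q t e)) (thk X δ (GQ Q t e)) i₀ := by
  have hn0 : nrm 0 = 0 := by simp [nrm]
  refine subset_inn h.hX.fin h.δ0 (isPreconnected_FQ Q) ?_ h.dis
    ⟨h.i₀X, mem_thickening_iff.2 ⟨Q.H 0, ⟨0, ?_, rfl⟩, h.i₀H⟩⟩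
  · rintro _ ⟨w, hw, rfl⟩
    have hw' : nrm w ≤ s := hw
    have := h.s1
    exact h.net3 (by linarith)
  · show nrm 0 ≤ s
    rw [hn0]; exact h.s0

theorem i₀_core : i₀ ∈ X ∩ thickening δ (FQ Q s) := by
  have hn0 : nrm 0 = 0 := by simp [nrm]
  refine ⟨h.i₀X, mem_thickening_iff.2 ⟨Q.H 0, ⟨0, ?_, rfl⟩, h.i₀H⟩⟩
  show nrm 0 ≤ s
  rw [hn0]; exact h.s0

theorem i₀_inn : i₀ ∈ inn X (thk X δ (KQ Q t e)) (thk X δ (GQ Q t e)) i₀ := h.core h.i₀_core

theorem innU : inn X (thk X δ (KQ Q t e)) (thk X δ (GQ Q t e)) i₀ ⊆ UQ Q t e := by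
  have hn0 : nrm 0 = 0 := by simp [nrm]
  have he0 := h.e0
  have he1 := h.e1
  have hρ0 := h.ρ0
  have hρδ := h.ρδ
  have hδ0 := h.δ0
  refine inn_subset (frontier_UQ Q h.t0 h.t1 h.e0) ?_ ?_
  · rintro u v huv ⟨⟨w, hw, rfl⟩, -⟩
    have hw' : nrm w < 1 + e := hw
    have := h.short huv (by rw [Q.H.symm_apply_apply]; linarith)
    linarith
  · by_contra hU
    have h0 : Q.H 0 ∈ UQ Q t e := by
      refine ⟨⟨0, ?_, rfl⟩, fun hK => ?_⟩
      · show nrm 0 < 1 + e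
        rw [hn0]; linarith
      · obtain ⟨j, hj⟩ := mem_iUnion.1 hK
        have := (h.curve_two (subset_curve_left j hj)).1
        rw [Q.H.symm_apply_apply, hn0] at this
        linarith
    obtain ⟨z, hz, hzf⟩ := inter_frontier_nonempty
      (convex_segment (𝕜 := ℝ) i₀ (Q.H 0)).isPreconnected
      ⟨Q.H 0, right_mem_segment ℝ _ _, h0⟩ ⟨i₀, left_mem_segment ℝ _ _, hU⟩
    have h1 : dist i₀ z ≤ dist i₀ (Q.H 0) := by
      obtain ⟨τ, hτ, rfl⟩ := (segment_eq_image_lineMap ℝ i₀ (Q.H 0)) ▸ hz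
      rw [dist_left_lineMap, Real.norm_of_nonneg hτ.1]
      exact mul_le_of_le_one_left dist_nonneg hτ.2
    refine (comp_subset _ _ _ h.i₀_inn).2 ?_
    rw [ring_thk]
    exact ⟨h.i₀X, mem_thickening_iff.2 ⟨z, frontier_UQ Q h.t0 h.t1 h.e0 hzf, h1.trans_lt h.i₀H⟩⟩

theorem inn_lt {x : ℂ} (hx : x ∈ inn X (thk X δ (KQ Q t e)) (thk X δ (GQ Q t e)) i₀) :
    nrm (Q.H.symm x) < 1 + e := by
  obtain ⟨⟨w, hw, rfl⟩, -⟩ := h.innU hx
  rw [Q.H.symm_apply_apply]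
  exact hw

theorem cover : ⋃ j, clsQ Q t e δ X i₀ j =
    X \ inn X (thk X δ (KQ Q t e)) (thk X δ (GQ Q t e)) i₀ := h.dom.cover

theorem inn_sub : inn X (thk X δ (KQ Q t e)) (thk X δ (GQ Q t e)) i₀ ⊆ X :=
  (comp_subset _ _ _).trans sdiff_subset

theorem free_eq : X \ ⋃ j, clsQ Q t e δ X i₀ j =
    inn X (thk X δ (KQ Q t e)) (thk X δ (GQ Q t e)) i₀ := by
  rw [h.cover, sdiff_sdiff_right_self]
  exact inter_eq_self_of_subset_right h.inn_sub

/-- The domain has the properties used by the other modules. -/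
theorem qdom : QDom Q r X b (clsQ Q t e δ X i₀) := by
  have he0 := h.e0
  have he1 := h.e1
  have ht0 := h.t0
  have ht1 := h.t1
  have hr := h.r0
  have hδr := h.δr
  have hdom := h.dom
  have hfree : ∀ x ∈ X, x ∉ ⋃ j, clsQ Q t e δ X i₀ j →
      x ∈ inn X (thk X δ (KQ Q t e)) (thk X δ (GQ Q t e)) i₀ := fun x hx hxO => by
    rw [← h.free_eq]; exact ⟨hx, hxO⟩
  have hemax : e ≤ max e t := le_max_left _ _
  have htmax : t ≤ max e t := le_max_right _ _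
  -- closeness to the arcs
  have hnear : ∀ j, ∀ z ∈ KQ Q t e j ∪ GQ Q t e j ∪ GQ Q t e (j + 2),
      ∃ a ∈ arcQ Q j, dist z a < r / 2 := by
    intro j z hz
    have hout : ∀ a : ℂ, nrm a = 1 → ∀ s' : ℝ, 1 ≤ s' → s' ≤ 1 + e →
        dist ((s' : ℂ) * a) a ≤ 2 * e ∧ nrm ((s' : ℂ) * a) ≤ 2 := by
      intro a ha s' h1 h2
      constructor
      · have e1 : (s' : ℂ) * a - a = ((s' - 1 : ℝ) : ℂ) * a := by push_cast; ring
        rw [Complex.dist_eq, e1, norm_mul, Complex.norm_real, Real.norm_of_nonneg (by linarith)]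
        have h3 := norm_le_nrm a
        rw [ha] at h3
        nlinarith [norm_nonneg a]
      · rw [nrm_smul (by linarith), ha]
        linarith
    rw [arcQ_eq]
    rcases hz with (⟨_, ⟨⟨s', a⟩, ⟨hs', ha⟩, rfl⟩, rfl⟩ | ⟨_, ⟨a, ha, rfl⟩, rfl⟩) |
      ⟨_, ⟨a, ha, rfl⟩, rfl⟩
    · simp only at hs' ha ⊢
      have ha1 := nrm_arcA ht0 ht1 j a ha
      obtain ⟨g1, g2⟩ := hout a ha1 s' hs'.1 hs'.2
      exact ⟨Q.H a, ⟨a, arcA_subset ht0 ht1 j ha, rfl⟩, h.modH _ _ g2 (by rw [ha1]; norm_num)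
        (by linarith)⟩
    · have ha1 := nrm_arcC ht0 ht1 j a ha
      obtain ⟨g1, g2⟩ := hout a ha1 (1 + e) (by linarith) le_rfl
      have g3 := arcC_near ht0 j a ha
      have g4 := dist_triangle (((1 + e : ℝ) : ℂ) * a) a (cornC j)
      exact ⟨Q.H (cornC j), ⟨_, cornC_mem j, rfl⟩, h.modH _ _ g2
        (by rw [nrm_sideA j _ (cornC_mem j)]; norm_num) (by linarith)⟩
    · have ha1 := nrm_arcC ht0 ht1 (j + 2) a ha
      obtain ⟨g1, g2⟩ := hout a ha1 (1 + e) (by linarith) le_rfl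
      have g3 := arcC_near ht0 (j + 2) a ha
      have g4 := dist_triangle (((1 + e : ℝ) : ℂ) * a) a (cornC (j + 2))
      exact ⟨Q.H (cornC (j + 2)), ⟨_, cornC_mem' j, rfl⟩, h.modH _ _ g2
        (by rw [nrm_sideA j _ (cornC_mem' j)]; norm_num) (by linarith)⟩
  refine ⟨hdom.conn, hdom.disj, ?_, fun x hx hxD hxO => ?_, fun x hx hxO => ?_,
    fun x hx hxO y hxy j hj => ?_, hdom.face⟩
  · rw [h.free_eq]
    exact connIn_comp sdiff_subset i₀
  · rw [h.cover] at hxO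
    exact hxO.2 (h.core ⟨hx, self_subset_thickening h.δ0 _ (h.deep x hxD)⟩)
  · obtain ⟨⟨w, hw, rfl⟩, -⟩ := h.innU (hfree x hx hxO)
    have hw' : nrm w < 1 + e := hw
    by_cases h1 : nrm w < 1
    · have : Q.H w ∈ Q.D := by rw [D_eq]; exact ⟨w, h1, rfl⟩
      rw [infDist_zero_of_mem this]
      exact hr.le
    · rw [not_lt] at h1
      have hw0 : 0 < nrm w := by linarith
      set w' : ℂ := ((1 / nrm w : ℝ) : ℂ) * w with hw'd
      have hn1 : nrm w' = 1 := by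
        rw [hw'd, nrm_smul (by positivity)]
        field_simp
      have hd : dist w w' ≤ 2 * e := by
        have e1 : w - w' = ((1 - 1 / nrm w : ℝ) : ℂ) * w := by rw [hw'd]; push_cast; ring
        have h2 : 0 ≤ 1 - 1 / nrm w := by
          rw [sub_nonneg, div_le_one hw0]; exact h1
        rw [Complex.dist_eq, e1, norm_mul, Complex.norm_real, Real.norm_of_nonneg h2]
        have h3 := norm_le_nrm w
        have h4 : (1 - 1 / nrm w) * ‖w‖ ≤ (1 - 1 / nrm w) * (2 * nrm w) :=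
          mul_le_mul_of_nonneg_left h3 h2
        have h5 : (1 - 1 / nrm w) * (2 * nrm w) = 2 * (nrm w - 1) := by
          field_simp
        linarith
      have h6 : dist (Q.H w) (Q.H w') < r / 2 :=
        h.modH _ _ (by linarith) (by rw [hn1]; norm_num) (by linarith)
      have h7 : Q.H w' ∈ closure Q.D := by
        rw [Q.closure_D]
        refine ⟨w', ?_, rfl⟩
        exact ⟨hn1 ▸ re_le_nrm w', hn1 ▸ im_le_nrm w'⟩
      rw [← infDist_closure]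
      exact (infDist_le_dist_of_mem h7).trans (by linarith)
  · -- neighbours of the free vertices
    rcases hdom.nbr_free (hfree x hx hxO) hxy with h1 | ⟨i, hi, hi'⟩
    · have : y ∈ ⋃ j, clsQ Q t e δ X i₀ j := mem_iUnion.2 ⟨j, hj⟩
      rw [h.cover] at this
      exact absurd h1 this.2
    · have hij : i = j := by
        by_contra hne
        exact Set.disjoint_left.1 (hdom.disj hne) hi hj
      subst hij
      have h2 : ∃ z ∈ KQ Q t e i ∪ GQ Q t e i ∪ GQ Q t e (i + 2), dist y z < δ := by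
        rcases hi' with (⟨-, h⟩ | ⟨-, h⟩) | ⟨-, h⟩
        · obtain ⟨z, hz, hyz⟩ := mem_thickening_iff.1 h
          exact ⟨z, Or.inl (Or.inl hz), hyz⟩
        · obtain ⟨z, hz, hyz⟩ := mem_thickening_iff.1 h
          exact ⟨z, Or.inl (Or.inr hz), hyz⟩
        · obtain ⟨z, hz, hyz⟩ := mem_thickening_iff.1 h
          exact ⟨z, Or.inr hz, hyz⟩
      obtain ⟨z, hz, hyz⟩ := h2
      obtain ⟨a, ha, hza⟩ := hnear i z hz
      refine (infDist_le_dist_of_mem ha).trans ?_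
      have := dist_triangle y z a
      have hδ2 : δ ≤ r / 2 := h.δ2
      linarith

end Good

end Vale.Agent.P148.R2.H592
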