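import Vale.Agent.P148.R2.H592.Conv1
import Vale.Agent.P148.R2.H995.Seg
import Vale.Agent.P198.Hex.Miranda

/-!
# P148, module CONV, part 2: coordinates near a boundary point, polygons
-/

open Set Metric Topology Filter

namespace Vale.Agent.P148.R2.H592

open _root_.P148 (sq side corner Quad)
open Vale.Agent.P148.R2.H995 (sg seg_disjoint)

theorem exists_seg (a b : ℂ) : ∃ γ : Path a b, ∀ t, ∃ τ : ℝ, 0 ≤ τ ∧ τ ≤ 1 ∧ γ t = sg a b τ := by
  refine ⟨⟨⟨fun s => sg a b (s : ℝ), ?_⟩, ?_, ?_⟩, fun s => ⟨s, s.2.1, s.2.2, rfl⟩⟩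
  · unfold sg; fun_prop
  · simp [sg]
  · simp [sg]

/-- The polygon of a walk. -/
theorem exists_poly {E : ℂ → ℂ → Prop} {x y : ℂ} (h : Relation.ReflTransGen E x y) (hne : x ≠ y) :
    ∃ γ : Path x y, ∀ t, ∃ u v, E u v ∧ ∃ τ : ℝ, 0 ≤ τ ∧ τ ≤ 1 ∧ γ t = sg u v τ := by
  induction h with
  | refl => exact absurd rfl hne
  | tail hxb hbc ih =>
    rename_i b c
    obtain ⟨σ, hσ⟩ := exists_seg b c
    by_cases hb : x = b
    · subst hb
      refine ⟨σ, fun t => ?_⟩
      obtain ⟨τ, h0, h1, h2⟩ := hσ t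
      exact ⟨x, c, hbc, τ, h0, h1, h2⟩
    · obtain ⟨γ, hγ⟩ := ih hb
      refine ⟨γ.trans σ, fun t => ?_⟩
      have ht : (γ.trans σ) t ∈ range (γ.trans σ) := ⟨t, rfl⟩
      rw [Path.trans_range] at ht
      rcases ht with ⟨s, hs⟩ | ⟨s, hs⟩
      · rw [← hs]; exact hγ s
      · rw [← hs]
        obtain ⟨τ, h0, h1, h2⟩ := hσ s
        exact ⟨b, c, hbc, τ, h0, h1, h2⟩

theorem dist_sg_left (u v : ℂ) {τ : ℝ} (h0 : 0 ≤ τ) : dist (sg u v τ) u = τ * dist u v := by
  rw [dist_comm u v, Complex.dist_eq, Complex.dist_eq]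
  have : sg u v τ - u = (τ : ℂ) * (v - u) := by unfold sg; ring
  rw [this, norm_mul, Complex.norm_real, Real.norm_of_nonneg h0]

theorem dist_sg_right (u v : ℂ) {τ : ℝ} (h1 : τ ≤ 1) : dist (sg u v τ) v = (1 - τ) * dist u v := by
  rw [dist_comm u v, Complex.dist_eq, Complex.dist_eq]
  have : sg u v τ - v = ((τ - 1 : ℝ) : ℂ) * (v - u) := by unfold sg; push_cast; ring
  rw [this, norm_mul, Complex.norm_real, Real.norm_of_nonpos (by linarith)]
  ring

/-- Every point of a short edge is close to an end. -/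
theorem near_end (u v : ℂ) {τ c : ℝ} (h0 : 0 ≤ τ) (h1 : τ ≤ 1) (h : dist u v ≤ 2 * c) :
    dist (sg u v τ) u ≤ c ∨ dist (sg u v τ) v ≤ c := by
  rcases le_total τ (1 / 2) with h2 | h2
  · left
    rw [dist_sg_left u v h0]
    nlinarith [dist_nonneg (x := u) (y := v)]
  · right
    rw [dist_sg_right u v h1]
    nlinarith [dist_nonneg (x := u) (y := v)]

/-! ### the slope -/

/-- The slope of `w` with respect to the direction `a`. -/
noncomputable def slp (a w : ℂ) : ℝ := (w / a).im / (w / a).re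

theorem nrm_pos {w : ℂ} (hw : w ≠ 0) : 0 < nrm w := by
  have h1 := norm_le_nrm w
  have h2 := norm_pos_iff.2 hw
  linarith

theorem nrm_le_norm (w : ℂ) : nrm w ≤ ‖w‖ := max_le (Complex.abs_re_le_norm w) (Complex.abs_im_le_norm w)

theorem nrm_sub (w w' : ℂ) : |nrm w - nrm w'| ≤ dist w w' := by
  have h1 : |(w.re - w'.re)| ≤ dist w w' := by
    rw [Complex.dist_eq, ← Complex.sub_re]; exact Complex.abs_re_le_norm _
  have h2 : |(w.im - w'.im)| ≤ dist w w' := by
    rw [Complex.dist_eq, ← Complex.sub_im]; exact Complex.abs_im_le_norm _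
  refine (abs_max_sub_max_le_max _ _ _ _).trans (max_le ?_ ?_)
  · exact (abs_abs_sub_abs_le _ _).trans h1
  · exact (abs_abs_sub_abs_le _ _).trans h2

section

variable {a : ℂ} (ha : nrm a = 1)
include ha

theorem norm_one_le : 1 ≤ ‖a‖ := ha ▸ nrm_le_norm a

theorem norm_le_two : ‖a‖ ≤ 2 := by have := norm_le_nrm a; rw [ha] at this; linarith

theorem a_ne : a ≠ 0 := by
  intro h
  rw [h] at ha
  simp [nrm] at ha

theorem div_near {w : ℂ} : ‖w / a - 1‖ ≤ dist w a := by
  have h0 := a_ne ha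
  have h1 : w / a - 1 = (w - a) / a := by field_simp
  rw [h1, norm_div, Complex.dist_eq]
  exact div_le_self (norm_nonneg _) (norm_one_le ha)

theorem re_near {w : ℂ} : |(w / a).re - 1| ≤ dist w a := by
  have h1 := Complex.abs_re_le_norm (w / a - 1)
  rw [Complex.sub_re, Complex.one_re] at h1
  exact h1.trans (div_near ha)

theorem im_near {w : ℂ} : |(w / a).im| ≤ dist w a := by
  have h1 := Complex.abs_im_le_norm (w / a - 1)
  rw [Complex.sub_im, Complex.one_im, sub_zero] at h1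
  exact h1.trans (div_near ha)

theorem slp_self : slp a a = 0 := by
  unfold slp
  rw [div_self (a_ne ha)]
  simp

theorem slp_lip {w w' : ℂ} (h : dist w a ≤ 1 / 4) (h' : dist w' a ≤ 1 / 4) :
    |slp a w - slp a w'| ≤ 4 * dist w w' := by
  have h1 := re_near ha (w := w)
  have h2 := re_near ha (w := w')
  have h3 := im_near ha (w := w')
  have h4 : ‖w / a - w' / a‖ ≤ dist w w' := by
    rw [← sub_div, norm_div, Complex.dist_eq]
    exact div_le_self (norm_nonneg _) (norm_one_le ha)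
  have h5 := (Complex.abs_re_le_norm _).trans h4
  have h6 := (Complex.abs_im_le_norm _).trans h4
  rw [Complex.sub_re] at h5
  rw [Complex.sub_im] at h6
  unfold slp
  set X := (w / a).re
  set Y := (w / a).im
  set X' := (w' / a).re
  set Y' := (w' / a).im
  have hX : 3 / 4 ≤ X := by have := (abs_le.1 (h1.trans h)).1; linarith
  have hX' : 3 / 4 ≤ X' := by have := (abs_le.1 (h2.trans h')).1; linarith
  have hX'1 : X' ≤ 5 / 4 := by have := (abs_le.1 (h2.trans h')).2; linarith
  have hY' : |Y'| ≤ 1 / 4 := h3.trans h'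
  have e1 : Y / X - Y' / X' = ((Y - Y') * X' + Y' * (X' - X)) / (X * X') := by
    have : X ≠ 0 := by linarith
    have : X' ≠ 0 := by linarith
    field_simp
    ring
  have hD := dist_nonneg (x := w) (y := w')
  rw [e1, abs_div, abs_of_pos (show 0 < X * X' by positivity), div_le_iff₀ (by positivity)]
  have h7 : |(Y - Y') * X' + Y' * (X' - X)| ≤ dist w w' * (5 / 4) + 1 / 4 * dist w w' := by
    refine (abs_add_le _ _).trans (add_le_add ?_ ?_)
    · rw [abs_mul, abs_of_pos (show 0 < X' by linarith)]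
      exact mul_le_mul h6 hX'1 (by linarith) hD
    · rw [abs_mul, abs_sub_comm X' X]
      exact mul_le_mul hY' h5 (abs_nonneg _) (by norm_num)
  have h8 : 9 / 16 ≤ X * X' := by nlinarith
  nlinarith

theorem slp_small {w : ℂ} (h : dist w a ≤ 1 / 4) : |slp a w| ≤ 4 * dist w a := by
  have h1 := slp_lip ha h (w' := a) (by rw [dist_self]; norm_num)
  rw [slp_self ha, sub_zero] at h1
  exact h1

theorem re_pos {w : ℂ} (h : dist w a ≤ 1 / 4) : 0 < (w / a).re := by
  have h1 := (abs_le.1 ((re_near ha (w := w)).trans h)).1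
  linarith

theorem eq_slp {w : ℂ} (h : 0 < (w / a).re) :
    w = ((w / a).re : ℂ) * (a * (1 + (slp a w : ℂ) * Complex.I)) := by
  have h0 := a_ne ha
  have h1 : w / a = ((w / a).re : ℂ) * (1 + (slp a w : ℂ) * Complex.I) := by
    apply Complex.ext
    · simp
    · simp only [slp, Complex.mul_im, Complex.ofReal_re, Complex.ofReal_im, Complex.add_im,
        Complex.one_im, Complex.mul_re, Complex.I_im, Complex.I_re, Complex.add_re, Complex.one_re]
      field_simp
      ring
  calc w = w / a * a := by field_simp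
    _ = _ := by rw [h1]; simp only [Complex.mul_re, Complex.ofReal_re, Complex.add_re,
      Complex.one_re, Complex.ofReal_im, Complex.I_re, Complex.I_im]; ring_nf

theorem nrm_dir {σ : ℝ} : |nrm (a * (1 + (σ : ℂ) * Complex.I)) - 1| ≤ 2 * |σ| := by
  have h1 := nrm_sub (a * (1 + (σ : ℂ) * Complex.I)) a
  rw [ha] at h1
  refine h1.trans ?_
  rw [Complex.dist_eq]
  have : a * (1 + (σ : ℂ) * Complex.I) - a = a * ((σ : ℂ) * Complex.I) := by ring
  rw [this, norm_mul, norm_mul, Complex.norm_real, Complex.norm_I, mul_one, Real.norm_eq_abs]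
  exact mul_le_mul_of_nonneg_right (norm_le_two ha) (abs_nonneg _)

/-- Two points of the half plane with the same slope and the same size are equal. -/
theorem slp_inj {w w' : ℂ} (h : 0 < (w / a).re) (h' : 0 < (w' / a).re) (h1 : slp a w = slp a w')
    (h2 : nrm w = nrm w') : w = w' := by
  have e1 := eq_slp ha h
  have e2 := eq_slp ha h'
  rw [← h1] at e2
  set v := a * (1 + (slp a w : ℂ) * Complex.I) with hv
  have hv0 : v ≠ 0 := by
    refine mul_ne_zero (a_ne ha) fun h0 => ?_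
    have := congrArg Complex.re h0
    simp at this
  have hvp := nrm_pos hv0
  have n1 : nrm w = (w / a).re * nrm v := by
    conv_lhs => rw [e1]
    exact nrm_smul h.le _
  have n2 : nrm w' = (w' / a).re * nrm v := by
    conv_lhs => rw [e2]
    exact nrm_smul h'.le _
  have : (w / a).re = (w' / a).re := by
    rw [n1, n2] at h2
    exact mul_right_cancel₀ hvp.ne' h2
  rw [e1, e2, this]

/-- In a thin layer the slope measures the distance to `a`. -/
theorem layer {w : ℂ} (h : 0 < (w / a).re) {κ : ℝ} (hs : |slp a w| ≤ 1 / 4)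
    (hn : |nrm w - 1| ≤ κ) (hκ : κ ≤ 1 / 4) : dist w a ≤ 5 * κ + 12 * |slp a w| := by
  have e1 := eq_slp ha h
  set σ := slp a w with hσ
  set v := a * (1 + (σ : ℂ) * Complex.I) with hv
  set x := (w / a).re with hx
  have n1 : nrm w = x * nrm v := by
    conv_lhs => rw [e1]
    exact nrm_smul h.le _
  have n2 : |nrm v - 1| ≤ 2 * |σ| := nrm_dir ha
  have hκ0 : 0 ≤ κ := (abs_nonneg _).trans hn
  have hσ0 := abs_nonneg σ
  have n3 : 1 / 2 ≤ nrm v := by have := (abs_le.1 n2).1; linarith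
  have n4 : |x - 1| ≤ 2 * (κ + 2 * |σ|) := by
    have h1 : |(x - 1) * nrm v| ≤ κ + 2 * |σ| := by
      have : (x - 1) * nrm v = (nrm w - 1) - (nrm v - 1) := by rw [n1]; ring
      rw [this]
      exact (abs_sub _ _).trans (add_le_add hn n2)
    rw [abs_mul, abs_of_pos (show 0 < nrm v by linarith)] at h1
    nlinarith [abs_nonneg (x - 1)]
  have h5 : w - a = ((x - 1 : ℝ) : ℂ) * v + a * ((σ : ℂ) * Complex.I) := by
    conv_lhs => rw [e1]
    rw [hv]; push_cast; ring
  have h6 : ‖v‖ ≤ 5 / 2 := by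
    rw [hv, norm_mul]
    have : ‖1 + (σ : ℂ) * Complex.I‖ ≤ 1 + |σ| := by
      refine (norm_add_le _ _).trans ?_
      rw [norm_one, norm_mul, Complex.norm_real, Complex.norm_I, mul_one, Real.norm_eq_abs]
    have h2 := norm_le_two ha
    nlinarith [norm_nonneg a, norm_nonneg (1 + (σ : ℂ) * Complex.I)]
  have h7 : ‖a * ((σ : ℂ) * Complex.I)‖ ≤ 2 * |σ| := by
    rw [norm_mul, norm_mul, Complex.norm_real, Complex.norm_I, mul_one, Real.norm_eq_abs]
    exact mul_le_mul_of_nonneg_right (norm_le_two ha) hσ0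
  rw [Complex.dist_eq, h5]
  refine (norm_add_le _ _).trans ?_
  rw [norm_mul, Complex.norm_real, Real.norm_eq_abs]
  have h8 : |x - 1| * ‖v‖ ≤ 2 * (κ + 2 * |σ|) * (5 / 2) :=
    mul_le_mul n4 h6 (norm_nonneg _) (by positivity)
  linarith

/-- The point with slope `σ` on the unit square. -/
theorem exists_dir {σ : ℝ} (hσ : |σ| ≤ 1 / 4) : ∃ a', nrm a' = 1 ∧ ∀ l : ℝ, 0 < l →
    slp a ((l : ℂ) * a') = σ ∧ 0 < (((l : ℂ) * a') / a).re := by
  set v := a * (1 + (σ : ℂ) * Complex.I) with hv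
  have n2 : |nrm v - 1| ≤ 2 * |σ| := nrm_dir ha
  have n3 : 1 / 2 ≤ nrm v := by have := (abs_le.1 n2).1; linarith
  have h0 := a_ne ha
  refine ⟨((1 / nrm v : ℝ) : ℂ) * v, ?_, fun l hl => ?_⟩
  · rw [nrm_smul (by positivity)]
    field_simp
  · have e : ((l : ℂ) * (((1 / nrm v : ℝ) : ℂ) * v)) / a =
        ((l / nrm v : ℝ) : ℂ) * (1 + (σ : ℂ) * Complex.I) := by
      rw [hv]; push_cast; field_simp
    have hp : 0 < l / nrm v := by positivity
    have hre : (((l : ℂ) * (((1 / nrm v : ℝ) : ℂ) * v)) / a).re = l / nrm v := by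
      rw [e]; simp
    have him : (((l : ℂ) * (((1 / nrm v : ℝ) : ℂ) * v)) / a).im = l / nrm v * σ := by
      rw [e]; simp
    refine ⟨?_, by rw [hre]; exact hp⟩
    unfold slp
    rw [hre, him]
    field_simp

end

end Vale.Agent.P148.R2.H592
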