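import Vale.Agent.P148.R2.H592.Conv2

/-!
# P148, module CONV, part 3: gates, local connectivity up to the boundary
-/

open Set Metric Topology Filter

namespace Vale.Agent.P148.R2.H592

open _root_.P148 (sq side corner Quad)
open Vale.Agent.P148.R2.H995 (sg seg_disjoint)

theorem exists_exit' {α : Type*} {R : α → α → Prop} {A : Set α} {x y : α}
    (h : Relation.ReflTransGen R x y) (hx : x ∈ A) (hy : y ∉ A) :
    ∃ a c, Relation.ReflTransGen (fun u v => R u v ∧ u ∈ A ∧ v ∈ A) x a ∧ R a c ∧ a ∈ A ∧ c ∉ A := by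
  have key : ∀ z, Relation.ReflTransGen R x z →
      (z ∈ A ∧ Relation.ReflTransGen (fun u v => R u v ∧ u ∈ A ∧ v ∈ A) x z) ∨
      ∃ a c, Relation.ReflTransGen (fun u v => R u v ∧ u ∈ A ∧ v ∈ A) x a ∧ R a c ∧ a ∈ A ∧ c ∉ A := by
    intro z hz
    induction hz with
    | refl => exact Or.inl ⟨hx, Relation.ReflTransGen.refl⟩
    | tail _ hbc ih =>
      rename_i b c _
      rcases ih with ⟨hb, hb'⟩ | h
      · by_cases hc : c ∈ A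
        · exact Or.inl ⟨hc, hb'.tail ⟨hbc, hb, hc⟩⟩
        · exact Or.inr ⟨b, c, hb', hbc, hb, hc⟩
      · exact Or.inr h
  rcases key y h with ⟨h1, -⟩ | h1
  · exact absurd h1 hy
  · exact h1

/-- The image of a radial segment. -/
def ray (Q : Quad) (l₀ l₁ : ℝ) (a : ℂ) : Set ℂ := Q.H '' ((fun l : ℝ => (l : ℂ) * a) '' Icc l₀ l₁)

theorem mem_ray {Q : Quad} {l₀ l₁ l : ℝ} (h0 : l₀ ≤ l) (h1 : l ≤ l₁) (a : ℂ) :
    Q.H ((l : ℂ) * a) ∈ ray Q l₀ l₁ a := ⟨_, ⟨l, ⟨h0, h1⟩, rfl⟩, rfl⟩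

theorem isPreconnected_ray (Q : Quad) (l₀ l₁ : ℝ) (a : ℂ) : IsPreconnected (ray Q l₀ l₁ a) :=
  (isPreconnected_Icc.image _ (Complex.continuous_ofReal.mul
    continuous_const).continuousOn).image _ Q.H.continuous.continuousOn

theorem curve_ray {Q : Quad} {t e : ℝ} (h0 : 0 < t) (h1 : t < 1) (he : 0 < e) {z : ℂ}
    (hz : z ∈ curve (KQ Q t e) (GQ Q t e)) :
    ∃ (l : ℝ) (a : ℂ), nrm a = 1 ∧ 1 ≤ l ∧ l ≤ 1 + e ∧ z = Q.H ((l : ℂ) * a) ∧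
      ray Q l (1 + e) a ⊆ curve (KQ Q t e) (GQ Q t e) := by
  obtain ⟨j, hj⟩ := mem_iUnion.1 hz
  rcases hj with ⟨_, ⟨⟨l, a⟩, ⟨hl, ha⟩, rfl⟩, rfl⟩ | ⟨_, ⟨a, ha, rfl⟩, rfl⟩
  · simp only at hl ha ⊢
    refine ⟨l, a, nrm_arcA h0 h1 j a ha, hl.1, hl.2, rfl, ?_⟩
    rintro _ ⟨_, ⟨l', hl', rfl⟩, rfl⟩
    exact subset_curve_left j ⟨_, ⟨(l', a), ⟨⟨hl.1.trans hl'.1, hl'.2⟩, ha⟩, rfl⟩, rfl⟩
  · simp only
    refine ⟨1 + e, a, nrm_arcC h0 h1 j a ha, by linarith, le_rfl, rfl, ?_⟩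
    rintro _ ⟨_, ⟨l', hl', rfl⟩, rfl⟩
    have : l' = 1 + e := le_antisymm hl'.2 hl'.1
    subst this
    exact subset_curve_right j ⟨_, ⟨a, ha, rfl⟩, rfl⟩

theorem outer_curve {Q : Quad} {t e : ℝ} (h0 : 0 < t) (h1 : t < 1) (he : 0 < e) {w : ℂ}
    (hw : nrm w = 1 + e) : Q.H w ∈ curve (KQ Q t e) (GQ Q t e) := by
  have h2 : nrm (((1 / (1 + e) : ℝ) : ℂ) * w) = 1 := by
    rw [nrm_smul (by positivity), hw]
    field_simp
  have h3 : w = ((1 + e : ℝ) : ℂ) * (((1 / (1 + e) : ℝ) : ℂ) * w) := by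
    have : (1 + e : ℝ) ≠ 0 := by positivity
    have h4 : ((1 + e : ℝ) : ℂ) ≠ 0 := by exact_mod_cast this
    push_cast at h4 ⊢
    field_simp
  obtain ⟨j, hj⟩ := arc_cover h0 h1 h2
  rw [h3]
  rcases hj with hj | hj
  · exact subset_curve_left j ⟨_, outer_subset_cone he.le _ ⟨_, hj, rfl⟩, rfl⟩
  · exact subset_curve_right j ⟨_, ⟨_, hj, rfl⟩, rfl⟩

/-- The free sites of the domain. -/
abbrev IN (Q : Quad) (t e δ : ℝ) (X : Set ℂ) (i₀ : ℂ) : Set ℂ :=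
  inn X (thk X δ (KQ Q t e)) (thk X δ (GQ Q t e)) i₀

/-- The sites near the curve. -/
abbrev RN (Q : Quad) (t e δ : ℝ) (X : Set ℂ) : Set ℂ :=
  X ∩ thickening δ (curve (KQ Q t e) (GQ Q t e))

namespace Good

variable {Q : Quad} {r t e δ ρ R s : ℝ} {X : Set ℂ} {b : ZMod 3 → ℂ} {i₀ : ℂ}
  (h : Good Q r t e δ ρ R s X b i₀)

omit h in
theorem IN_eq : IN Q t e δ X i₀ = comp X (X \ RN Q t e δ X) i₀ := by
  unfold IN inn
  rw [ring_thk]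

omit h in
theorem IN_notRN {x : ℂ} (hx : x ∈ IN Q t e δ X i₀) : x ∉ RN Q t e δ X := by
  rw [IN_eq] at hx
  exact (comp_subset _ _ _ hx).2

include h

theorem mod' {z z' : ℂ} (hz : nrm (Q.H.symm z) ≤ 2) (hd : dist z z' ≤ 2 * δ) :
    dist (Q.H.symm z) (Q.H.symm z') < r := h.mod z z' hz (by have := h.δ0; linarith)

theorem conn_ray {l₀ l₁ : ℝ} (h0 : 0 ≤ l₀) (h1 : l₁ ≤ 1 + e) {a : ℂ} (ha : nrm a = 1) :
    ConnIn X (X ∩ thickening δ (ray Q l₀ l₁ a)) := by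
  refine connIn_thickening h.hX.fin (isPreconnected_ray Q l₀ l₁ a) h.δ0 ?_
  rintro _ ⟨_, ⟨l, hl, rfl⟩, rfl⟩
  have he1 := h.e1
  refine h.net3 ?_
  rw [nrm_smul (h0.trans hl.1), ha]
  linarith [hl.2]

theorem conn_IN : ConnIn X (IN Q t e δ X i₀) := connIn_comp sdiff_subset i₀

/-- The layer in which the free sites which are not in the core are. -/
theorem seg_layer {u v : ℂ} (huv : nbr X u v) (hu : u ∈ IN Q t e δ X i₀)
    (hu' : u ∉ thickening δ (FQ Q s)) {τ : ℝ} (h0 : 0 ≤ τ) (hd : dist (sg u v τ) u ≤ ρ) :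
    s < nrm (Q.H.symm (sg u v τ)) ∧ nrm (Q.H.symm (sg u v τ)) < 1 + e := by
  have hρ0 := h.ρ0
  have hρδ := h.ρδ
  have hδ0 := h.δ0
  constructor
  · by_contra hcon
    rw [not_lt] at hcon
    exact hu' (mem_thickening_iff.2 ⟨sg u v τ, ⟨_, hcon, Q.H.apply_symm_apply _⟩,
      by rw [dist_comm]; linarith⟩)
  · by_contra hcon
    rw [not_lt] at hcon
    -- the segment from `u` to the point meets the outer curve
    have h1 := h.inn_lt hu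
    have hc : ContinuousOn (fun l : ℝ => nrm (Q.H.symm (sg u v l))) (Icc 0 τ) := by
      refine Continuous.continuousOn (continuous_nrm.comp (Q.H.symm.continuous.comp ?_))
      unfold sg; fun_prop
    have hmem : (1 + e) ∈ Icc (nrm (Q.H.symm (sg u v 0))) (nrm (Q.H.symm (sg u v τ))) := by
      refine ⟨?_, hcon⟩
      have : sg u v 0 = u := by unfold sg; simp
      rw [this]
      exact h1.le
    obtain ⟨l, hl, hl'⟩ := intermediate_value_Icc h0 hc hmem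
    have h2 : sg u v l ∈ curve (KQ Q t e) (GQ Q t e) := by
      have := outer_curve (Q := Q) h.t0 h.t1 h.e0 hl'
      rwa [Q.H.apply_symm_apply] at this
    refine IN_notRN hu ⟨h.inn_sub hu, mem_thickening_iff.2 ⟨_, h2, ?_⟩⟩
    rw [dist_comm, dist_sg_left u v hl.1]
    rw [dist_sg_left u v h0] at hd
    have := mul_le_mul_of_nonneg_right hl.2 (dist_nonneg (x := u) (y := v))
    linarith

/-- **The gate**: from the core towards the boundary in a given direction. -/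
theorem gate {a : ℂ} (ha : nrm a = 1) : ∃ c₀ y₁ y, c₀ ∈ X ∩ thickening δ (FQ Q s) ∧
    dist c₀ (Q.H ((s : ℂ) * a)) ≤ ρ ∧
    y₁ ∈ comp X (IN Q t e δ X i₀ ∩ thickening δ (ray Q s (1 + e) a)) c₀ ∧ nbr X y₁ y ∧
    y ∈ thickening δ (ray Q s (1 + e) a) ∧ y ∈ RN Q t e δ X := by
  have hs0 := h.s0
  have hs1 := h.s1
  have he0 := h.e0
  have he1 := h.e1
  have hρ0 := h.ρ0
  have hρδ := h.ρδ
  have hδ0 := h.δ0
  have hn : nrm ((s : ℂ) * a) = s := by rw [nrm_smul hs0, ha, mul_one]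
  have hn' : nrm (((1 + e : ℝ) : ℂ) * a) = 1 + e := by
    rw [nrm_smul (by linarith), ha, mul_one]
  obtain ⟨c₀, hc₀, hc₀'⟩ := h.net2 (w := (s : ℂ) * a) (by rw [hn]; linarith)
  obtain ⟨c₁, hc₁, hc₁'⟩ := h.net2 (w := ((1 + e : ℝ) : ℂ) * a) (by rw [hn']; linarith)
  have hcore : c₀ ∈ X ∩ thickening δ (FQ Q s) :=
    ⟨hc₀, mem_thickening_iff.2 ⟨_, ⟨_, hn.le, rfl⟩, by linarith⟩⟩
  have hT₀ : c₀ ∈ X ∩ thickening δ (ray Q s (1 + e) a) :=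
    ⟨hc₀, mem_thickening_iff.2 ⟨_, mem_ray le_rfl (by linarith) a, by linarith⟩⟩
  have hT₁ : c₁ ∈ X ∩ thickening δ (ray Q s (1 + e) a) :=
    ⟨hc₁, mem_thickening_iff.2 ⟨_, mem_ray (by linarith) le_rfl a, by linarith⟩⟩
  have hR₁ : c₁ ∈ RN Q t e δ X :=
    ⟨hc₁, mem_thickening_iff.2 ⟨_, outer_curve h.t0 h.t1 h.e0 hn', by linarith⟩⟩
  have hpath := (h.conn_ray hs0 le_rfl ha).2 c₀ hT₀ c₁ hT₁
  have hI₀ : c₀ ∈ IN Q t e δ X i₀ := h.core hcore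
  obtain ⟨y₁, y, g1, ⟨g2, g3, g4⟩, g5, g6⟩ := exists_exit' (A := IN Q t e δ X i₀) hpath hI₀
    (fun hc => IN_notRN hc hR₁)
  refine ⟨c₀, y₁, y, hcore, hc₀', ⟨⟨g5, g3.2⟩, ?_⟩, g2, g4.2, ?_⟩
  · refine Relation.ReflTransGen.mono (fun u v huv => ?_) _ _ g1
    exact ⟨huv.1.1, ⟨huv.2.1, huv.1.2.1.2⟩, ⟨huv.2.2, huv.1.2.2.2⟩⟩
  · rw [IN_eq] at g5 g6
    rcases nbr_comp g5 g2 with hh | hh
    · exact absurd hh g6
    · exact hh

end Good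

end Vale.Agent.P148.R2.H592
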