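import Vale.Agent.P148.R2.H592.Conv3

/-!
# P148, module CONV, part 4: every free site near the boundary is joined to the core locally
-/

open Set Metric Topology Filter

namespace Vale.Agent.P148.R2.H592

open _root_.P148 (sq side corner Quad)
open Vale.Agent.P148.R2.H995 (sg seg_disjoint)

theorem sg_symm (u v : ℂ) (τ : ℝ) : sg u v τ = sg v u (1 - τ) := by
  unfold sg; push_cast; ring

theorem slp_smul {a w : ℂ} {l : ℝ} (hl : 0 < l) : slp a ((l : ℂ) * w) = slp a w ∧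
    (0 < (w / a).re → 0 < (((l : ℂ) * w) / a).re) := by
  have e : ((l : ℂ) * w) / a = (l : ℂ) * (w / a) := by ring
  have hre : (((l : ℂ) * w) / a).re = l * (w / a).re := by rw [e]; simp
  have him : (((l : ℂ) * w) / a).im = l * (w / a).im := by rw [e]; simp
  refine ⟨?_, fun h => by rw [hre]; positivity⟩
  unfold slp
  rw [hre, him, mul_div_mul_left _ _ hl.ne']

theorem crossing_slope {a : ℂ} (ha : nrm a = 1) (Φ : ℂ ≃ₜ ℂ) {ε : ℝ} (hε : ε ≠ 0)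
    {lo hi lo' hi' : ℝ} {p q p' q' : ℂ} (γ : Path p q) (γ' : Path p' q')
    (hγ : ∀ t, dist (Φ (γ t)) a ≤ 1 / 4 ∧ lo ≤ ε * slp a (Φ (γ t)) ∧ ε * slp a (Φ (γ t)) ≤ hi)
    (hγ' : ∀ t, dist (Φ (γ' t)) a ≤ 1 / 4 ∧ lo' ≤ nrm (Φ (γ' t)) ∧ nrm (Φ (γ' t)) ≤ hi')
    (h0 : nrm (Φ p) ≤ lo') (h1 : hi' ≤ nrm (Φ q)) (k0 : ε * slp a (Φ p') ≤ lo)
    (k1 : hi ≤ ε * slp a (Φ q')) : ∃ s t, γ s = γ' t := by
  set S : Set ℂ := {w | dist w a ≤ 1 / 4} with hS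
  set F : ℂ → ℂ := fun w => ((ε * slp a w : ℝ) : ℂ) + ((nrm w : ℝ) : ℂ) * Complex.I with hF
  have hFre : ∀ w, (F w).re = ε * slp a w := fun w => by simp [hF]
  have hFim : ∀ w, (F w).im = nrm w := fun w => by simp [hF]
  have hcont : ContinuousOn F S := by
    have h1 : ContinuousOn (fun w => slp a w) S := by
      unfold slp
      refine ContinuousOn.div ?_ ?_ fun w hw => (re_pos ha hw).ne'
      · exact (Complex.continuous_im.comp (continuous_id.div_const a)).continuousOn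
      · exact (Complex.continuous_re.comp (continuous_id.div_const a)).continuousOn
    refine ContinuousOn.add ?_ ?_
    · exact Complex.continuous_ofReal.comp_continuousOn (continuousOn_const.mul h1)
    · exact ((Complex.continuous_ofReal.comp continuous_nrm).mul continuous_const).continuousOn
  have c1 : Continuous fun t => F (Φ (γ t)) :=
    hcont.comp_continuous (Φ.continuous.comp γ.continuous) fun t => (hγ t).1
  have c2 : Continuous fun t => F (Φ (γ' t)) :=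
    hcont.comp_continuous (Φ.continuous.comp γ'.continuous) fun t => (hγ' t).1
  obtain ⟨s, t, hst⟩ := P198.PlanarTop.crossing lo hi lo' hi' ⟨_, c1⟩ ⟨_, c2⟩
    (fun t => by
      show lo ≤ (F (Φ (γ t))).re ∧ (F (Φ (γ t))).re ≤ hi
      rw [hFre]; exact (hγ t).2)
    (fun t => by
      show lo' ≤ (F (Φ (γ' t))).im ∧ (F (Φ (γ' t))).im ≤ hi'
      rw [hFim]; exact (hγ' t).2)
    (by show (F (Φ (γ 0))).im ≤ lo'; rw [hFim, γ.source]; exact h0)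
    (by show hi' ≤ (F (Φ (γ 1))).im; rw [hFim, γ.target]; exact h1)
    (by show (F (Φ (γ' 0))).re ≤ lo; rw [hFre, γ'.source]; exact k0)
    (by show hi ≤ (F (Φ (γ' 1))).re; rw [hFre, γ'.target]; exact k1)
  have hst' : F (Φ (γ s)) = F (Φ (γ' t)) := hst
  have e1 : slp a (Φ (γ s)) = slp a (Φ (γ' t)) := by
    have := congrArg Complex.re hst'
    rw [hFre, hFre] at this
    exact mul_left_cancel₀ hε this
  have e2 : nrm (Φ (γ s)) = nrm (Φ (γ' t)) := by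
    have := congrArg Complex.im hst'
    rwa [hFim, hFim] at this
  exact ⟨s, t, Φ.injective (slp_inj ha (re_pos ha (hγ s).1) (re_pos ha (hγ' t).1) e1 e2)⟩

namespace Good

variable {Q : Quad} {r t e δ ρ R s : ℝ} {X : Set ℂ} {b : ZMod 3 → ℂ} {i₀ : ℂ}
  (h : Good Q r t e δ ρ R s X b i₀)
include h

/-- **The path of a gate** in the direction of slope `ε τ`. -/
theorem gate_path {a : ℂ} (ha : nrm a = 1) {η : ℝ} (hη : η ≤ 1 / 8) (hr : r ≤ η / 1152) {ε τ : ℝ}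
    (hτ : τ = η / 36) (hε : |ε| = 1) {W : Set ℂ} (hW : ∀ g ∈ W, g ∈ IN Q t e δ X i₀)
    (hcon : ∀ c ∈ X ∩ thickening δ (FQ Q s),
      ∀ g ∈ comp X (IN Q t e δ X i₀ ∩ {z | dist (Q.H.symm z) a < η}) c, g ∉ W) :
    ∃ (a' a₁ : ℂ) (Γ : Path (Q.H ((s : ℂ) * a')) (Q.H (((1 + e : ℝ) : ℂ) * a₁))), nrm a' = 1 ∧
      nrm a₁ = 1 ∧ ∀ t, (dist (Q.H.symm (Γ t)) a ≤ 1 / 4 ∧ |ε * slp a (Q.H.symm (Γ t)) - τ| ≤ 16 * r) ∧
        (dist (Γ t) (Q.H ((s : ℂ) * a')) ≤ ρ ∨ dist (Γ t) (Q.H (((1 + e : ℝ) : ℂ) * a₁)) ≤ ρ ∨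
          ∃ p q, nbr X p q ∧ p ∉ W ∧ q ∉ W ∧ ∃ l : ℝ, 0 ≤ l ∧ l ≤ 1 ∧ Γ t = sg p q l) := by
  have hs0 := h.s0
  have hs1 := h.s1
  have hsr := h.sr
  have he0 := h.e0
  have he1 := h.e1
  have her := h.er
  have hρ0 := h.ρ0
  have hρδ := h.ρδ
  have hδ0 := h.δ0
  have hr0 := h.r0
  have hη0 : 0 < η := by linarith
  set Φ := Q.H.symm with hΦ
  have hΦH : ∀ w, Φ (Q.H w) = w := Q.H.symm_apply_apply
  set O : Set ℂ := IN Q t e δ X i₀ ∩ {z | dist (Φ z) a < η} with hO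
  have htwo : ∀ z, dist (Φ z) a ≤ 1 / 2 → nrm (Φ z) ≤ 2 := fun z hz => by
    have := nrm_sub (Φ z) a
    rw [ha] at this
    have := (abs_le.1 this).2
    linarith
  have hτ0 : 0 < τ := by linarith
  have hεε : ε * ε = 1 := by
    rw [← pow_two, ← sq_abs, hε, one_pow]
  have hεabs : ∀ y z : ℝ, |ε * y - ε * z| = |y - z| := fun y z => by
    rw [← mul_sub, abs_mul, hε, one_mul]
  -- the gate
  obtain ⟨a', ha', hdir⟩ := exists_dir ha (σ := ε * τ) (by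
    rw [abs_mul, hε, one_mul, abs_of_pos hτ0]; linarith)
  have hlay : ∀ l : ℝ, s ≤ l → l ≤ 1 + e → dist ((l : ℂ) * a') a ≤ 5 * r + 12 * τ := by
    intro l h0 h1
    have hl0 : 0 < l := by linarith
    obtain ⟨g1, g2⟩ := hdir l hl0
    have g3 : |slp a ((l : ℂ) * a')| = τ := by rw [g1, abs_mul, hε, one_mul, abs_of_pos hτ0]
    have := layer ha g2 (κ := r) (by rw [g3]; linarith)
      (by rw [nrm_smul hl0.le, ha', mul_one]; exact abs_le.2 ⟨by linarith, by linarith⟩) (by linarith)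
    rw [g3] at this
    exact this
  have hlow' : ∀ l : ℝ, s ≤ l → l ≤ 1 + e → ∀ g, dist g (Q.H ((l : ℂ) * a')) ≤ δ →
      dist (Φ g) a ≤ 6 * r + 12 * τ ∧ |ε * slp a (Φ g) - τ| ≤ 4 * r := by
    intro l h0 h1 g hg
    have hl0 : 0 < l := by linarith
    have h2 : nrm (Φ (Q.H ((l : ℂ) * a'))) ≤ 2 := by
      rw [hΦH, nrm_smul hl0.le, ha']; linarith
    have h3 := h.mod' h2 (z' := g) (by rw [dist_comm]; linarith)
    rw [← hΦ, hΦH] at h3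
    have h4 := hlay l h0 h1
    have h5 := dist_triangle_left (Φ g) a ((l : ℂ) * a')
    have h6 : dist (Φ g) a ≤ 6 * r + 12 * τ := by linarith
    refine ⟨h6, ?_⟩
    have h7 := slp_lip ha (w := Φ g) (w' := (l : ℂ) * a') (by linarith) (by linarith)
    rw [(hdir l hl0).1] at h7
    have h8 : |ε * slp a (Φ g) - τ| = |slp a (Φ g) - ε * τ| := by
      have := hεabs (slp a (Φ g)) (ε * τ)
      rw [← mul_assoc, hεε, one_mul] at this
      exact this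
    rw [h8]
    rw [dist_comm] at h3
    linarith
  have hlow : ∀ g ∈ thickening δ (ray Q s (1 + e) a'),
      dist (Φ g) a ≤ 6 * r + 12 * τ ∧ |ε * slp a (Φ g) - τ| ≤ 4 * r := by
    intro g hg
    obtain ⟨_, ⟨_, ⟨l, hl, rfl⟩, rfl⟩, hz⟩ := mem_thickening_iff.1 hg
    exact hlow' l hl.1 hl.2 g hz.le
  obtain ⟨c₀, y₁, y, hc₀, hc₀', hy₁, hy₁y, hyT, hyR⟩ := h.gate ha'
  -- the prefix avoids `W`
  have hsub : IN Q t e δ X i₀ ∩ thickening δ (ray Q s (1 + e) a') ⊆ O := by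
    rintro z ⟨hz, hz'⟩
    refine ⟨hz, ?_⟩
    have := (hlow z hz').1
    show dist (Φ z) a < η
    linarith
  have hpre : ∀ g ∈ comp X (IN Q t e δ X i₀ ∩ thickening δ (ray Q s (1 + e) a')) c₀, g ∉ W :=
    fun g hg => hcon c₀ hc₀ g ⟨hsub hg.1, Relation.ReflTransGen.mono
      (fun p q hpq => ⟨hpq.1, hsub hpq.2.1, hsub hpq.2.2⟩) _ _ hg.2⟩
  -- the end of the gate
  obtain ⟨z, hz, hyz⟩ := mem_thickening_iff.1 hyR.2
  obtain ⟨l₀, a₁, ha₁, hl₀, hl₀', rfl, hray⟩ := curve_ray h.t0 h.t1 h.e0 hz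
  have hya := hlow y hyT
  have hz2 : nrm (Φ (Q.H ((l₀ : ℂ) * a₁))) ≤ 2 := by
    rw [hΦH, nrm_smul (by linarith), ha₁]; linarith
  have hyz' := h.mod' hz2 (z' := y) (by rw [dist_comm]; linarith)
  rw [← hΦ, hΦH] at hyz'
  have hla : dist ((l₀ : ℂ) * a₁) a ≤ 7 * r + 12 * τ := by
    have := dist_triangle ((l₀ : ℂ) * a₁) (Φ y) a
    linarith
  have hsl : |ε * slp a ((l₀ : ℂ) * a₁) - τ| ≤ 8 * r := by
    have h7 := slp_lip ha (w := Φ y) (w' := (l₀ : ℂ) * a₁) (by linarith) (by linarith)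
    rw [dist_comm] at hyz'
    have h8 := hεabs (slp a ((l₀ : ℂ) * a₁)) (slp a (Φ y))
    rw [abs_sub_comm (slp a ((l₀ : ℂ) * a₁)) (slp a (Φ y))] at h8
    have h9 := abs_sub_le (ε * slp a ((l₀ : ℂ) * a₁)) (ε * slp a (Φ y)) τ
    linarith [hya.2]
  have hup0 : ∀ l : ℝ, l₀ ≤ l → l ≤ 1 + e → dist ((l : ℂ) * a₁) a ≤ 1 / 16 ∧
      |ε * slp a ((l : ℂ) * a₁) - τ| ≤ 8 * r := by
    intro l h0 h1
    have hl0 : 0 < l := by linarith
    have hl00 : 0 < l₀ := by linarith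
    have e1 : slp a ((l : ℂ) * a₁) = slp a ((l₀ : ℂ) * a₁) := by
      rw [(slp_smul hl0).1, (slp_smul hl00).1]
    have e2 : 0 < (((l : ℂ) * a₁) / a).re := by
      have h2 := re_pos ha (w := (l₀ : ℂ) * a₁) (by linarith)
      have h3 := (slp_smul (a := a) (w := (l₀ : ℂ) * a₁) (l := l / l₀) (by positivity)).2 h2
      have h4 : ((l / l₀ : ℝ) : ℂ) * ((l₀ : ℂ) * a₁) = (l : ℂ) * a₁ := by
        have : (l₀ : ℂ) ≠ 0 := by exact_mod_cast hl00.ne'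
        push_cast
        field_simp
      rwa [h4] at h3
    have h5 : |slp a ((l : ℂ) * a₁)| ≤ τ + 8 * r := by
      have h6 : |slp a ((l : ℂ) * a₁)| = |ε * slp a ((l : ℂ) * a₁)| := by
        rw [abs_mul, hε, one_mul]
      rw [h6, e1]
      have h7 := abs_le.1 hsl
      exact abs_le.2 ⟨by linarith, by linarith⟩
    refine ⟨?_, by rw [e1]; exact hsl⟩
    have h8 := layer ha e2 (κ := r) (by linarith)
      (by rw [nrm_smul hl0.le, ha₁, mul_one]; exact abs_le.2 ⟨by linarith, by linarith⟩) (by linarith)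
    linarith
  have hup' : ∀ l : ℝ, l₀ ≤ l → l ≤ 1 + e → ∀ g, dist g (Q.H ((l : ℂ) * a₁)) ≤ δ →
      dist (Φ g) a ≤ 1 / 8 ∧ |ε * slp a (Φ g) - τ| ≤ 12 * r := by
    intro l h0 h1 g hg
    have hl0 : 0 < l := by linarith
    have h2 : nrm (Φ (Q.H ((l : ℂ) * a₁))) ≤ 2 := by
      rw [hΦH, nrm_smul hl0.le, ha₁]; linarith
    have h3 := h.mod' h2 (z' := g) (by rw [dist_comm]; linarith)
    rw [← hΦ, hΦH] at h3
    obtain ⟨h4, h4'⟩ := hup0 l h0 h1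
    have h5 := dist_triangle_left (Φ g) a ((l : ℂ) * a₁)
    have h6 : dist (Φ g) a ≤ 1 / 8 := by linarith
    refine ⟨h6, ?_⟩
    have h7 := slp_lip ha (w := Φ g) (w' := (l : ℂ) * a₁) (by linarith) (by linarith)
    rw [← hεabs] at h7
    have h8 := abs_sub_le (ε * slp a (Φ g)) (ε * slp a ((l : ℂ) * a₁)) τ
    rw [dist_comm] at h3
    linarith
  set Z : Set ℂ := {g | g ∉ W ∧ dist (Φ g) a ≤ 1 / 8 ∧ |ε * slp a (Φ g) - τ| ≤ 12 * r} with hZ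
  have hnotW : ∀ g ∈ RN Q t e δ X, g ∉ W := fun g hg hgW => IN_notRN (hW g hgW) hg
  have hZpre : ∀ g ∈ comp X (IN Q t e δ X i₀ ∩ thickening δ (ray Q s (1 + e) a')) c₀, g ∈ Z := by
    intro g hg
    obtain ⟨g1, g2⟩ := hlow g (comp_subset _ _ _ hg).2
    exact ⟨hpre g hg, by linarith, by linarith⟩
  have hyZ : y ∈ Z := by
    obtain ⟨g1, g2⟩ := hlow y hyT
    exact ⟨hnotW y hyR, by linarith, by linarith⟩
  have hZpost : ∀ g ∈ X ∩ thickening δ (ray Q l₀ (1 + e) a₁), g ∈ Z := by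
    rintro g ⟨hgX, hg⟩
    have hgR : g ∈ RN Q t e δ X := ⟨hgX, thickening_subset_of_subset _ hray hg⟩
    obtain ⟨_, ⟨_, ⟨l, hl, rfl⟩, rfl⟩, hgz⟩ := mem_thickening_iff.1 hg
    obtain ⟨g1, g2⟩ := hup' l hl.1 hl.2 g hgz.le
    exact ⟨hnotW g hgR, g1, g2⟩
  have hn1 : nrm (((1 + e : ℝ) : ℂ) * a₁) = 1 + e := by
    rw [nrm_smul (by linarith), ha₁, mul_one]
  obtain ⟨y', hy', hy''⟩ := h.net2 (w := ((1 + e : ℝ) : ℂ) * a₁) (by rw [hn1]; linarith)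
  have hy'T : y' ∈ X ∩ thickening δ (ray Q l₀ (1 + e) a₁) :=
    ⟨hy', mem_thickening_iff.2 ⟨_, mem_ray hl₀' le_rfl a₁, by linarith⟩⟩
  have hyT' : y ∈ X ∩ thickening δ (ray Q l₀ (1 + e) a₁) :=
    ⟨hyR.1, mem_thickening_iff.2 ⟨_, mem_ray le_rfl hl₀' a₁, hyz⟩⟩
  have hchain : Relation.ReflTransGen (fun p q => nbr X p q ∧ p ∈ Z ∧ q ∈ Z) c₀ y' := by
    have hc₀T : c₀ ∈ IN Q t e δ X i₀ ∩ thickening δ (ray Q s (1 + e) a') :=
      ⟨h.core hc₀, mem_thickening_iff.2 ⟨_, mem_ray le_rfl (by linarith) a', by linarith⟩⟩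
    have h1 : Relation.ReflTransGen (fun p q => nbr X p q ∧ p ∈ Z ∧ q ∈ Z) c₀ y₁ :=
      Relation.ReflTransGen.mono (fun p q hpq => ⟨hpq.1, hZpre p hpq.2.1, hZpre q hpq.2.2⟩) _ _
        ((connIn_comp (inter_subset_left.trans h.inn_sub) c₀).2 c₀ (mem_comp_self hc₀T) y₁ hy₁)
    have h2 : Relation.ReflTransGen (fun p q => nbr X p q ∧ p ∈ Z ∧ q ∈ Z) y y' :=
      Relation.ReflTransGen.mono (fun p q hpq => ⟨hpq.1, hZpost p hpq.2.1, hZpost q hpq.2.2⟩) _ _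
        ((h.conn_ray (by linarith) le_rfl ha₁).2 y hyT' y' hy'T)
    exact (h1.tail ⟨hy₁y, hZpre y₁ hy₁, hyZ⟩).trans h2
  have hne : c₀ ≠ y' := fun hh => by
    have h1 : y' ∈ RN Q t e δ X := ⟨hy', thickening_subset_of_subset _ hray hy'T.2⟩
    exact IN_notRN (h.core hc₀) (hh ▸ h1)
  obtain ⟨γ, hγ⟩ := exists_poly hchain hne
  obtain ⟨σ₀, hσ₀⟩ := exists_seg (Q.H ((s : ℂ) * a')) c₀
  obtain ⟨σ₁, hσ₁⟩ := exists_seg y' (Q.H (((1 + e : ℝ) : ℂ) * a₁))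
  have hq : ∀ z ∈ range ((σ₀.trans γ).trans σ₁), dist z (Q.H ((s : ℂ) * a')) ≤ ρ ∨
      dist z (Q.H (((1 + e : ℝ) : ℂ) * a₁)) ≤ ρ ∨ ∃ p q, nbr X p q ∧ p ∈ Z ∧ q ∈ Z ∧
        ∃ l : ℝ, 0 ≤ l ∧ l ≤ 1 ∧ z = sg p q l := by
    intro z hz
    rw [Path.trans_range, Path.trans_range] at hz
    rcases hz with (⟨t, rfl⟩ | ⟨t, rfl⟩) | ⟨t, rfl⟩
    · left
      obtain ⟨l, h0, h1, h2⟩ := hσ₀ t
      rw [h2, dist_sg_left _ _ h0, dist_comm (Q.H _)]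
      nlinarith [dist_nonneg (x := c₀) (y := Q.H ((s : ℂ) * a'))]
    · right; right
      obtain ⟨p, q, ⟨h1, h2, h3⟩, l, h4, h5, h6⟩ := hγ t
      exact ⟨p, q, h1, h2, h3, l, h4, h5, h6⟩
    · right; left
      obtain ⟨l, h0, h1, h2⟩ := hσ₁ t
      rw [h2, dist_sg_right _ _ h1]
      nlinarith [dist_nonneg (x := y') (y := Q.H (((1 + e : ℝ) : ℂ) * a₁))]
  refine ⟨a', a₁, (σ₀.trans γ).trans σ₁, ha', ha₁, fun t => ?_⟩
  set z := ((σ₀.trans γ).trans σ₁) t with hz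
  have hedge : ∀ g ∈ Z, dist z g ≤ ρ → dist (Φ z) a ≤ 1 / 4 ∧ |ε * slp a (Φ z) - τ| ≤ 16 * r := by
    rintro g ⟨-, g1, g2⟩ hzg
    have h3 := h.mod' (htwo g (by linarith)) (z' := z) (by rw [dist_comm]; linarith)
    rw [← hΦ] at h3
    have h5 := dist_triangle_left (Φ z) a (Φ g)
    have h6 : dist (Φ z) a ≤ 1 / 4 := by linarith
    refine ⟨h6, ?_⟩
    have h7 := slp_lip ha (w := Φ z) (w' := Φ g) h6 (by linarith)
    rw [← hεabs] at h7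
    have h8 := abs_sub_le (ε * slp a (Φ z)) (ε * slp a (Φ g)) τ
    rw [dist_comm] at h3
    linarith
  rcases hq z ⟨t, rfl⟩ with h1 | h1 | ⟨p, q, hpq, hp, hq, l, h0, h1, h2⟩
  · obtain ⟨g1, g2⟩ := hlow' s le_rfl (by linarith) z (by linarith)
    exact ⟨⟨by linarith, by linarith⟩, Or.inl h1⟩
  · obtain ⟨g1, g2⟩ := hup' (1 + e) hl₀' le_rfl z (by linarith)
    exact ⟨⟨by linarith, by linarith⟩, Or.inr (Or.inl h1)⟩
  · have h3 := h.short hpq (htwo p (by linarith [hp.2.1]))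
    refine ⟨?_, Or.inr (Or.inr ⟨p, q, hpq, hp.1, hq.1, l, h0, h1, h2⟩)⟩
    rcases near_end p q h0 h1 h3 with h4 | h4
    · exact hedge p hp (by rw [h2]; exact h4)
    · exact hedge q hq (by rw [h2]; exact h4)

end Good

end Vale.Agent.P148.R2.H592
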