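import Vale.Agent.P148.R2.H592.Conv4

/-!
# P148, module CONV, part 5: every free site near the boundary is joined to the core locally
-/

open Set Metric Topology Filter

namespace Vale.Agent.P148.R2.H592

open _root_.P148 (sq side corner Quad)
open Vale.Agent.P148.R2.H995 (sg seg_disjoint)

namespace Good

variable {Q : Quad} {r t e δ ρ R s : ℝ} {X : Set ℂ} {b : ZMod 3 → ℂ} {i₀ : ℂ}
  (h : Good Q r t e δ ρ R s X b i₀)
include h

/-- **A free site near the boundary is joined to the core locally.** -/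
theorem loc_core {a : ℂ} (ha : nrm a = 1) {η : ℝ} (hη : η ≤ 1 / 8) (hr : r ≤ η / 1152) {x : ℂ}
    (hx : x ∈ IN Q t e δ X i₀) (hxa : dist (Q.H.symm x) a ≤ η / 288) :
    ∃ c ∈ X ∩ thickening δ (FQ Q s),
      c ∈ comp X (IN Q t e δ X i₀ ∩ {z | dist (Q.H.symm z) a < η}) x := by
  have hs0 := h.s0
  have hs1 := h.s1
  have hsr := h.sr
  have he0 := h.e0
  have he1 := h.e1
  have her := h.er
  have hρ0 := h.ρ0
  have hρδ := h.ρδ
  have hδ0 := h.δ0
  have hr0 := h.r0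
  have hη0 : 0 < η := by linarith
  set Φ := Q.H.symm with hΦ
  have hΦH : ∀ w, Φ (Q.H w) = w := Q.H.symm_apply_apply
  set O : Set ℂ := IN Q t e δ X i₀ ∩ {z | dist (Φ z) a < η} with hO
  set W : Set ℂ := comp X O x with hW
  by_contra hcon
  push Not at hcon
  have hOX : O ⊆ X := fun z hz => h.inn_sub hz.1
  have hWO : ∀ u ∈ W, u ∈ O := fun u hu => comp_subset _ _ _ hu
  have hWcore : ∀ u ∈ W, u ∉ thickening δ (FQ Q s) := fun u hu hc => hcon u ⟨hOX (hWO u hu), hc⟩ hu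
  have htwo : ∀ z, dist (Φ z) a ≤ 1 / 2 → nrm (Φ z) ≤ 2 := fun z hz => by
    have := nrm_sub (Φ z) a
    rw [ha] at this
    have := (abs_le.1 this).2
    linarith
  have hxO : x ∈ O := ⟨hx, by show dist (Φ x) a < η; linarith⟩
  have hxW : x ∈ W := mem_comp_self hxO
  set τ : ℝ := η / 36 with hτ
  have hτ0 : 0 < τ := by positivity
  -- the exit
  obtain ⟨u, v, ⟨huv, huI, hvI⟩, huW, hvW⟩ := exists_exit (A := W)
    (h.conn_IN.2 x hx i₀ h.i₀_inn) hxW (hcon i₀ h.i₀_core)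
  have hvη : η ≤ dist (Φ v) a := by
    by_contra hc
    rw [not_le] at hc
    exact hvW (comp_closed huW huv ⟨hvI, hc⟩)
  have huη : η - r < dist (Φ u) a := by
    have h1 : dist (Φ u) a < η := (hWO u huW).2
    have h2 := h.short huv (htwo u (by linarith))
    have h3 := h.mod' (htwo u (by linarith)) (z' := v) (by linarith)
    have h4 := dist_triangle_left (Φ v) a (Φ u)
    linarith
  have hxu : x ≠ u := fun hh => by
    rw [← hh] at huη
    linarith
  obtain ⟨γ', hγ'⟩ := exists_poly ((connIn_comp hOX x).2 x hxW u huW) hxu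
  have hp : ∀ t, ∃ (p q : ℂ) (l : ℝ), p ∈ W ∧ q ∈ W ∧ nbr X p q ∧ 0 ≤ l ∧ l ≤ 1 ∧
      γ' t = sg p q l ∧ dist (γ' t) p ≤ ρ := by
    intro t
    obtain ⟨p, q, ⟨hpq, hp, hq⟩, l, h0, h1, h2⟩ := hγ' t
    have h1' : dist (Φ p) a < η := (hWO p hp).2
    have h3 := h.short hpq (htwo p (by linarith))
    rcases near_end p q h0 h1 h3 with h4 | h4
    · exact ⟨p, q, l, hp, hq, hpq, h0, h1, h2, by rw [h2]; exact h4⟩
    · exact ⟨q, p, 1 - l, hq, hp, nbr_symm hpq, by linarith, by linarith, by rw [h2, sg_symm],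
        by rw [h2]; exact h4⟩
  have hpd : ∀ t, dist (Φ (γ' t)) a ≤ 1 / 4 ∧ s ≤ nrm (Φ (γ' t)) ∧ nrm (Φ (γ' t)) ≤ 1 + e := by
    intro t
    obtain ⟨p, q, l, hp, hq, hpq, h0, h1, h2, h3⟩ := hp t
    have h1' : dist (Φ p) a < η := (hWO p hp).2
    have h4 := h.mod' (htwo p (by linarith)) (z' := γ' t) (by rw [dist_comm]; linarith)
    have h5 := dist_triangle_left (Φ (γ' t)) a (Φ p)
    refine ⟨by linarith, ?_⟩
    have h6 := h.seg_layer hpq (hWO p hp).1 (hWcore p hp) h0 (h2 ▸ h3)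
    rw [h2]
    exact ⟨h6.1.le, h6.2.le⟩
  -- the slopes of the ends
  have hsx : |slp a (Φ x)| ≤ τ / 2 := by
    have := slp_small ha (w := Φ x) (by linarith)
    linarith
  have hsu : 3 / 2 * τ ≤ |slp a (Φ u)| := by
    have hua : dist (Φ u) a ≤ 1 / 4 := by
      have h1 : dist (Φ u) a < η := (hWO u huW).2
      linarith
    rcases le_total |slp a (Φ u)| (1 / 4) with h1 | h1
    · have h2 := hpd 1
      rw [γ'.target] at h2
      have h3 := layer ha (re_pos ha hua) (κ := r) h1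
        (abs_le.2 ⟨by linarith [h2.2.1], by linarith [h2.2.2]⟩) (by linarith)
      linarith
    · linarith
  obtain ⟨ε, hε, hεu⟩ : ∃ ε : ℝ, |ε| = 1 ∧ ε * slp a (Φ u) = |slp a (Φ u)| := by
    rcases le_total 0 (slp a (Φ u)) with h1 | h1
    · exact ⟨1, abs_one, by rw [abs_of_nonneg h1, one_mul]⟩
    · exact ⟨-1, by rw [abs_neg, abs_one], by rw [abs_of_nonpos h1]; ring⟩
  have hε0 : ε ≠ 0 := fun hh => by rw [hh, abs_zero] at hε; exact zero_ne_one hε
  -- the gate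
  obtain ⟨a', a₁, Γ, ha', ha₁, hΓ⟩ := h.gate_path ha hη hr hτ hε (W := W) (fun g hg => (hWO g hg).1)
    (fun c hc g hg hgW => hcon c hc (by
      have h1 : Relation.ReflTransGen (fun a b => nbr X a b ∧ a ∈ O ∧ b ∈ O) g c := symm_in hg.2
      have h2 : c ∈ O := by
        rcases Relation.ReflTransGen.cases_head hg.2 with hh | ⟨_, ⟨-, hh, -⟩, -⟩
        · rw [hh]; exact hg.1
        · exact hh
      exact ⟨h2, hgW.2.trans h1⟩))
  have hqd : ∀ t, dist (Φ (Γ t)) a ≤ 1 / 4 ∧ τ / 2 ≤ ε * slp a (Φ (Γ t)) ∧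
      ε * slp a (Φ (Γ t)) ≤ 3 / 2 * τ := fun t => by
    obtain ⟨⟨h1, h2⟩, -⟩ := hΓ t
    have h9 := abs_le.1 h2
    exact ⟨h1, by linarith, by linarith⟩
  have hn1 : nrm (((1 + e : ℝ) : ℂ) * a₁) = 1 + e := by
    rw [nrm_smul (by linarith), ha₁, mul_one]
  -- the crossing
  obtain ⟨t₁, t₂, h12⟩ := crossing_slope ha Φ hε0 Γ γ' hqd hpd
    (by rw [hΦH, nrm_smul hs0, ha', mul_one]) (by rw [hΦH, hn1])
    (by
      have h1 : |ε * slp a (Φ x)| ≤ τ / 2 := by rw [abs_mul, hε, one_mul]; exact hsx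
      exact (le_abs_self _).trans h1)
    (by rw [hεu]; exact hsu)
  obtain ⟨p, q, l, hp, hqW, hpq, h0, h1, h2, h3⟩ := hp t₂
  rcases (hΓ t₁).2 with h4 | h4 | ⟨p', q', hpq', hp', hq', l', h0', h1', h2'⟩
  · rw [h12] at h4
    refine hWcore p hp (mem_thickening_iff.2 ⟨Q.H ((s : ℂ) * a'), ⟨_, ?_, rfl⟩, ?_⟩)
    · show nrm _ ≤ s
      rw [nrm_smul hs0, ha', mul_one]
    · have := dist_triangle_left p (Q.H ((s : ℂ) * a')) (γ' t₂)
      linarith
  · rw [h12] at h4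
    refine IN_notRN (hWO p hp).1 ⟨hOX (hWO p hp), mem_thickening_iff.2
      ⟨Q.H (((1 + e : ℝ) : ℂ) * a₁), outer_curve h.t0 h.t1 h.e0 hn1, ?_⟩⟩
    have := dist_triangle_left p (Q.H (((1 + e : ℝ) : ℂ) * a₁)) (γ' t₂)
    linarith
  · refine seg_disjoint h.hX.three hpq hpq' ?_ ?_ ?_ ?_ h0 h1 h0' h1' ?_
    · exact fun hh => hp' (hh ▸ hp)
    · exact fun hh => hq' (hh ▸ hp)
    · exact fun hh => hp' (hh ▸ hqW)
    · exact fun hh => hq' (hh ▸ hqW)
    · rw [← h2, ← h2', h12]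

/-- Two points of the core near the same point are joined locally. -/
theorem core_join {a : ℂ} {η : ℝ} {c c' : ℂ} (hc : c ∈ X ∩ thickening δ (FQ Q s))
    (hc' : c' ∈ X ∩ thickening δ (FQ Q s)) (ha : dist (Q.H.symm c) a < η)
    (ha' : dist (Q.H.symm c') a < η) :
    Relation.ReflTransGen (fun u v => nbr X u v ∧ (u ∈ IN Q t e δ X i₀ ∧ dist (Q.H.symm u) a <
      η + 2 * r) ∧ (v ∈ IN Q t e δ X i₀ ∧ dist (Q.H.symm v) a < η + 2 * r)) c c' := by
  have hs1 := h.s1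
  have key : ∀ c ∈ X ∩ thickening δ (FQ Q s), dist (Q.H.symm c) a < η → ∃ w, nrm w ≤ s ∧
      dist w a < η + r ∧ dist c (Q.H w) < δ := by
    intro c hc hca
    obtain ⟨_, ⟨w, hw, rfl⟩, hcw⟩ := mem_thickening_iff.1 hc.2
    have hw' : nrm w ≤ s := hw
    have h1 := h.mod' (z := Q.H w) (z' := c) (by rw [Q.H.symm_apply_apply]; linarith)
      (by rw [dist_comm]; linarith [h.δ0])
    rw [Q.H.symm_apply_apply] at h1
    have := dist_triangle w (Q.H.symm c) a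
    exact ⟨w, hw, by linarith, hcw⟩
  obtain ⟨w, hw, hwa, hcw⟩ := key c hc ha
  obtain ⟨w', hw', hwa', hcw'⟩ := key c' hc' ha'
  have hconv : Convex ℝ {w : ℂ | nrm w ≤ s ∧ dist w a < η + r} := by
    have h1 : Convex ℝ {w : ℂ | nrm w ≤ s} := by
      have e1 : {w : ℂ | nrm w ≤ s} = {w : ℂ | |w.re| ≤ s} ∩ {w : ℂ | |w.im| ≤ s} := by
        ext w
        simp only [mem_ofPred_eq, mem_inter_iff, nrm, max_le_iff]
      rw [e1]
      refine Convex.inter ?_ ?_
      · have : {w : ℂ | |w.re| ≤ s} = Complex.reLm ⁻¹' Icc (-s) s := by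
          ext w
          simp only [mem_ofPred_eq, mem_preimage, mem_Icc, abs_le, Complex.reLm_coe]
        rw [this]
        exact (convex_Icc _ _).linear_preimage _
      · have : {w : ℂ | |w.im| ≤ s} = Complex.imLm ⁻¹' Icc (-s) s := by
          ext w
          simp only [mem_ofPred_eq, mem_preimage, mem_Icc, abs_le, Complex.imLm_coe]
        rw [this]
        exact (convex_Icc _ _).linear_preimage _
    have h2 : {w : ℂ | nrm w ≤ s ∧ dist w a < η + r} = {w : ℂ | nrm w ≤ s} ∩ ball a (η + r) := rfl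
    rw [h2]
    exact h1.inter (convex_ball _ _)
  set K : Set ℂ := Q.H '' (segment ℝ w w') with hK
  have hKs : segment ℝ w w' ⊆ {w : ℂ | nrm w ≤ s ∧ dist w a < η + r} :=
    hconv.segment_subset ⟨hw, hwa⟩ ⟨hw', hwa'⟩
  have hKp : IsPreconnected K := (convex_segment w w').isPreconnected.image _
    Q.H.continuous.continuousOn
  have hconn : ConnIn X (X ∩ thickening δ K) := by
    refine connIn_thickening h.hX.fin hKp h.δ0 ?_
    rintro _ ⟨v, hv, rfl⟩
    have := (hKs hv).1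
    exact h.net3 (by linarith)
  have hsub : ∀ g ∈ X ∩ thickening δ K, g ∈ IN Q t e δ X i₀ ∧ dist (Q.H.symm g) a < η + 2 * r := by
    rintro g ⟨hg, hg'⟩
    obtain ⟨_, ⟨v, hv, rfl⟩, hgv⟩ := mem_thickening_iff.1 hg'
    obtain ⟨h1, h2⟩ := hKs hv
    refine ⟨h.core ⟨hg, mem_thickening_iff.2 ⟨_, ⟨v, h1, rfl⟩, hgv⟩⟩, ?_⟩
    have h3 := h.mod' (z := Q.H v) (z' := g) (by rw [Q.H.symm_apply_apply]; linarith)
      (by rw [dist_comm]; linarith [h.δ0])
    rw [Q.H.symm_apply_apply] at h3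
    have := dist_triangle_left (Q.H.symm g) a v
    linarith
  refine Relation.ReflTransGen.mono (fun u v huv => ⟨huv.1, hsub u huv.2.1, hsub v huv.2.2⟩) _ _
    (hconn.2 c ⟨hc.1, mem_thickening_iff.2 ⟨_, ⟨w, left_mem_segment ℝ _ _, rfl⟩, hcw⟩⟩ c'
      ⟨hc'.1, mem_thickening_iff.2 ⟨_, ⟨w', right_mem_segment ℝ _ _, rfl⟩, hcw'⟩⟩)

end Good

end Vale.Agent.P148.R2.H592
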