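import Vale.Agent.P148.R2.H592.Conv5
import Vale.Agent.P148.R2.F.Whp
import Vale.Agent.P148.R2.H990.QA

/-!
# P148, module CONV, part 6: perturbed quads are close to the quad; transfer lemmas
-/

open Set Metric Topology Filter

namespace Vale.Agent.P148.R2.H592

open _root_.P148 (sq side corner Quad)
open Vale.Agent.P148.R2.F (arc3)
open Vale.Agent.P148.R2.H990 (QA QA' sn sn_pos sn_le tendsto_sn scl sn_ne1 sn_ne2)

/-- The quads `P n` converge to `Q`. -/
structure NearQ (P : ℕ → Quad) (Q : Quad) : Prop where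
  fwd : ∀ θ > 0, ∀ᶠ n in atTop, ∀ w, nrm w ≤ 2 → dist ((P n).H w) (Q.H w) < θ
  bwd : ∀ θ > 0, ∀ᶠ n in atTop, ∀ z, nrm (Q.H.symm z) ≤ 3 →
    dist ((P n).H.symm z) (Q.H.symm z) < θ

/-- Uniform continuity of the parametrisation, one point in the square of size `2`. -/
theorem exists_unif' (Q : Quad) {r : ℝ} (hr : 0 < r) : ∃ η > 0, ∀ w w' : ℂ,
    nrm w ≤ 2 → dist w w' < η → dist (Q.H w) (Q.H w') < r := by
  have hc : IsCompact {w : ℂ | nrm w ≤ 2} := by
    refine Metric.isCompact_of_isClosed_isBounded (isClosed_le continuous_nrm continuous_const) ?_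
    refine (Metric.isBounded_closedBall (x := (0 : ℂ)) (r := 4)).subset fun w hw => ?_
    rw [mem_closedBall, dist_zero_right]
    have := norm_le_nrm w
    have hw' : nrm w ≤ 2 := hw
    linarith
  have h := hc.uniformContinuousAt_of_continuousAt (f := Q.H)
    (fun a _ => Q.H.continuous.continuousAt) (Metric.dist_mem_uniformity hr)
  rw [Metric.mem_uniformity_dist] at h
  obtain ⟨η, hη, h⟩ := h
  exact ⟨η, hη, fun w w' hw hww => h hww hw⟩

theorem nearQ_of (Q : Quad) (P : ℕ → Quad) (B : ℕ → ℂ ≃ₜ ℂ) (hP : ∀ n, P n = ⟨(B n).trans Q.H⟩)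
    (h1 : ∀ θ > 0, ∀ᶠ n in atTop, ∀ w, nrm w ≤ 2 → dist (B n w) w < θ)
    (h2 : ∀ θ > 0, ∀ᶠ n in atTop, ∀ w, nrm w ≤ 3 → dist ((B n).symm w) w < θ) : NearQ P Q where
  fwd θ hθ := by
    obtain ⟨η, hη, hH⟩ := exists_unif' Q hθ
    filter_upwards [h1 η hη] with n hn w hw
    rw [hP n]
    show dist (Q.H (B n w)) (Q.H w) < θ
    rw [dist_comm]
    refine hH _ _ hw ?_
    rw [dist_comm]
    exact hn w hw
  bwd θ hθ := by
    filter_upwards [h2 θ hθ] with n hn z hz
    rw [hP n]
    exact hn _ hz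

theorem scl_near {a b s : ℝ} (ha : a ≠ 0) (hb : b ≠ 0) (has : |a - 1| ≤ s) (hbs : |b - 1| ≤ s)
    (w : ℂ) : dist (scl a b ha hb w) w ≤ 2 * s * nrm w := by
  have h1 : |(scl a b ha hb w).re - w.re| ≤ s * nrm w := by
    have : (scl a b ha hb w).re - w.re = (a - 1) * w.re := by
      show a * w.re - w.re = _
      ring
    rw [this, abs_mul]
    exact mul_le_mul has (re_le_nrm w) (abs_nonneg _) ((abs_nonneg _).trans has)
  have h2 : |(scl a b ha hb w).im - w.im| ≤ s * nrm w := by
    have : (scl a b ha hb w).im - w.im = (b - 1) * w.im := by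
      show b * w.im - w.im = _
      ring
    rw [this, abs_mul]
    exact mul_le_mul hbs (im_le_nrm w) (abs_nonneg _) ((abs_nonneg _).trans has)
  have h3 := dist_le_coord _ _ h1 h2
  linarith

theorem scl_symm_near {a b s : ℝ} (ha : a ≠ 0) (hb : b ≠ 0) (has : |a - 1| ≤ s) (hbs : |b - 1| ≤ s)
    (hs : s ≤ 1 / 2) (w : ℂ) : dist ((scl a b ha hb).symm w) w ≤ 4 * s * nrm w := by
  have hs0 : 0 ≤ s := (abs_nonneg _).trans has
  have key : ∀ c : ℝ, c ≠ 0 → |c - 1| ≤ s → |c⁻¹ - 1| ≤ 2 * s := by
    intro c hc hcs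
    have h1 := abs_le.1 hcs
    have hc' : 1 / 2 ≤ c := by linarith
    have e : c⁻¹ - 1 = (1 - c) / c := by field_simp
    rw [e, abs_div, abs_of_pos (show 0 < c by linarith), div_le_iff₀ (by linarith), abs_sub_comm]
    nlinarith
  have h1 : |((scl a b ha hb).symm w).re - w.re| ≤ 2 * s * nrm w := by
    have : ((scl a b ha hb).symm w).re - w.re = (a⁻¹ - 1) * w.re := by
      show a⁻¹ * w.re - w.re = _
      ring
    rw [this, abs_mul]
    exact mul_le_mul (key a ha has) (re_le_nrm w) (abs_nonneg _) (by positivity)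
  have h2 : |((scl a b ha hb).symm w).im - w.im| ≤ 2 * s * nrm w := by
    have : ((scl a b ha hb).symm w).im - w.im = (b⁻¹ - 1) * w.im := by
      show b⁻¹ * w.im - w.im = _
      ring
    rw [this, abs_mul]
    exact mul_le_mul (key b hb hbs) (im_le_nrm w) (abs_nonneg _) (by positivity)
  have h3 := dist_le_coord _ _ h1 h2
  linarith

theorem nearQ_QA (Q : Quad) : NearQ (QA Q) Q := by
  refine nearQ_of Q _ (fun n => scl (1 - sn n) (1 + sn n) (sn_ne1 n) (sn_ne2 n)) (fun n => rfl) ?_ ?_
  · intro θ hθ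
    have h := tendsto_sn.eventually_lt_const (show (0 : ℝ) < θ / 4 by positivity)
    filter_upwards [h] with n hn w hw
    have h0 := sn_pos n
    have h1 := scl_near (sn_ne1 n) (sn_ne2 n) (s := sn n)
      (by rw [abs_le]; constructor <;> linarith) (by rw [abs_le]; constructor <;> linarith) w
    nlinarith [nrm_nonneg w]
  · intro θ hθ
    have h := tendsto_sn.eventually_lt_const (show (0 : ℝ) < θ / 12 by positivity)
    filter_upwards [h] with n hn w hw
    have h0 := sn_pos n
    have h2 := sn_le n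
    have h1 := scl_symm_near (sn_ne1 n) (sn_ne2 n) (s := sn n)
      (by rw [abs_le]; constructor <;> linarith) (by rw [abs_le]; constructor <;> linarith)
      (by linarith) w
    nlinarith [nrm_nonneg w]

theorem nearQ_QA' (Q : Quad) : NearQ (QA' Q) Q := by
  refine nearQ_of Q _ (fun n => scl (1 + sn n) (1 - sn n) (sn_ne2 n) (sn_ne1 n)) (fun n => rfl) ?_ ?_
  · intro θ hθ
    have h := tendsto_sn.eventually_lt_const (show (0 : ℝ) < θ / 4 by positivity)
    filter_upwards [h] with n hn w hw
    have h0 := sn_pos n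
    have h1 := scl_near (sn_ne2 n) (sn_ne1 n) (s := sn n)
      (by rw [abs_le]; constructor <;> linarith) (by rw [abs_le]; constructor <;> linarith) w
    nlinarith [nrm_nonneg w]
  · intro θ hθ
    have h := tendsto_sn.eventually_lt_const (show (0 : ℝ) < θ / 12 by positivity)
    filter_upwards [h] with n hn w hw
    have h0 := sn_pos n
    have h2 := sn_le n
    have h1 := scl_symm_near (sn_ne2 n) (sn_ne1 n) (s := sn n)
      (by rw [abs_le]; constructor <;> linarith) (by rw [abs_le]; constructor <;> linarith)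
      (by linarith) w
    nlinarith [nrm_nonneg w]

theorem arcQ_eq_arc3 (Q : Quad) (j : ZMod 3) : arcQ Q j = arc3 Q j := by
  have hj : j = 0 ∨ j = 1 ∨ j = 2 := by revert j; decide
  rcases hj with rfl | rfl | rfl <;> rfl

/-- Distances to close sets are close. -/
theorem infDist_transfer {A B : Set ℂ} {x : ℂ} {c θ : ℝ} (hA : A.Nonempty) (hx : infDist x A ≤ c)
    (hθ : ∀ z ∈ A, ∃ z' ∈ B, dist z z' ≤ θ) : infDist x B ≤ c + θ := by
  refine le_of_forall_pos_le_add fun ε hε => ?_
  obtain ⟨z, hz, hxz⟩ := (infDist_lt_iff hA).1 (lt_of_le_of_lt hx (show c < c + ε by linarith))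
  obtain ⟨z', hz', hzz⟩ := hθ z hz
  have h1 := infDist_le_dist_of_mem (x := x) hz'
  have h2 := dist_triangle x z z'
  linarith

theorem sideA_nonempty (j : ZMod 3) : (sideA j).Nonempty := ⟨_, cornC_mem j⟩

theorem isClosed_sideA (j : ZMod 3) : IsClosed (sideA j) := by
  have e : ∀ c : ℝ, IsClosed {w : ℂ | w.re = c} := fun c =>
    isClosed_eq Complex.continuous_re continuous_const
  have e' : ∀ c : ℝ, IsClosed {w : ℂ | w.im = c} := fun c =>
    isClosed_eq Complex.continuous_im continuous_const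
  have f : IsClosed {w : ℂ | |w.re| ≤ 1} :=
    isClosed_le (continuous_abs.comp Complex.continuous_re) continuous_const
  have f' : IsClosed {w : ℂ | |w.im| ≤ 1} :=
    isClosed_le (continuous_abs.comp Complex.continuous_im) continuous_const
  refine z3_all (P := fun j => IsClosed (sideA j)) ?_ ?_ ?_ j
  · exact (f.inter (e' (-1))).union ((e 1).inter f')
  · exact f.inter (e' 1)
  · exact (e (-1)).inter f'

/-- A point of an arc is close to a point of the arc which is on no other arc. -/
theorem exists_inner {j : ZMod 3} {a : ℂ} (ha : a ∈ sideA j) {κ : ℝ} (hκ : 0 < κ) (hκ1 : κ < 1) :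
    ∃ a' ∈ sideA j, dist a' a ≤ 2 * (2 * κ) ∧ ∀ i, i ≠ j → a' ∉ sideA i := by
  have hfin : ∀ i : ZMod 3, i = 0 ∨ i = 1 ∨ i = 2 := by decide
  rcases hfin j with rfl | rfl | rfl
  · rcases ha with ⟨h1, h2⟩ | ⟨h1, h2⟩
    · obtain ⟨g1, g2⟩ := abs_le.1 h1
      refine ⟨⟨(1 - κ) * a.re + κ, -1⟩, Or.inl ⟨abs_le.2 ⟨by simp only; nlinarith, by
        simp only; nlinarith⟩, rfl⟩, dist_le_coord _ _ ?_ ?_, fun i hi => ?_⟩
      · rw [abs_le]; constructor <;> simp only <;> nlinarith
      · rw [h2, abs_le]; constructor <;> simp only <;> linarith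
      · rcases hfin i with rfl | rfl | rfl
        · exact absurd rfl hi
        · rintro ⟨-, h⟩
          simp only at h
          linarith
        · rintro ⟨h, -⟩
          simp only at h
          nlinarith
    · obtain ⟨g1, g2⟩ := abs_le.1 h2
      refine ⟨⟨1, (1 - κ) * a.im - κ⟩, Or.inr ⟨rfl, abs_le.2 ⟨by simp only; nlinarith, by
        simp only; nlinarith⟩⟩, dist_le_coord _ _ ?_ ?_, fun i hi => ?_⟩
      · rw [h1, abs_le]; constructor <;> simp only <;> linarith
      · rw [abs_le]; constructor <;> simp only <;> nlinarith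
      · rcases hfin i with rfl | rfl | rfl
        · exact absurd rfl hi
        · rintro ⟨-, h⟩
          simp only at h
          nlinarith
        · rintro ⟨h, -⟩
          simp only at h
          linarith
  · obtain ⟨h1, h2⟩ := ha
    obtain ⟨g1, g2⟩ := abs_le.1 h1
    refine ⟨⟨(1 - κ) * a.re, 1⟩, ⟨abs_le.2 ⟨by simp only; nlinarith, by
      simp only; nlinarith⟩, rfl⟩, dist_le_coord _ _ ?_ ?_, fun i hi => ?_⟩
    · rw [abs_le]; constructor <;> simp only <;> nlinarith
    · rw [h2, abs_le]; constructor <;> simp only <;> linarith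
    · rcases hfin i with rfl | rfl | rfl
      · rintro (⟨-, h⟩ | ⟨h, -⟩)
        · simp only at h
          linarith
        · simp only at h
          nlinarith
      · exact absurd rfl hi
      · rintro ⟨h, -⟩
        simp only at h
        nlinarith
  · obtain ⟨h1, h2⟩ := ha
    obtain ⟨g1, g2⟩ := abs_le.1 h2
    refine ⟨⟨-1, (1 - κ) * a.im⟩, ⟨rfl, abs_le.2 ⟨by simp only; nlinarith, by
      simp only; nlinarith⟩⟩, dist_le_coord _ _ ?_ ?_, fun i hi => ?_⟩
    · rw [h1, abs_le]; constructor <;> simp only <;> linarith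
    · rw [abs_le]; constructor <;> simp only <;> nlinarith
    · rcases hfin i with rfl | rfl | rfl
      · rintro (⟨-, h⟩ | ⟨h, -⟩)
        · simp only at h
          nlinarith
        · simp only at h
          linarith
      · rintro ⟨-, h⟩
        simp only at h
        nlinarith
      · exact absurd rfl hi

end Vale.Agent.P148.R2.H592
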