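import Vale.Agent.P148.R2.H592.Dom1

/-!
# P148, module B2J, part 2: the outer face (Sperner and `H_1 = 0`)
-/

open Set Metric Topology Filter

namespace Vale.Agent.P148.R2.H592

/-- The edge type `{0, 1}`. -/
def e01 (a b : ZMod 3) : ZMod 2 := if (a = 0 ∧ b = 1) ∨ (a = 1 ∧ b = 0) then 1 else 0

theorem e01_sum : ∀ a b c : ZMod 3, ¬ (a ≠ b ∧ b ≠ c ∧ c ≠ a) →
    e01 a b + e01 b c + e01 c a = 0 := by
  decide

theorem z3_perm : ∀ a b c : ZMod 3, a ≠ b ∧ b ≠ c ∧ c ≠ a →
    (a = 0 ∧ b = 1 ∧ c = 2) ∨ (a = 1 ∧ b = 2 ∧ c = 0) ∨ (a = 2 ∧ b = 0 ∧ c = 1) ∨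
    (a = 0 ∧ b = 2 ∧ c = 1) ∨ (a = 1 ∧ b = 0 ∧ c = 2) ∨ (a = 2 ∧ b = 1 ∧ c = 0) := by
  decide

namespace HullTri

variable {X : Set ℂ} {b : ZMod 3 → ℂ} (h : HullTri X b)
include h

/-- A chain of edges in a connected set with given ends. -/
theorem conn_chain {O : Set ℂ} (hO : ConnIn X O) {x y : ℂ} (hx : x ∈ O) (hy : y ∈ O) :
    ∃ c : ℂ → ℂ → ZMod 2, (∀ u v, c u v = c v u) ∧
      (∀ u v, c u v ≠ 0 → nbr X u v ∧ u ∈ O ∧ v ∈ O) ∧
      ∀ v, ∑ w ∈ h.fin.toFinset, c v w = (if v = x then 1 else 0) + (if v = y then 1 else 0) := by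
  have h1 : Relation.ReflTransGen (fun a b => nbr X a b ∧ (a ∈ O) = (b ∈ O)) x y :=
    Relation.ReflTransGen.mono (fun a b (h : nbr X a b ∧ a ∈ O ∧ b ∈ O) =>
      ⟨h.1, propext ⟨fun _ => h.2.2, fun _ => h.2.1⟩⟩) _ _ (hO.2 x hx y hy)
  obtain ⟨c, h2, h3, h4⟩ := h.path_chain (fun a => a ∈ O) (hO.1 hx) h1
  refine ⟨c, h2, fun u v huv => ?_, h4⟩
  obtain ⟨g1, g2, g3⟩ := h3 u v huv
  exact ⟨g1, by rw [g2]; exact hx, by rw [g3]; exact hx⟩

/-- A filling of a chain which avoids the edges at the vertices of a connected set is constant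
round these vertices. -/
theorem fills_const {N z : ℂ → ℂ → ZMod 2} (hN : Fills X b N z) {I : Set ℂ} (hI : ConnIn X I)
    (hz : ∀ u v, z u v ≠ 0 → u ∉ I) {v w v' w' : ℂ} (hv : v ∈ I) (hv' : v' ∈ I)
    (hvw : nbr X v w) (hvw' : nbr X v' w') : N v w = N v' w' := by
  have hz0 : ∀ u ∈ I, ∀ v, z u v = 0 := fun u hu v => by
    by_contra hne
    exact hz u v hne hu
  have hself : ∀ x y : ZMod 2, x + y = 0 → x = y := by decide
  have hrev : ∀ u ∈ I, ∀ v, nbr X u v → N u v = N v u := fun u hu v huv => by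
    apply hself
    rw [hN.2 u v huv, hz0 u hu v]
  -- at one vertex
  have hone : ∀ v ∈ I, ∀ w w', nbr X v w → nbr X v w' → N v w = N v w' := by
    intro v hv w w' hw hw'
    have h1 := link_connected h.fin hw hw' fun a ha => h.off_line v a ha
    induction h1 with
    | refl => rfl
    | tail _ hbc ih =>
      rename_i a c _
      have ha : nbr X v a := nbr_of_tri hbc
      rw [ih ha]
      rcases Tl_of_tri (b := b) hbc with h2 | h2
      · -- face `v a c`
        rw [hN.1 v a c h2, hN.1 a c v (Tl_rot h2), ← hrev v hv c hw']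
      · -- face `a v c`
        rw [hrev v hv a ha, hN.1 a v c h2]
  have hstep : ∀ x, Relation.ReflTransGen (fun a b => nbr X a b ∧ a ∈ I ∧ b ∈ I) v x →
      ∀ y, nbr X x y → N v w = N x y := by
    intro x hx
    induction hx with
    | refl => exact fun y hy => hone v hv w y hvw hy
    | tail _ hbc ih =>
      rename_i a c _
      intro y hy
      rw [ih c hbc.1, hrev a hbc.2.1 c hbc.1]
      exact hone c hbc.2.2 a y (nbr_symm hbc.1) hy
  exact hstep v' (hI.2 v hv v' hv') w' hvw'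

omit h in
theorem Fills_compl {N z : ℂ → ℂ → ZMod 2} (hN : Fills X b N z) :
    Fills X b (fun u v => N u v + 1) z := by
  refine ⟨fun u v w hw => ?_, fun u v huv => ?_⟩
  · show N u v + 1 = N v w + 1
    rw [hN.1 u v w hw]
  · show N u v + 1 + (N v u + 1) = z u v
    rw [← hN.2 u v huv]
    have : ∀ x y : ZMod 2, x + 1 + (y + 1) = x + y := by decide
    exact this _ _

/-- **The outer face.** If three disjoint connected classes cover the complement of a connected
set and are pairwise adjacent, then some face has its corners in the three classes. -/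
theorem exists_tri_face {I : Set ℂ} (hI : ConnIn X I) {O : ZMod 3 → Set ℂ}
    (hd : Pairwise fun i j => Disjoint (O i) (O j)) (hO : ∀ j, ConnIn X (O j))
    (hun : ⋃ j, O j = X \ I) (hadj : ∀ j, ∃ u ∈ O j, ∃ v ∈ O (j + 1), nbr X u v) :
    ∃ o : ZMod 3 → ℂ, (∀ j, o j ∈ O j) ∧
      (Tl X b (o 0) (o 1) (o 2) ∨ Tl X b (o 1) (o 0) (o 2)) := by
  classical
  have hcls : ∀ x, x ∈ X → x ∉ I → ∃ j, x ∈ O j := fun x hx hxI => by
    have : x ∈ ⋃ j, O j := by rw [hun]; exact ⟨hx, hxI⟩
    exact mem_iUnion.1 this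
  have hnI : ∀ {x j}, x ∈ O j → x ∉ I := fun {x j} hx => by
    have : x ∈ X \ I := by rw [← hun]; exact mem_iUnion.2 ⟨j, hx⟩
    exact this.2
  have huniq : ∀ {x i j}, x ∈ O i → x ∈ O j → i = j := fun {x i j} hi hj => by
    by_contra hne
    exact Set.disjoint_left.1 (hd hne) hi hj
  choose u hu v hv huv using hadj
  -- the necklace
  have hv' : ∀ j, v (j + 2) ∈ O j := fun j => by
    have := hv (j + 2)
    rwa [z3_21] at this
  choose c hc1 hc2 hc3 using fun j => h.conn_chain (hO j) (hv' j) (hu j)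
  set z : ℂ → ℂ → ZMod 2 := fun x y => ∑ j : ZMod 3, (c j x y + eind (u j) (v j) x y) with hz
  have hzs : ∀ x y, z x y = z y x := by
    intro x y
    simp only [hz]
    refine Finset.sum_congr rfl fun j _ => ?_
    rw [hc1 j x y, eind_symm]
  have hznb : ∀ x y, z x y ≠ 0 → nbr X x y ∧ x ∉ I := by
    intro x y hxy
    obtain ⟨j, -, hj⟩ := Finset.exists_ne_zero_of_sum_ne_zero hxy
    by_cases h1 : c j x y = 0
    · have h2 : eind (u j) (v j) x y ≠ 0 := by
        intro h0; apply hj; rw [h1, h0, add_zero]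
      by_cases h3 : (x = u j ∧ y = v j) ∨ (x = v j ∧ y = u j)
      · rcases h3 with ⟨rfl, rfl⟩ | ⟨rfl, rfl⟩
        · exact ⟨huv j, hnI (hu j)⟩
        · exact ⟨nbr_symm (huv j), hnI (hv j)⟩
      · exact absurd (eind_of_ne h3) h2
    · obtain ⟨g1, g2, -⟩ := hc2 j x y h1
      exact ⟨g1, hnI g2⟩
  have hz01 : ∀ x y, x ∈ O 0 → y ∈ O 1 → z x y = eind (u 0) (v 0) x y := by
    intro x y hx hy
    have hcz : ∀ j, c j x y = 0 := by
      intro j
      by_contra hne
      obtain ⟨-, g2, g3⟩ := hc2 j x y hne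
      have e1 := huniq hx g2
      have e2 := huniq hy g3
      rw [← e2] at e1
      exact absurd e1 (by decide)
    have hez : ∀ j, j ≠ 0 → eind (u j) (v j) x y = 0 := by
      intro j hj
      refine eind_of_ne ?_
      rintro (⟨rfl, rfl⟩ | ⟨rfl, rfl⟩)
      · exact hj (huniq (hu j) hx)
      · have e1 := huniq (hv j) hx
        have e2 := huniq (hu j) hy
        rw [e2] at e1
        exact absurd e1 (by decide)
    simp only [hz]
    rw [Finset.sum_eq_single (0 : ZMod 3)]
    · rw [hcz, zero_add]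
    · intro j _ hj
      rw [hcz, hez j hj, add_zero]
    · intro h0; exact absurd (Finset.mem_univ _) h0
  have hcyc : ∀ x ∈ X, ∑ w ∈ h.fin.toFinset, z x w = 0 := by
    intro x _
    simp only [hz]
    rw [Finset.sum_comm]
    have e : ∀ j : ZMod 3, ∑ w ∈ h.fin.toFinset, (c j x w + eind (u j) (v j) x w) =
        (if x = v (j + 2) then 1 else 0) + (if x = v j then 1 else 0) := by
      intro j
      rw [Finset.sum_add_distrib, hc3 j x, sum_eind (huv j).2.2.1
        (h.fin.mem_toFinset.2 (huv j).1) (h.fin.mem_toFinset.2 (huv j).2.1)]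
      have : ∀ a b d : ZMod 2, a + b + (b + d) = a + d := by decide
      exact this _ _ _
    rw [Finset.sum_congr rfl fun j _ => e j, Finset.sum_add_distrib]
    have e2 : ∑ j : ZMod 3, (if x = v (j + 2) then (1 : ZMod 2) else 0) =
        ∑ j : ZMod 3, (if x = v j then 1 else 0) :=
      Fintype.sum_equiv (Equiv.addRight 2) _ _ fun j => rfl
    rw [e2]
    have : ∀ a : ZMod 2, a + a = 0 := by decide
    exact this _
  obtain ⟨N₀, hN₀⟩ := h.homology hzs (fun x y hxy => by
    by_contra hne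
    exact hxy (hznb x y hne).1) hcyc
  -- normalise
  obtain ⟨N, hN, hNI⟩ : ∃ N, Fills X b N z ∧ ∀ x ∈ I, ∀ y, nbr X x y → N x y = 0 := by
    by_cases hIe : ∃ x ∈ I, ∃ y, nbr X x y ∧ N₀ x y ≠ 0
    · obtain ⟨x, hx, y, hxy, hne⟩ := hIe
      refine ⟨_, Fills_compl hN₀, fun x' hx' y' hxy' => ?_⟩
      have e := h.fills_const hN₀ hI (fun u v huv => (hznb u v huv).2) hx hx' hxy hxy'
      show N₀ x' y' + 1 = 0
      rw [← e]
      have : ∀ a : ZMod 2, a ≠ 0 → a + 1 = 0 := by decide
      exact this _ hne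
    · push Not at hIe
      exact ⟨N₀, hN₀, fun x hx y hxy => hIe x hx y hxy⟩
  by_contra hcon
  push Not at hcon
  have : Finite (Fc X b) := h.finite_Fc
  have := Fintype.ofFinite (Fc X b)
  -- labels
  have hlab : ∀ x, ∃ j : ZMod 3, x ∈ X → x ∉ I → x ∈ O j := fun x => by
    by_cases hx : x ∈ X ∧ x ∉ I
    · obtain ⟨j, hj⟩ := hcls x hx.1 hx.2
      exact ⟨j, fun _ _ => hj⟩
    · exact ⟨0, fun h1 h2 => absurd ⟨h1, h2⟩ hx⟩
  choose lab hlab using hlab
  set g : Fc X b × ZMod 3 → ZMod 2 := fun q =>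
    (if tail q ∈ O 0 ∧ head q ∈ O 1 then 1 else 0) with hg
  have hgr : ∀ q, g (h.rv q) = if head q ∈ O 0 ∧ tail q ∈ O 1 then 1 else 0 := fun q => by
    simp only [hg]
    rw [h.tail_rv, h.head_rv]
  have htot : ∑ q : Fc X b × ZMod 3, (g q + g (h.rv q)) * N (tail q) (head q) = 0 := by
    rw [Fintype.sum_prod_type]
    refine Finset.sum_eq_zero fun f _ => ?_
    have hT0 := vc_Tl f 0
    have hT1 := vc_Tl f 1
    have hT2 := vc_Tl f 2
    have k1 : (1 : ZMod 3) + 1 = 2 := by decide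
    have k2 : (1 : ZMod 3) + 2 = 0 := by decide
    have k3 : (2 : ZMod 3) + 1 = 0 := by decide
    have k4 : (2 : ZMod 3) + 2 = 1 := by decide
    rw [zero_add, zero_add] at hT0
    rw [k1, k2] at hT1
    rw [k3, k4] at hT2
    have hn0 : N (vc f 1) (vc f 2) = N (vc f 0) (vc f 1) := (hN.1 _ _ _ hT0).symm
    have hn1 : N (vc f 2) (vc f 0) = N (vc f 0) (vc f 1) := (hN.1 _ _ _ hT1).symm.trans hn0
    by_cases hn : N (vc f 0) (vc f 1) = 0
    · refine Finset.sum_eq_zero fun j _ => ?_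
      have hj : j = 0 ∨ j = 1 ∨ j = 2 := by revert j; decide
      have : N (tail (f, j)) (head (f, j)) = 0 := by
        unfold tail head
        rcases hj with rfl | rfl | rfl
        · rw [zero_add, zero_add, hn0, hn]
        · rw [k1, k2, hn1, hn]
        · rw [k3, k4, hn]
      rw [this, mul_zero]
    · have hI0 : vc f 0 ∉ I := fun hi => hn (hNI _ hi _ (h.Tl_nbr hT0))
      have hI1 : vc f 1 ∉ I := fun hi => hn (by
        rw [← hn0]; exact hNI _ hi _ (h.Tl_nbr hT1))
      have hI2 : vc f 2 ∉ I := fun hi => hn (by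
        rw [← hn1]; exact hNI _ hi _ (h.Tl_nbr hT2))
      have hl0 := hlab _ (h.Tl_nbr hT0).1 hI0
      have hl1 := hlab _ (h.Tl_nbr hT1).1 hI1
      have hl2 := hlab _ (h.Tl_nbr hT2).1 hI2
      have hsum : ∀ x y, x ∈ O (lab x) → y ∈ O (lab y) →
          ((if x ∈ O 0 ∧ y ∈ O 1 then (1 : ZMod 2) else 0) +
            if y ∈ O 0 ∧ x ∈ O 1 then 1 else 0) = e01 (lab x) (lab y) := by
        intro x y hx hy
        have hx' : ∀ j, x ∈ O j ↔ lab x = j := fun j =>
          ⟨fun hj => huniq hx hj, fun hj => by rw [← hj]; exact hx⟩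
        have hy' : ∀ j, y ∈ O j ↔ lab y = j := fun j =>
          ⟨fun hj => huniq hy hj, fun hj => by rw [← hj]; exact hy⟩
        simp only [hx', hy']
        generalize lab x = a
        generalize lab y = c
        unfold e01
        revert a c
        decide
      have hlabne : ¬ (lab (vc f 1) ≠ lab (vc f 2) ∧ lab (vc f 2) ≠ lab (vc f 0) ∧
          lab (vc f 0) ≠ lab (vc f 1)) := by
        intro hne
        have h3 : ∀ x y w : ℂ, x ∈ O 0 → y ∈ O 1 → w ∈ O 2 →
            ¬ Tl X b x y w ∧ ¬ Tl X b y x w := by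
          intro x y w hx hy hw
          have := hcon (fun j => match j with
            | 0 => x
            | 1 => y
            | 2 => w) (fun j => by
              have hj : j = 0 ∨ j = 1 ∨ j = 2 := by revert j; decide
              rcases hj with rfl | rfl | rfl
              · exact hx
              · exact hy
              · exact hw)
          exact this
        rcases z3_perm _ _ _ hne with ⟨e1, e2, e3⟩ | ⟨e1, e2, e3⟩ | ⟨e1, e2, e3⟩ | ⟨e1, e2, e3⟩ |
          ⟨e1, e2, e3⟩ | ⟨e1, e2, e3⟩ <;> rw [e1] at hl1 <;> rw [e2] at hl2 <;> rw [e3] at hl0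
        · exact (h3 _ _ _ hl1 hl2 hl0).1 hT1
        · exact (h3 _ _ _ hl0 hl1 hl2).1 hT0
        · exact (h3 _ _ _ hl2 hl0 hl1).1 hT2
        · exact (h3 _ _ _ hl1 hl0 hl2).2 hT0
        · exact (h3 _ _ _ hl2 hl1 hl0).2 hT1
        · exact (h3 _ _ _ hl0 hl2 hl1).2 hT2
      have hz3 : ∀ F : ZMod 3 → ZMod 2, ∑ j, F j = F 0 + F 1 + F 2 := fun F => by
        have : (Finset.univ : Finset (ZMod 3)) = {0, 1, 2} := by decide
        rw [this, Finset.sum_insert (by decide), Finset.sum_insert (by decide),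
          Finset.sum_singleton, add_assoc]
      have a0 : (g (f, 0) + g (h.rv (f, 0))) * N (tail (f, 0)) (head (f, 0)) =
          e01 (lab (vc f 1)) (lab (vc f 2)) * N (vc f 0) (vc f 1) := by
        rw [hgr]
        exact congrArg₂ _ (hsum _ _ hl1 hl2) hn0
      have a1 : (g (f, 1) + g (h.rv (f, 1))) * N (tail (f, 1)) (head (f, 1)) =
          e01 (lab (vc f 2)) (lab (vc f 0)) * N (vc f 0) (vc f 1) := by
        rw [hgr]
        exact congrArg₂ _ (hsum _ _ hl2 hl0) hn1
      have a2 : (g (f, 2) + g (h.rv (f, 2))) * N (tail (f, 2)) (head (f, 2)) =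
          e01 (lab (vc f 0)) (lab (vc f 1)) * N (vc f 0) (vc f 1) := by
        rw [hgr]
        exact congrArg₂ _ (hsum _ _ hl0 hl1) rfl
      rw [hz3, a0, a1, a2, ← add_mul, ← add_mul, e01_sum _ _ _ hlabne, zero_mul]
  have hone : ∑ q : Fc X b × ZMod 3, (g q + g (h.rv q)) * N (tail q) (head q) = 1 := by
    have e1 : ∑ q : Fc X b × ZMod 3, g (h.rv q) * N (tail q) (head q) =
        ∑ q : Fc X b × ZMod 3, g q * N (head q) (tail q) := by
      refine Fintype.sum_equiv h.rvPerm _ _ fun q => ?_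
      show _ = g (h.rv q) * N (head (h.rv q)) (tail (h.rv q))
      rw [h.head_rv, h.tail_rv]
    have e2 : ∑ q : Fc X b × ZMod 3, (g q + g (h.rv q)) * N (tail q) (head q) =
        ∑ q : Fc X b × ZMod 3, g q * eind (u 0) (v 0) (tail q) (head q) := by
      have e3 : ∑ q : Fc X b × ZMod 3, (g q + g (h.rv q)) * N (tail q) (head q) =
          ∑ q : Fc X b × ZMod 3, (g q * N (tail q) (head q) + g (h.rv q) * N (tail q) (head q)) :=
        Finset.sum_congr rfl fun q _ => by ring
      rw [e3, Finset.sum_add_distrib, e1, ← Finset.sum_add_distrib]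
      refine Finset.sum_congr rfl fun q _ => ?_
      rw [← mul_add, hN.2 _ _ (h.nbr_th q)]
      by_cases hq : tail q ∈ O 0 ∧ head q ∈ O 1
      · rw [hz01 _ _ hq.1 hq.2]
      · have : g q = 0 := by simp only [hg]; rw [if_neg hq]
        rw [this, zero_mul, zero_mul]
    have hv0 : v 0 ∈ O 1 := by
      have := hv 0
      rwa [zero_add] at this
    rw [e2, Finset.sum_eq_single (h.dart (huv 0))]
    · rw [h.tail_dart, h.head_dart, eind_self, mul_one]
      simp only [hg]
      rw [h.tail_dart, h.head_dart, if_pos ⟨hu 0, hv0⟩]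
    · intro q _ hq
      by_cases hq' : tail q ∈ O 0 ∧ head q ∈ O 1
      · rw [eind_of_ne, mul_zero]
        rintro (⟨h1, h2⟩ | ⟨h1, h2⟩)
        · exact hq (h.th_inj (h1.trans (h.tail_dart _).symm) (h2.trans (h.head_dart _).symm))
        · rw [h1] at hq'
          exact absurd (huniq hv0 hq'.1) (by decide)
      · have : g q = 0 := by simp only [hg]; rw [if_neg hq']
        rw [this, zero_mul]
    · intro h0; exact absurd (Finset.mem_univ _) h0
  rw [htot] at hone
  exact absurd hone (by decide)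

end HullTri

end Vale.Agent.P148.R2.H592
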