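import Vale.Agent.P148.R2.H592.Conv6
import Vale.Agent.P148.R2.H826.Oconn

/-!
# P148, module CONV, part 7: the discrete domains of perturbed quads converge
-/

open Set Metric Topology Filter

namespace Vale.Agent.P148.R2.H592

open _root_.P148 (sq side corner Quad Pt pts)
open Vale.Agent.P148.R2.F (arc3 whp Conv)

universe u

/-- The discrete domain `D` is a good domain of `P n` made of the points of `T`. -/
structure Spec (P : ℕ → Quad) (r R' : ℕ → ℝ) (n : ℕ) (T : Set Pt) (D : F.Dom) : Prop where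
  ex : ∃ t e δ ρ R s i₀, Good (P n) (r n) t e δ ρ R s D.X D.b i₀ ∧ D.O = clsQ (P n) t e δ D.X i₀
  hX : D.X = XU T (ball 0 (R' n)) D.b
  hb : ∀ j, R' n ≤ ‖D.b j‖

theorem Good.free_iff {Q : Quad} {r t e δ ρ R s : ℝ} {i₀ : ℂ} {D : F.Dom}
    (h : Good Q r t e δ ρ R s D.X D.b i₀) (hO : D.O = clsQ Q t e δ D.X i₀) (x : ℂ) :
    D.Free x ↔ x ∈ IN Q t e δ D.X i₀ := by
  have h1 : D.Free x ↔ x ∈ D.X \ ⋃ j, D.O j := by
    unfold F.Dom.Free
    simp only [Set.mem_sdiff, mem_iUnion, not_exists]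
  rw [h1, hO, h.free_eq]

/-- A point near the gate is near the boundary point. -/
theorem Good.near_gate {Q : Quad} {r t e δ ρ R s : ℝ} {X : Set ℂ} {b : ZMod 3 → ℂ} {i₀ : ℂ}
    (h : Good Q r t e δ ρ R s X b i₀) {a y : ℂ} (ha : nrm a = 1)
    (hy : y ∈ thickening δ (ray Q s (1 + e) a)) : dist (Q.H.symm y) a < 3 * r := by
  have hs0 := h.s0
  have hsr := h.sr
  have he1 := h.e1
  have her := h.er
  have hδ0 := h.δ0
  obtain ⟨_, ⟨_, ⟨l, hl, rfl⟩, rfl⟩, hyz⟩ := mem_thickening_iff.1 hy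
  have hl0 : 0 ≤ l := hs0.trans hl.1
  have h1 := h.mod' (z := Q.H ((l : ℂ) * a)) (z' := y)
    (by rw [Q.H.symm_apply_apply, nrm_smul hl0, ha]; linarith [hl.2])
    (by rw [dist_comm]; linarith)
  rw [Q.H.symm_apply_apply] at h1
  have h2 : dist ((l : ℂ) * a) a ≤ 2 * r := by
    have e1 : (l : ℂ) * a - a = ((l - 1 : ℝ) : ℂ) * a := by push_cast; ring
    rw [Complex.dist_eq, e1, norm_mul, Complex.norm_real, Real.norm_eq_abs]
    have h3 : |l - 1| ≤ r := abs_le.2 ⟨by linarith [hl.1], by linarith [hl.2]⟩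
    have h4 := norm_le_two ha
    nlinarith [norm_nonneg a, abs_nonneg (l - 1)]
  have := dist_triangle_left (Q.H.symm y) a ((l : ℂ) * a)
  linarith

section

variable {Q : Quad} {P : ℕ → Quad} (hP : NearQ P Q) {r R' : ℕ → ℝ} (hr : Tendsto r atTop (𝓝 0))
include hP hr

theorem reach_of {j : ZMod 3} {p : ℂ} (hp : p ∈ arc3 Q j) {θ : ℝ} (hθ : 0 < θ) :
    ∀ᶠ n in atTop, ∀ T D, Spec P r R' n T D → ∃ x ∈ D.O j, ∃ y, D.Free y ∧
      nbr D.X x y ∧ dist x p ≤ θ ∧ dist y p ≤ θ := by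
  rw [← arcQ_eq_arc3, arcQ_eq] at hp
  obtain ⟨a, ha, rfl⟩ := hp
  obtain ⟨η, hη, hH⟩ := exists_unif' Q (show 0 < θ / 4 by positivity)
  obtain ⟨a', ha', haa, hav⟩ := exists_inner ha (κ := min (1 / 2) (η / 8)) (by positivity)
    ((min_le_left _ _).trans_lt (by norm_num))
  have haa' : dist a' a < η := by
    have := min_le_right (1 / 2) (η / 8)
    linarith
  have hn1 := nrm_sideA j a' ha'
  obtain ⟨ν, hν, hνi⟩ : ∃ ν > 0, ∀ i, i ≠ j → ν ≤ infDist (Q.H a') (arcQ Q i) := by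
    have hpos : ∀ i, i ≠ j → 0 < infDist (Q.H a') (arcQ Q i) := fun i hi => by
      have hcl : IsClosed (arcQ Q i) := by
        rw [arcQ_eq]; exact Q.H.isClosedMap _ (isClosed_sideA i)
      have hne : (arcQ Q i).Nonempty := by rw [arcQ_eq]; exact (sideA_nonempty i).image _
      refine (hcl.notMem_iff_infDist_pos hne).1 fun hmem => ?_
      rw [arcQ_eq] at hmem
      obtain ⟨w, hw, hww⟩ := hmem
      exact hav i hi ((Q.H.injective hww) ▸ hw)
    refine ⟨min (infDist (Q.H a') (arcQ Q (j + 1))) (infDist (Q.H a') (arcQ Q (j + 2))),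
      lt_min (hpos _ (z3_ne1 j).symm) (hpos _ (z3_ne2 j).symm), fun i hi => ?_⟩
    have h3 : ∀ i j : ZMod 3, i ≠ j → i = j + 1 ∨ i = j + 2 := by decide
    have := h3 i j hi
    rcases this with rfl | rfl
    · exact min_le_left _ _
    · exact min_le_right _ _
  obtain ⟨η₂, hη₂, hH₂⟩ := exists_unif' Q (show 0 < ν / 8 by positivity)
  have hr1 := hr.eventually_lt_const
    (show (0 : ℝ) < min (min (η / 3) (η₂ / 3)) (min (ν / 8) (1 / 3)) by positivity)
  filter_upwards [hP.fwd (min (θ / 4) (ν / 8)) (by positivity), hr1] with n hn hrn T D hD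
  obtain ⟨t, e, δ, ρ, R, s, i₀, h, hO⟩ := hD.ex
  have hr0 := h.r0
  have q1 : r n < η / 3 := hrn.trans_le ((min_le_left _ _).trans (min_le_left _ _))
  have q2 : r n < η₂ / 3 := hrn.trans_le ((min_le_left _ _).trans (min_le_right _ _))
  have q3 : r n < ν / 8 := hrn.trans_le ((min_le_right _ _).trans (min_le_left _ _))
  have q4 : r n < 1 / 3 := hrn.trans_le ((min_le_right _ _).trans (min_le_right _ _))
  obtain ⟨c₀, y₁, y, -, -, hy₁, hyy, hyT, hyR⟩ := h.gate hn1
  have hy₁' := comp_subset _ _ _ hy₁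
  have key : ∀ z, z ∈ thickening δ (ray (P n) s (1 + e) a') →
      dist z (Q.H a) ≤ θ ∧ dist z (Q.H a') ≤ ν / 4 := by
    intro z hz
    have h1 := h.near_gate hn1 hz
    have h2 : nrm ((P n).H.symm z) ≤ 2 := by
      have := nrm_sub ((P n).H.symm z) a'
      rw [hn1] at this
      have := (abs_le.1 this).2
      linarith
    have h3 := hn _ h2
    rw [(P n).H.apply_symm_apply] at h3
    have h3a := h3.trans_le (min_le_left _ _)
    have h3b := h3.trans_le (min_le_right _ _)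
    have h4 := hH _ a' h2 (by linarith)
    have h5 := hH a' a (by rw [hn1]; norm_num) haa'
    have h6 := hH₂ _ a' h2 (by linarith)
    have h7 := dist_triangle z (Q.H ((P n).H.symm z)) (Q.H a')
    have h8 := dist_triangle z (Q.H a') (Q.H a)
    exact ⟨by linarith, by linarith⟩
  obtain ⟨k1, k1'⟩ := key y₁ hy₁'.2
  obtain ⟨k2, k2'⟩ := key y hyT
  have hqd := h.qdom
  have hy₁X : y₁ ∉ ⋃ j, clsQ (P n) t e δ D.X i₀ j := by
    have : y₁ ∈ D.X \ ⋃ j, clsQ (P n) t e δ D.X i₀ j := by rw [h.free_eq]; exact hy₁'.1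
    exact this.2
  have hyU : y ∈ ⋃ j, clsQ (P n) t e δ D.X i₀ j := by
    rw [h.cover]
    exact ⟨hyR.1, fun hc => Good.IN_notRN hc hyR⟩
  obtain ⟨i, hi⟩ := mem_iUnion.1 hyU
  have hij : i = j := by
    by_contra hne
    have h1 := hqd.arc y₁ (h.inn_sub hy₁'.1) hy₁X y hyy i hi
    have h2 : infDist y (arcQ Q i) ≤ r n + ν / 8 := by
      refine infDist_transfer ?_ h1 ?_
      · rw [arcQ_eq]; exact (sideA_nonempty i).image _
      · intro z hz
        rw [arcQ_eq] at hz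
        obtain ⟨w, hw, rfl⟩ := hz
        refine ⟨Q.H w, by rw [arcQ_eq]; exact ⟨w, hw, rfl⟩, ?_⟩
        have := hn w (by rw [nrm_sideA i w hw]; norm_num)
        exact (this.trans_le (min_le_right _ _)).le
    have h3 := hνi i hne
    have h4 : infDist (Q.H a') (arcQ Q i) ≤ dist (Q.H a') y + infDist y (arcQ Q i) := by
      rw [add_comm]
      exact infDist_le_infDist_add_dist
    rw [dist_comm] at h4
    linarith
  subst hij
  exact ⟨y, by rw [hO]; exact hi, y₁, (h.free_iff hO y₁).2 hy₁'.1, nbr_symm hyy, k2, k1⟩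

theorem loc_of {p : ℂ} (hp : p ∈ closure Q.D) {θ : ℝ} (hθ : 0 < θ) : ∃ δ > 0,
    ∀ᶠ n in atTop, ∀ T D, Spec P r R' n T D → ∀ x x', D.Free x → D.Free x' →
      dist x p < δ → dist x' p < δ → Relation.ReflTransGen
      (fun u v => nbr D.X u v ∧ D.Free u ∧ D.Free v ∧ dist u p < θ ∧ dist v p < θ) x x' := by
  have hp' : ∃ a, nrm a ≤ 1 ∧ Q.H a = p := by
    rw [Q.closure_D] at hp
    obtain ⟨a, ha, rfl⟩ := hp
    exact ⟨a, max_le ha.1 ha.2, rfl⟩
  obtain ⟨a, ha, rfl⟩ := hp'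
  obtain ⟨η₀, hη₀, hH⟩ := exists_unif' Q (half_pos hθ)
  set η : ℝ := min (1 / 8) (η₀ / 2) with hη
  have hη0 : 0 < η := by positivity
  have hη8 : η ≤ 1 / 8 := min_le_left _ _
  have hηη : η ≤ η₀ / 2 := min_le_right _ _
  -- the size of the neighbourhood
  set κ : ℝ := if nrm a < 1 then min (η / 1152) ((1 - nrm a) / 4) else η / 1152 with hκ
  have hκ0 : 0 < κ := by
    rw [hκ]
    split_ifs with h1
    · exact lt_min (by positivity) (by linarith)
    · positivity
  have hκη : κ ≤ η / 1152 := by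
    rw [hκ]
    split_ifs with h1
    · exact min_le_left _ _
    · exact le_rfl
  have hκa : nrm a < 1 → κ ≤ (1 - nrm a) / 4 := fun h1 => by
    rw [hκ, if_pos h1]
    exact min_le_right _ _
  obtain ⟨δ', hδ', hδ⟩ := Metric.continuousAt_iff.1 (Q.H.symm.continuous.continuousAt (x := Q.H a))
    κ hκ0
  refine ⟨δ', hδ', ?_⟩
  filter_upwards [hP.fwd (θ / 2) (by positivity), hP.bwd κ hκ0, hr.eventually_lt_const hκ0]
    with n hn1 hn2 hrn T D hD x x' hx hx' hxp hxp'
  obtain ⟨t, e, δ, ρ, R, s, i₀, h, hO⟩ := hD.ex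
  have hr0 := h.r0
  have hsr := h.sr
  -- the statement for one point
  have key : ∀ x, D.Free x → dist x (Q.H a) < δ' → ∃ c ∈ D.X ∩ thickening δ (FQ (P n) s),
      dist ((P n).H.symm c) a < η ∧ Relation.ReflTransGen
        (fun u v => nbr D.X u v ∧ (u ∈ IN (P n) t e δ D.X i₀ ∧ dist ((P n).H.symm u) a < η + 2 * r n) ∧
          (v ∈ IN (P n) t e δ D.X i₀ ∧ dist ((P n).H.symm v) a < η + 2 * r n)) x c := by
    intro x hx hxp
    have hxI := (h.free_iff hO x).1 hx
    have h1 := hδ hxp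
    rw [Q.H.symm_apply_apply] at h1
    have h2 : nrm (Q.H.symm x) ≤ 3 := by
      have := (abs_le.1 (nrm_sub (Q.H.symm x) a)).2
      linarith
    have h3 := hn2 x h2
    have h4 := dist_triangle ((P n).H.symm x) (Q.H.symm x) a
    by_cases hna : nrm a < 1
    · have h5 := hκa hna
      have h6 := (abs_le.1 (nrm_sub ((P n).H.symm x) a)).2
      refine ⟨x, ⟨h.inn_sub hxI, self_subset_thickening h.δ0 _
        ⟨(P n).H.symm x, ?_, (P n).H.apply_symm_apply x⟩⟩, by linarith,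
        Relation.ReflTransGen.refl⟩
      show nrm _ ≤ s
      linarith
    · have hna1 : nrm a = 1 := le_antisymm ha (not_lt.1 hna)
      obtain ⟨c, hc, hc'⟩ := h.loc_core hna1 hη8 (by linarith) hxI (by linarith)
      refine ⟨c, hc, (comp_subset _ _ _ hc').2, Relation.ReflTransGen.mono ?_ _ _ hc'.2⟩
      rintro u v ⟨g1, ⟨g2, g3⟩, g4, g5⟩
      have g3' : dist ((P n).H.symm u) a < η := g3
      have g5' : dist ((P n).H.symm v) a < η := g5
      exact ⟨g1, ⟨g2, by linarith⟩, g4, by linarith⟩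
  obtain ⟨c, hc, hc1, hc2⟩ := key x hx hxp
  obtain ⟨c', hc', hc1', hc2'⟩ := key x' hx' hxp'
  have hsym : Relation.ReflTransGen
      (fun u v => nbr D.X u v ∧ (u ∈ IN (P n) t e δ D.X i₀ ∧ dist ((P n).H.symm u) a < η + 2 * r n) ∧
        (v ∈ IN (P n) t e δ D.X i₀ ∧ dist ((P n).H.symm v) a < η + 2 * r n)) c' x' := by
    have := symm_in (O := {u | u ∈ IN (P n) t e δ D.X i₀ ∧ dist ((P n).H.symm u) a < η + 2 * r n})
      hc2'
    exact this
  have hall := (hc2.trans (h.core_join hc hc' hc1 hc1')).trans hsym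
  have hnear : ∀ u, dist ((P n).H.symm u) a < η + 2 * r n → dist u (Q.H a) < θ := by
    intro u hu
    have h1 : nrm ((P n).H.symm u) ≤ 2 := by
      have := (abs_le.1 (nrm_sub ((P n).H.symm u) a)).2
      linarith
    have h2 := hn1 _ h1
    rw [(P n).H.apply_symm_apply] at h2
    have h3 := hH _ a h1 (by linarith)
    have := dist_triangle u (Q.H ((P n).H.symm u)) (Q.H a)
    linarith
  refine Relation.ReflTransGen.mono ?_ _ _ hall
  rintro u v ⟨g1, ⟨g2, g3⟩, g4, g5⟩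
  exact ⟨g1, (h.free_iff hO u).2 g2, (h.free_iff hO v).2 g4, hnear u g3, hnear v g5⟩

/-- **The discrete domains of the perturbed quads converge to the quad.** -/
theorem conv_of (hR' : Tendsto R' atTop atTop) {E : ℕ × (ℝ × Set Pt) → F.Dom}
    (hE : ∀ n, ∀ᶠ m in whp.{u}, Spec P r R' n m.2 (E (n, m))) :
    Conv Q ((atTop : Filter ℕ).curry whp.{u}) Prod.snd E := by
  have lift : ∀ {A : ℕ → Set Pt → F.Dom → Prop},
      (∀ᶠ n in atTop, ∀ T D, Spec P r R' n T D → A n T D) →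
      ∀ᶠ i in (atTop : Filter ℕ).curry whp.{u}, A i.1 i.2.2 (E i) := by
    intro A hA
    rw [eventually_curry_iff]
    filter_upwards [hA] with n hn
    filter_upwards [hE n] with m hm
    exact hn m.2 _ hm
  have hfree : ∀ {n T D}, Spec P r R' n T D → ConnIn D.X {x | D.Free x} := by
    intro n T D hD
    obtain ⟨t, e, δ, ρ, R, s, i₀, h, hO⟩ := hD.ex
    have : {x | D.Free x} = IN (P n) t e δ D.X i₀ := by
      ext x
      exact h.free_iff hO x
    rw [this]
    exact h.conn_IN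
  refine ⟨?_, fun R => ?_, fun R => ?_, fun θ hθ => ?_, fun θ hθ => ?_, fun θ hθ => ?_,
    fun j p hp θ hθ => ?_, fun p hp θ hθ => ?_, ?_, ?_⟩
  · exact lift (A := fun _ T D => D.X ⊆ pts T ∪ range D.b) (Eventually.of_forall
      fun n T D hD => by rw [hD.hX]; exact XU_subset _ _ _)
  · refine lift (A := fun _ T D => pts T ∩ ball 0 R ⊆ D.X) ?_
    filter_upwards [hR'.eventually_ge_atTop R] with n hn T D hD
    rw [hD.hX]
    exact fun x hx => Or.inl ⟨hx.1, ball_subset_ball hn hx.2⟩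
  · refine lift (A := fun _ T D => ∀ j, R ≤ ‖D.b j‖) ?_
    filter_upwards [hR'.eventually_ge_atTop R] with n hn T D hD j
    exact hn.trans (hD.hb j)
  · -- inner
    refine lift (A := fun _ T D => ∀ x ∈ D.X, ball x θ ⊆ Q.D → D.Free x) ?_
    obtain ⟨s', hs0', hs1', hdeep⟩ := exists_deep Q hθ
    filter_upwards [hP.bwd ((1 - s') / 2) (by linarith),
      hr.eventually_lt_const (show (0 : ℝ) < (1 - s') / 2 by linarith)] with n hn hrn T D hD x hx hxD
    obtain ⟨t, e, δ, ρ, R, s, i₀, h, hO⟩ := hD.ex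
    obtain ⟨w, hw, rfl⟩ := hdeep x hxD
    have hw' : nrm w ≤ s' := hw
    have h1 := hn (Q.H w) (by rw [Q.H.symm_apply_apply]; linarith)
    rw [Q.H.symm_apply_apply] at h1
    have h2 := (abs_le.1 (nrm_sub ((P n).H.symm (Q.H w)) w)).2
    have h3 := h.sr
    refine (h.free_iff hO _).2 (h.core ⟨hx, self_subset_thickening h.δ0 _
      ⟨(P n).H.symm (Q.H w), ?_, (P n).H.apply_symm_apply _⟩⟩)
    show nrm _ ≤ s
    linarith
  · -- outer
    refine lift (A := fun _ T D => ∀ x, D.Free x → infDist x Q.D ≤ θ) ?_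
    filter_upwards [hP.fwd (θ / 2) (by positivity),
      hr.eventually_lt_const (show (0 : ℝ) < θ / 2 by positivity)] with n hn hrn T D hD x hx
    obtain ⟨t, e, δ, ρ, R, s, i₀, h, hO⟩ := hD.ex
    have hxI := (h.free_iff hO x).1 hx
    have hxU : x ∈ D.X \ ⋃ j, clsQ (P n) t e δ D.X i₀ j := by rw [h.free_eq]; exact hxI
    have h1 := h.qdom.near x hxU.1 hxU.2
    have h2 : infDist x Q.D ≤ r n + θ / 2 := by
      refine infDist_transfer ?_ h1 ?_
      · rw [D_eq]
        refine ⟨_, ⟨0, ?_, rfl⟩⟩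
        show nrm 0 < 1
        simp [nrm]
      · intro z hz
        rw [D_eq] at hz
        obtain ⟨w, hw, rfl⟩ := hz
        have hw' : nrm w < 1 := hw
        exact ⟨Q.H w, by rw [D_eq]; exact ⟨w, hw, rfl⟩, (hn w (by linarith)).le⟩
    linarith
  · -- bdry
    refine lift (A := fun _ T D => ∀ j, ∀ x ∈ D.O j, ∀ y, D.Free y → nbr D.X x y →
      infDist x (arc3 Q j) ≤ θ) ?_
    filter_upwards [hP.fwd (θ / 2) (by positivity),
      hr.eventually_lt_const (show (0 : ℝ) < θ / 2 by positivity)] with n hn hrn T D hD j x hx y hy hxy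
    obtain ⟨t, e, δ, ρ, R, s, i₀, h, hO⟩ := hD.ex
    have hyI := (h.free_iff hO y).1 hy
    have hyU : y ∈ D.X \ ⋃ j, clsQ (P n) t e δ D.X i₀ j := by rw [h.free_eq]; exact hyI
    rw [hO] at hx
    have h1 := h.qdom.arc y hyU.1 hyU.2 x (nbr_symm hxy) j hx
    have h2 : infDist x (arc3 Q j) ≤ r n + θ / 2 := by
      rw [← arcQ_eq_arc3]
      refine infDist_transfer ?_ h1 ?_
      · rw [arcQ_eq]; exact (sideA_nonempty j).image _
      · intro z hz
        rw [arcQ_eq] at hz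
        obtain ⟨w, hw, rfl⟩ := hz
        exact ⟨Q.H w, by rw [arcQ_eq]; exact ⟨w, hw, rfl⟩,
          (hn w (by rw [nrm_sideA j w hw]; norm_num)).le⟩
    linarith
  · exact lift (A := fun _ T D => ∃ x ∈ D.O j, ∃ y, D.Free y ∧ nbr D.X x y ∧ dist x p ≤ θ ∧
      dist y p ≤ θ) (reach_of hP hr hp hθ)
  · obtain ⟨δ, hδ, h⟩ := loc_of (R' := R') hP hr hp hθ
    exact ⟨δ, hδ, lift (A := fun _ T D => ∀ x x', D.Free x → D.Free x' →
      dist x p < δ → dist x' p < δ → Relation.ReflTransGen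
      (fun u v => nbr D.X u v ∧ D.Free u ∧ D.Free v ∧ dist u p < θ ∧ dist v p < θ) x x') h⟩
  · exact lift (A := fun _ T D => ConnIn D.X {x | D.Free x})
      (Eventually.of_forall fun n T D hD => hfree hD)
  · refine lift (A := fun _ T D => ∀ q : D.Dt, D.Free (tail q) →
      Relation.EqvGen D.T.NLStep D.o q) ?_
    have hj : ∀ j : ZMod 3, ∀ᶠ n in atTop, ∀ T D, Spec P r R' n T D → ∃ x ∈ D.O j, ∃ y,
        D.Free y ∧ nbr D.X x y ∧ dist x (Q.H (cornC j)) ≤ 1 ∧ dist y (Q.H (cornC j)) ≤ 1 :=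
      fun j => reach_of (R' := R') hP hr (by
        rw [← arcQ_eq_arc3, arcQ_eq]; exact ⟨_, cornC_mem j, rfl⟩) one_pos
    filter_upwards [hj 0, hj 1, hj 2] with n h0 h1 h2 T D hD
    refine H826.oconn D (hfree hD) fun j => ?_
    have : ∃ x ∈ D.O j, ∃ y, D.Free y ∧ nbr D.X x y ∧ dist x (Q.H (cornC j)) ≤ 1 ∧
        dist y (Q.H (cornC j)) ≤ 1 := by
      have hj' : j = 0 ∨ j = 1 ∨ j = 2 := by revert j; decide
      rcases hj' with rfl | rfl | rfl
      · exact h0 T D hD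
      · exact h1 T D hD
      · exact h2 T D hD
    obtain ⟨x, hx, y, hy, hxy, -⟩ := this
    exact ⟨x, hx, y, hy, hxy⟩

end

end Vale.Agent.P148.R2.H592
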