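import Mathlib

/-!
# Voronoi cells and the visibility sweep (P148, module B)
-/

open Set Metric Topology Filter

namespace Vale.Agent.P148.R2.H592

/-- The power difference: nonnegative iff `z` is at least as close to `v` as to `w`. -/
noncomputable def pw (v w z : ℂ) : ℝ := Complex.normSq (z - w) - Complex.normSq (z - v)

/-- The closed Voronoi cell of `v`. -/
def vcell (X : Set ℂ) (v : ℂ) : Set ℂ := {z | ∀ w ∈ X, dist z v ≤ dist z w}

theorem dist_le_iff (v w z : ℂ) : dist z v ≤ dist z w ↔ 0 ≤ pw v w z := by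
  unfold pw
  rw [Complex.dist_eq, Complex.dist_eq, Complex.normSq_eq_norm_sq, Complex.normSq_eq_norm_sq,
    sub_nonneg, sq_le_sq₀ (norm_nonneg _) (norm_nonneg _)]

theorem dist_lt_iff (v w z : ℂ) : dist z v < dist z w ↔ 0 < pw v w z := by
  unfold pw
  rw [Complex.dist_eq, Complex.dist_eq, Complex.normSq_eq_norm_sq, Complex.normSq_eq_norm_sq,
    sub_pos, sq_lt_sq₀ (norm_nonneg _) (norm_nonneg _)]

theorem pw_neg (v w z : ℂ) : pw w v z = - pw v w z := by
  unfold pw; ring

theorem pw_self (v z : ℂ) : pw v v z = 0 := by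
  unfold pw; ring

theorem pw_eq (v w z : ℂ) : pw v w z =
    Complex.normSq w - Complex.normSq v - 2 * (z.re * (w.re - v.re) + z.im * (w.im - v.im)) := by
  unfold pw
  simp only [Complex.normSq_apply, Complex.sub_re, Complex.sub_im]
  ring

theorem pw_at (v w : ℂ) : pw v w v = Complex.normSq (v - w) := by
  unfold pw; simp

theorem pw_seg (v w p y : ℂ) (t : ℝ) :
    pw v w (p + (t : ℂ) * (y - p)) = (1 - t) * pw v w p + t * pw v w y := by
  simp only [pw_eq]
  simp only [Complex.add_re, Complex.add_im, Complex.mul_re, Complex.mul_im, Complex.ofReal_re,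
    Complex.ofReal_im, Complex.sub_re, Complex.sub_im]
  ring

theorem continuous_pw (v w : ℂ) : Continuous (pw v w) := by
  have : pw v w = fun z => Complex.normSq (z - w) - Complex.normSq (z - v) := rfl
  rw [this]
  exact (Complex.continuous_normSq.comp (continuous_id.sub continuous_const)).sub
    (Complex.continuous_normSq.comp (continuous_id.sub continuous_const))

theorem mem_vcell {X : Set ℂ} {v z : ℂ} : z ∈ vcell X v ↔ ∀ w ∈ X, 0 ≤ pw v w z := by
  constructor
  · intro h w hw
    exact (dist_le_iff v w z).1 (h w hw)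
  · intro h w hw
    exact (dist_le_iff v w z).2 (h w hw)

theorem self_mem_vcell (X : Set ℂ) (v : ℂ) : v ∈ vcell X v := by
  intro w _
  rw [dist_self]
  exact dist_nonneg

theorem isClosed_vcell (X : Set ℂ) (v : ℂ) : IsClosed (vcell X v) := by
  have : vcell X v = ⋂ w ∈ X, {z | 0 ≤ pw v w z} := by
    ext z
    simp [mem_vcell]
  rw [this]
  exact isClosed_biInter fun w _ => isClosed_le continuous_const (continuous_pw v w)

theorem seg_mem_vcell {X : Set ℂ} {v p y : ℂ} (hp : p ∈ vcell X v) (hy : y ∈ vcell X v) {t : ℝ}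
    (h0 : 0 ≤ t) (h1 : t ≤ 1) : p + (t : ℂ) * (y - p) ∈ vcell X v := by
  rw [mem_vcell] at *
  intro w hw
  rw [pw_seg]
  have := hp w hw
  have := hy w hw
  have h2 : 0 ≤ 1 - t := by linarith
  positivity

theorem convex_vcell (X : Set ℂ) (v : ℂ) : Convex ℝ (vcell X v) := by
  rw [convex_iff_segment_subset]
  intro p hp y hy z hz
  rw [segment_eq_image'] at hz
  obtain ⟨t, ⟨h0, h1⟩, rfl⟩ := hz
  have := seg_mem_vcell hp hy h0 h1
  simpa [Complex.real_smul] using this

/-- The points of `X` nearest to `z`. -/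
def near (X : Set ℂ) (z : ℂ) : Set ℂ := {v ∈ X | z ∈ vcell X v}

theorem mem_near_of_pw {X : Set ℂ} {v w z : ℂ} (hw : w ∈ X) (hz : z ∈ vcell X v)
    (h : pw v w z = 0) : z ∈ vcell X w := by
  rw [mem_vcell] at *
  intro u hu
  have h1 := hz u hu
  have : pw w u z = pw v u z - pw v w z := by unfold pw; ring
  rw [this, h]
  linarith

theorem pw_zero_of_mem {X : Set ℂ} {v w z : ℂ} (hv : v ∈ X) (hw : w ∈ X) (hz : z ∈ vcell X v)
    (hz' : z ∈ vcell X w) : pw v w z = 0 := by
  rw [mem_vcell] at *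
  have h1 := hz w hw
  have h2 := hz' v hv
  rw [pw_neg] at h2
  linarith

/-! ## The visible part of a cell -/

/-- The points whose bisector with `v` separates `v` from `p`. -/
def front (X : Set ℂ) (v p : ℂ) : Set ℂ := {w ∈ X | pw v w p < 0}

/-- The time at which the segment from `p` to `y` crosses the bisector of `v` and `w`. -/
noncomputable def tm (v p w y : ℂ) : ℝ := -pw v w p / (-pw v w p + pw v w y)

theorem tm_spec {v p w y : ℂ} (h : pw v w p < 0) (hy : 0 ≤ pw v w y) :
    0 < tm v p w y ∧ tm v p w y ≤ 1 ∧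
      (∀ t : ℝ, 0 ≤ pw v w (p + (t : ℂ) * (y - p)) ↔ tm v p w y ≤ t) ∧
      pw v w (p + (tm v p w y : ℂ) * (y - p)) = 0 := by
  have hd : 0 < -pw v w p + pw v w y := by linarith
  refine ⟨div_pos (by linarith) hd, (div_le_one hd).2 (by linarith), fun t => ?_, ?_⟩
  · rw [pw_seg, tm, div_le_iff₀ hd]
    constructor
    · intro h1; nlinarith
    · intro h1; nlinarith
  · rw [pw_seg, tm]
    field_simp
    ring

theorem continuousOn_tm {X : Set ℂ} {v p w : ℂ} (hw : w ∈ X) (h : pw v w p < 0) :
    ContinuousOn (tm v p w) (vcell X v) := by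
  have : tm v p w = fun y => -pw v w p / (-pw v w p + pw v w y) := rfl
  rw [this]
  refine ContinuousOn.div continuousOn_const
    (continuousOn_const.add (continuous_pw v w).continuousOn) fun y hy => ?_
  have := mem_vcell.1 hy w hw
  have : 0 < -pw v w p + pw v w y := by linarith
  exact this.ne'

/-- The part of the boundary of the cell of `v` which is visible from `p`. -/
def vis (X : Set ℂ) (v p : ℂ) : Set ℂ := ⋃ w ∈ front X v p, vcell X v ∩ vcell X w

theorem front_nonempty {X : Set ℂ} {v p : ℂ} (hp : p ∉ vcell X v) : (front X v p).Nonempty := by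
  rw [mem_vcell] at hp
  push Not at hp
  obtain ⟨w, hw, h⟩ := hp
  exact ⟨w, hw, h⟩

theorem vis_connected {X : Set ℂ} (hX : X.Finite) {v p : ℂ} (hv : v ∈ X) (hp : p ∉ vcell X v) :
    IsConnected (vis X v p) := by
  have hfin : (front X v p).Finite := hX.subset fun w hw => hw.1
  set fr := hfin.toFinset with hfr
  have hne : fr.Nonempty := by
    obtain ⟨w, hw⟩ := front_nonempty hp
    exact ⟨w, hfin.mem_toFinset.2 hw⟩
  let t : ℂ → ℝ := fun y => fr.sup' hne fun w => tm v p w y
  let g : ℂ → ℂ := fun y => p + (t y : ℂ) * (y - p)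
  have htc : ContinuousOn t (vcell X v) :=
    ContinuousOn.finset_sup'_apply hne fun w hw =>
      continuousOn_tm (hfin.mem_toFinset.1 hw).1 (hfin.mem_toFinset.1 hw).2
  have hgc : ContinuousOn g (vcell X v) :=
    continuousOn_const.add ((Complex.continuous_ofReal.comp_continuousOn htc).mul
      (continuousOn_id.sub continuousOn_const))
  have himg : g '' vcell X v = vis X v p := by
    apply Subset.antisymm
    · rintro _ ⟨y, hy, rfl⟩
      have hy' := mem_vcell.1 hy
      obtain ⟨w, hw, hwt⟩ := Finset.exists_mem_eq_sup' hne fun w => tm v p w y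
      have hw' := hfin.mem_toFinset.1 hw
      have ht1 : t y = tm v p w y := hwt
      have hsp := tm_spec hw'.2 (hy' w hw'.1)
      have hK : g y ∈ vcell X v := by
        rw [mem_vcell]
        intro u hu
        by_cases h : pw v u p < 0
        · have hu' : u ∈ fr := hfin.mem_toFinset.2 ⟨hu, h⟩
          exact ((tm_spec h (hy' u hu)).2.2.1 _).2 (Finset.le_sup' (fun w => tm v p w y) hu')
        · push Not at h
          show 0 ≤ pw v u (p + (t y : ℂ) * (y - p))
          rw [pw_seg]
          have h1 := hy' u hu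
          have h2 : 0 ≤ 1 - t y := by rw [ht1]; linarith [hsp.2.1]
          have h3 : 0 ≤ t y := by rw [ht1]; exact hsp.1.le
          positivity
      have h0 : pw v w (g y) = 0 := by
        show pw v w (p + (t y : ℂ) * (y - p)) = 0
        rw [ht1]
        exact hsp.2.2.2
      exact mem_biUnion hw' ⟨hK, mem_near_of_pw hw'.1 hK h0⟩
    · intro x hx
      rw [vis, mem_iUnion₂] at hx
      obtain ⟨w, hw, hx1, hx2⟩ := hx
      refine ⟨x, hx1, ?_⟩
      have h0 : pw v w x = 0 := pw_zero_of_mem hv hw.1 hx1 hx2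
      have hx' := mem_vcell.1 hx1
      have h1 : t x = 1 := by
        apply le_antisymm
        · apply Finset.sup'_le
          intro u hu
          have hu' := hfin.mem_toFinset.1 hu
          exact (tm_spec hu'.2 (hx' u hu'.1)).2.1
        · have h2 : tm v p w x ≤ t x :=
            Finset.le_sup' (fun w => tm v p w x) (hfin.mem_toFinset.2 hw)
          have h3 : tm v p w x = 1 := by
            rw [tm, h0, add_zero, div_self]
            have := hw.2
            linarith
          linarith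
      show p + (t x : ℂ) * (x - p) = x
      rw [h1]
      simp
  rw [← himg]
  exact IsConnected.image ⟨⟨v, self_mem_vcell X v⟩, (convex_vcell X v).isPreconnected⟩ g hgc

/-- Two points are neighbours if their cells meet. -/
def nbr (X : Set ℂ) (v w : ℂ) : Prop := v ∈ X ∧ w ∈ X ∧ v ≠ w ∧ (vcell X v ∩ vcell X w).Nonempty

/-- Three cells meet. -/
def tri (X : Set ℂ) (v w u : ℂ) : Prop :=
  v ∈ X ∧ w ∈ X ∧ u ∈ X ∧ v ≠ w ∧ w ≠ u ∧ u ≠ v ∧ (vcell X v ∩ vcell X w ∩ vcell X u).Nonempty

theorem nbr_symm {X : Set ℂ} {v w : ℂ} (h : nbr X v w) : nbr X w v :=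
  ⟨h.2.1, h.1, h.2.2.1.symm, by rw [inter_comm]; exact h.2.2.2⟩

/-- The neighbours of `v` whose bisector with `v` separates `v` from `p`. -/
def low (X : Set ℂ) (v p : ℂ) : Set ℂ := {w | nbr X v w ∧ pw v w p < 0}

/-- **The lower link is connected.** -/
theorem low_connected {X : Set ℂ} (hX : X.Finite) {v p : ℂ} (hv : v ∈ X) (hp : p ∉ vcell X v) :
    (low X v p).Nonempty ∧ ∀ w ∈ low X v p, ∀ w' ∈ low X v p,
      Relation.ReflTransGen (fun a b => a ∈ low X v p ∧ b ∈ low X v p ∧ tri X v a b) w w' := by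
  have hcon := vis_connected hX hv hp
  have hlow : low X v p ⊆ front X v p := fun w hw => ⟨hw.1.2.1, hw.2⟩
  have hfin : (low X v p).Finite := (hX.subset fun w hw => hw.1).subset hlow
  have hvw : ∀ w, pw v w p < 0 → v ≠ w := by
    rintro w h rfl
    rw [pw_self] at h
    exact lt_irrefl _ h
  constructor
  · obtain ⟨x, hx⟩ := hcon.nonempty
    rw [vis, mem_iUnion₂] at hx
    obtain ⟨w, hw, hx'⟩ := hx
    exact ⟨w, ⟨hv, hw.1, hvw w hw.2, x, hx'⟩, hw.2⟩
  · intro w hw w' hw'
    by_contra hcontra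
    set r : ℂ → ℂ → Prop := fun a b => a ∈ low X v p ∧ b ∈ low X v p ∧ tri X v a b with hr
    let U : Set ℂ := {a ∈ low X v p | Relation.ReflTransGen r w a}
    let U' : Set ℂ := {a ∈ low X v p | ¬ Relation.ReflTransGen r w a}
    let A : Set ℂ := ⋃ a ∈ U, vcell X v ∩ vcell X a
    let A' : Set ℂ := ⋃ a ∈ U', vcell X v ∩ vcell X a
    have hA : IsClosed A := (hfin.subset fun a ha => ha.1).isClosed_biUnion fun a _ =>
      (isClosed_vcell X v).inter (isClosed_vcell X a)
    have hA' : IsClosed A' := (hfin.subset fun a ha => ha.1).isClosed_biUnion fun a _ =>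
      (isClosed_vcell X v).inter (isClosed_vcell X a)
    have hcov : vis X v p ⊆ A ∪ A' := by
      intro x hx
      rw [vis, mem_iUnion₂] at hx
      obtain ⟨a, ha, hx'⟩ := hx
      have hal : a ∈ low X v p := ⟨⟨hv, ha.1, hvw a ha.2, x, hx'⟩, ha.2⟩
      by_cases h : Relation.ReflTransGen r w a
      · exact Or.inl (mem_biUnion (show a ∈ U from ⟨hal, h⟩) hx')
      · exact Or.inr (mem_biUnion (show a ∈ U' from ⟨hal, h⟩) hx')
    have hvis : ∀ a ∈ low X v p, ∃ x ∈ vis X v p, x ∈ vcell X v ∩ vcell X a := by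
      intro a ha
      obtain ⟨x, hx⟩ := ha.1.2.2.2
      exact ⟨x, mem_biUnion (hlow ha) hx, hx⟩
    have h1 : (vis X v p ∩ A).Nonempty := by
      obtain ⟨x, hx, hx'⟩ := hvis w hw
      exact ⟨x, hx, mem_biUnion (show w ∈ U from ⟨hw, Relation.ReflTransGen.refl⟩) hx'⟩
    have h2 : (vis X v p ∩ A').Nonempty := by
      obtain ⟨x, hx, hx'⟩ := hvis w' hw'
      exact ⟨x, hx, mem_biUnion (show w' ∈ U' from ⟨hw', hcontra⟩) hx'⟩
    obtain ⟨x, hx, hxA, hxA'⟩ := isPreconnected_closed_iff.1 hcon.isPreconnected A A' hA hA' hcov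
      h1 h2
    rw [mem_iUnion₂] at hxA hxA'
    obtain ⟨a, ha, hax⟩ := hxA
    obtain ⟨b, hb, hbx⟩ := hxA'
    have hab : a ≠ b := by
      rintro rfl
      exact hb.2 ha.2
    apply hb.2
    refine ha.2.tail ⟨ha.1, hb.1, hv, ha.1.1.2.1, hb.1.1.2.1, ha.1.1.2.2.1, hab,
      hb.1.1.2.2.1.symm, x, ⟨hax.1, hax.2⟩, hbx.2⟩

end Vale.Agent.P148.R2.H592
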