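import Vale.Agent.P148.R2.H592.Del1

/-!
# Delaunay triangulations are simply connected mod 2 (P148, module B)
-/

open Set Metric Topology Filter

namespace Vale.Agent.P148.R2.H592

theorem nbr_of_tri {X : Set ℂ} {v w u : ℂ} (h : tri X v w u) : nbr X v w :=
  ⟨h.1, h.2.1, h.2.2.2.1, h.2.2.2.2.2.2.mono inter_subset_left⟩

theorem tri_rot {X : Set ℂ} {v w u : ℂ} (h : tri X v w u) : tri X w u v := by
  obtain ⟨h1, h2, h3, h4, h5, h6, x, ⟨hx1, hx2⟩, hx3⟩ := h
  exact ⟨h2, h3, h1, h5, h6, h4, x, ⟨hx2, hx3⟩, hx1⟩

theorem tri_swap {X : Set ℂ} {v w u : ℂ} (h : tri X v w u) : tri X w v u := by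
  obtain ⟨h1, h2, h3, h4, h5, h6, x, ⟨hx1, hx2⟩, hx3⟩ := h
  exact ⟨h2, h1, h3, h4.symm, h6.symm, h5.symm, x, ⟨hx2, hx1⟩, hx3⟩

theorem pw_lt_iff {v w p : ℂ} : pw v w p < 0 ↔ dist p w < dist p v := by
  rw [dist_lt_iff, pw_neg]
  constructor <;> intro h <;> linarith

/-- **Every closed mod 2 cochain of the Delaunay triangulation of a finite set is a coboundary.** -/
theorem exists_potential {X : Set ℂ} (hX : X.Finite) {p : ℂ}
    (hp : ∀ v ∈ X, ∀ w ∈ X, dist p v = dist p w → v = w) (c : ℂ → ℂ → ZMod 2)
    (hsymm : ∀ v w, c v w = c w v)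
    (hc : ∀ v w u, tri X v w u → c v w + c w u + c u v = 0) :
    ∃ f : ℂ → ZMod 2, ∀ v w, nbr X v w → c v w = f v + f w := by
  classical
  have key : ∀ s : Finset ℂ, (↑s ⊆ X) → (∀ x ∈ X, ∀ y ∈ s, dist p x < dist p y → x ∈ s) →
      ∃ f : ℂ → ZMod 2, ∀ v ∈ s, ∀ w ∈ s, nbr X v w → c v w = f v + f w := by
    intro s
    induction s using Finset.induction_on_max_value (fun v => dist p v) with
    | empty =>
      intro _ _
      exact ⟨0, fun v hv => absurd hv (Finset.notMem_empty v)⟩
    | insert a s ha hmax ih =>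
      intro hsX hini
      have haX : a ∈ X := hsX (Finset.mem_insert_self a s)
      have hsX' : ↑s ⊆ X := fun x hx => hsX (Finset.mem_insert_of_mem hx)
      have hlt : ∀ w ∈ s, dist p w < dist p a := by
        intro w hw
        refine lt_of_le_of_ne (hmax w hw) fun h => ha ?_
        rwa [hp a haX w (hsX' hw) h.symm]
      obtain ⟨f, hf⟩ := ih hsX' fun x hx y hy hxy => by
        have h1 := hini x hx y (Finset.mem_insert_of_mem hy) hxy
        rcases Finset.mem_insert.1 h1 with h2 | h2
        · exfalso
          rw [h2] at hxy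
          exact absurd hxy (not_lt.2 (hmax y hy))
        · exact h2
      have hlow : ∀ w ∈ low X a p, w ∈ s := by
        intro w hw
        have h1 : dist p w < dist p a := pw_lt_iff.1 hw.2
        rcases Finset.mem_insert.1 (hini w hw.1.2.1 a (Finset.mem_insert_self a s) h1) with h2 | h2
        · rw [h2] at h1
          exact absurd h1 (lt_irrefl _)
        · exact h2
      by_cases hpa : p ∈ vcell X a
      · -- no neighbours in `s`
        have hempty : ∀ w ∈ s, False := by
          intro w hw
          exact absurd (hpa w (hsX' hw)) (not_le.2 (hlt w hw))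
        refine ⟨0, fun v hv w hw hvw => ?_⟩
        rcases Finset.mem_insert.1 hv with rfl | hv'
        · rcases Finset.mem_insert.1 hw with rfl | hw'
          · exact absurd rfl hvw.2.2.1
          · exact (hempty w hw').elim
        · exact (hempty v hv').elim
      · obtain ⟨⟨u, hu⟩, hconn⟩ := low_connected hX haX hpa
        have hus : u ∈ s := hlow u hu
        refine ⟨Function.update f a (f u + c u a), ?_⟩
        have hcl : ∀ w ∈ low X a p, c a w + f w = c a u + f u := by
          intro w hw
          have h := hconn u hu w hw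
          induction h with
          | refl => rfl
          | tail _ hbc ih2 =>
            rename_i b d _
            rw [← ih2 hbc.1]
            have h1 := hc _ _ _ hbc.2.2
            have h2 := hf b (hlow b hbc.1) d (hlow d hbc.2.1) (nbr_of_tri (tri_rot hbc.2.2))
            rw [h2, hsymm d a] at h1
            have h3 : ∀ x y z w : ZMod 2, x + (y + z) + w = 0 → w + z = x + y := by decide
            exact h3 _ _ _ _ h1
        have hmain : ∀ w ∈ s, nbr X a w → c a w = (f u + c u a) + f w := by
          intro w hw haw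
          have h1 := hcl w ⟨haw, pw_lt_iff.2 (hlt w hw)⟩
          rw [hsymm u a]
          have h3 : ∀ x y z w : ZMod 2, x + y = z + w → x = (w + z) + y := by decide
          exact h3 _ _ _ _ h1
        intro v hv w hw hvw
        rcases Finset.mem_insert.1 hv with rfl | hv'
        · rcases Finset.mem_insert.1 hw with rfl | hw'
          · exact absurd rfl hvw.2.2.1
          · rw [Function.update_self, Function.update_of_ne (ne_of_mem_of_not_mem hw' ha)]
            exact hmain w hw' hvw
        · rcases Finset.mem_insert.1 hw with rfl | hw'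
          · rw [Function.update_self, Function.update_of_ne (ne_of_mem_of_not_mem hv' ha), hsymm v w,
              hmain v hv' (nbr_symm hvw)]
            ring
          · rw [Function.update_of_ne (ne_of_mem_of_not_mem hw' ha),
              Function.update_of_ne (ne_of_mem_of_not_mem hv' ha)]
            exact hf v hv' w hw' hvw
  obtain ⟨f, hf⟩ := key hX.toFinset (by simp) (fun x hx _ _ _ => hX.mem_toFinset.2 hx)
  exact ⟨f, fun v w hvw => hf v (hX.mem_toFinset.2 hvw.1) w (hX.mem_toFinset.2 hvw.2.1) hvw⟩

/-- There is a base point with distinct distances. -/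
theorem exists_base {X : Set ℂ} (hX : X.Finite) :
    ∃ p : ℂ, ∀ v ∈ X, ∀ w ∈ X, dist p v = dist p w → v = w := by
  have h1 : ∀ v w : ℂ, v ≠ w → {t : ℝ | pw v w ⟨t, t ^ 2⟩ = 0}.Finite := by
    intro v w hvw
    let P : Polynomial ℝ := Polynomial.C (Complex.normSq w - Complex.normSq v)
      - Polynomial.C (2 * (w.re - v.re)) * Polynomial.X
      - Polynomial.C (2 * (w.im - v.im)) * Polynomial.X ^ 2
    have hev : ∀ t, P.eval t = Complex.normSq w - Complex.normSq v - 2 * (w.re - v.re) * t
        - 2 * (w.im - v.im) * t ^ 2 := by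
      intro t
      simp only [P, Polynomial.eval_sub, Polynomial.eval_mul, Polynomial.eval_C,
        Polynomial.eval_X, Polynomial.eval_pow]
    have hP : P ≠ 0 := by
      intro h
      apply hvw
      have e0 := hev 0
      have e1 := hev 1
      have e2 := hev (-1)
      rw [h, Polynomial.eval_zero] at e0 e1 e2
      exact Complex.ext (by linarith) (by linarith)
    refine (P.roots.toFinset.finite_toSet).subset fun t ht => ?_
    simp only [Finset.mem_coe, Multiset.mem_toFinset]
    rw [Polynomial.mem_roots hP, Polynomial.IsRoot]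
    have ht' : pw v w ⟨t, t ^ 2⟩ = 0 := ht
    rw [pw_eq] at ht'
    rw [hev]
    simp only at ht'
    linarith
  have h2 : (⋃ v ∈ X, ⋃ w ∈ X, {t : ℝ | v ≠ w ∧ pw v w ⟨t, t ^ 2⟩ = 0}).Finite := by
    refine hX.biUnion fun v _ => hX.biUnion fun w _ => ?_
    by_cases h : v = w
    · simp [h]
    · exact (h1 v w h).subset fun t ht => ht.2
  obtain ⟨t, ht⟩ := h2.exists_notMem
  refine ⟨⟨t, t ^ 2⟩, fun v hv w hw h => ?_⟩
  by_contra hne
  apply ht
  rw [mem_iUnion₂]
  refine ⟨v, hv, ?_⟩
  rw [mem_iUnion₂]
  refine ⟨w, hw, hne, ?_⟩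
  apply le_antisymm
  · by_contra h3
    push Not at h3
    have := (dist_lt_iff v w _).2 h3
    rw [h] at this
    exact lt_irrefl _ this
  · exact (dist_le_iff v w _).1 h.le

end Vale.Agent.P148.R2.H592
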