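import Vale.Agent.P148.R2.H592.Del2

/-!
# Delaunay edges and their two faces (P148, module B)
-/

open Set Metric Topology Filter

namespace Vale.Agent.P148.R2.H592

/-- Twice the signed area of the triangle `u v w`. -/
def cr (u v w : ℂ) : ℝ := (v.re - u.re) * (w.im - u.im) - (v.im - u.im) * (w.re - u.re)

theorem cr_rot (u v w : ℂ) : cr v w u = cr u v w := by unfold cr; ring

theorem cr_swap (u v w : ℂ) : cr v u w = - cr u v w := by unfold cr; ring

/-- No point of the plane has more than three nearest points in `X`. -/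
def Three (X : Set ℂ) : Prop :=
  ∀ z a b c d : ℂ, a ∈ X → b ∈ X → c ∈ X → d ∈ X → z ∈ vcell X a → z ∈ vcell X b →
    z ∈ vcell X c → z ∈ vcell X d → a ≠ b → b ≠ c → c ≠ a → (d = a ∨ d = b ∨ d = c)

/-- A point of the bisector of `u` and `v`. -/
noncomputable def bis (u v : ℂ) (t : ℝ) : ℂ :=
  ⟨(u.re + v.re) / 2 - t * (v.im - u.im), (u.im + v.im) / 2 + t * (v.re - u.re)⟩

theorem pw_bis_self (u v : ℂ) (t : ℝ) : pw u v (bis u v t) = 0 := by
  rw [pw_eq]
  simp only [bis, Complex.normSq_apply]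
  ring

theorem pw_bis (u v w : ℂ) (t : ℝ) : pw u w (bis u v t) = pw u w (bis u v 0) - 2 * t * cr u v w := by
  rw [pw_eq, pw_eq]
  simp only [bis, cr, Complex.normSq_apply]
  ring

theorem exists_bis {u v z : ℂ} (huv : u ≠ v) (h : pw u v z = 0) : ∃ t, z = bis u v t := by
  have hd : 0 < (v.re - u.re) ^ 2 + (v.im - u.im) ^ 2 := by
    by_contra hcon
    push Not at hcon
    have h1 : (v.re - u.re) ^ 2 = 0 := by nlinarith [sq_nonneg (v.re - u.re), sq_nonneg (v.im - u.im)]
    have h2 : (v.im - u.im) ^ 2 = 0 := by nlinarith [sq_nonneg (v.re - u.re), sq_nonneg (v.im - u.im)]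
    apply huv
    have h3 := pow_eq_zero_iff (two_ne_zero) |>.1 h1
    have h4 := pow_eq_zero_iff (two_ne_zero) |>.1 h2
    exact Complex.ext (by linarith) (by linarith)
  set A := v.re - u.re with hA
  set B := v.im - u.im with hB
  set x := z.re - (u.re + v.re) / 2 with hx
  set y := z.im - (u.im + v.im) / 2 with hy
  have h0 : x * A + y * B = 0 := by
    rw [pw_eq] at h
    simp only [Complex.normSq_apply] at h
    rw [hx, hy, hA, hB]
    nlinarith
  refine ⟨(y * A - x * B) / (A ^ 2 + B ^ 2), ?_⟩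
  apply Complex.ext
  · have : z.re = (u.re + v.re) / 2 + x := by rw [hx]; ring
    simp only [bis]
    rw [this, ← hB]
    field_simp
    linear_combination (2 * A) * h0
  · have : z.im = (u.im + v.im) / 2 + y := by rw [hy]; ring
    simp only [bis]
    rw [this, ← hA]
    field_simp
    linear_combination (2 * B) * h0

/-- The ccw Delaunay triangles. -/
def face (X : Set ℂ) (u v w : ℂ) : Prop := tri X u v w ∧ 0 < cr u v w

theorem face_rot {X : Set ℂ} {u v w : ℂ} (h : face X u v w) : face X v w u :=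
  ⟨tri_rot h.1, by rw [cr_rot]; exact h.2⟩

/-- A neighbour pair with a point to its left has a face to its left. -/
theorem exists_face {X : Set ℂ} (hX : X.Finite) {u v : ℂ} (huv : nbr X u v)
    (hl : ∃ w ∈ X, 0 < cr u v w) : ∃ w, face X u v w := by
  obtain ⟨hu, hv, hne, z, hz1, hz2⟩ := huv
  obtain ⟨t₀, rfl⟩ := exists_bis hne (pw_zero_of_mem hu hv hz1 hz2)
  have hz := mem_vcell.1 hz1
  let L : Set ℂ := {w ∈ X | 0 < cr u v w}
  have hLf : L.Finite := hX.subset fun w hw => hw.1
  have hLn : L.Nonempty := by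
    obtain ⟨w, hw, h⟩ := hl
    exact ⟨w, hw, h⟩
  let T : ℂ → ℝ := fun w => pw u w (bis u v 0) / (2 * cr u v w)
  obtain ⟨c, hc, hmin⟩ := hLf.exists_minimalFor T L hLn
  have hmin' : ∀ w ∈ L, T c ≤ T w := fun w hw => by
    rcases le_total (T c) (T w) with h | h
    · exact h
    · exact hmin hw h
  have hT : ∀ w ∈ L, ∀ t, 0 ≤ pw u w (bis u v t) ↔ t ≤ T w := by
    intro w hw t
    have hcr : 0 < cr u v w := hw.2
    rw [pw_bis, le_div_iff₀ (by positivity)]
    constructor <;> intro h <;> linarith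
  have ht0 : t₀ ≤ T c := (hT c hc t₀).1 (hz c hc.1)
  have hpc : pw u c (bis u v (T c)) = 0 := by
    have hcr : 0 < cr u v c := hc.2
    rw [pw_bis]
    simp only [T]
    field_simp
    ring
  have hx : bis u v (T c) ∈ vcell X u := by
    rw [mem_vcell]
    intro w hw
    rcases lt_trichotomy (cr u v w) 0 with h | h | h
    · have h1 := hz w hw
      rw [pw_bis] at h1 ⊢
      nlinarith
    · have h1 := hz w hw
      rw [pw_bis, h] at h1 ⊢
      linarith
    · exact (hT w ⟨hw, h⟩ _).2 (hmin' w ⟨hw, h⟩)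
  have hxv : bis u v (T c) ∈ vcell X v := mem_near_of_pw hv hx (pw_bis_self u v _)
  have hxc : bis u v (T c) ∈ vcell X c := mem_near_of_pw hc.1 hx hpc
  have hcr : 0 < cr u v c := hc.2
  refine ⟨c, ⟨hu, hv, hc.1, hne, ?_, ?_, _, ⟨hx, hxv⟩, hxc⟩, hcr⟩
  · rintro rfl
    have : cr u v v = 0 := by unfold cr; ring
    linarith
  · rintro rfl
    have : cr c v c = 0 := by unfold cr; ring
    linarith

/-- The face to the left is unique. -/
theorem face_unique {X : Set ℂ} (h3 : Three X) {u v c d : ℂ} (hc : face X u v c)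
    (hd : face X u v d) : c = d := by
  obtain ⟨⟨hu, hv, hcX, huv, hvc, hcu, x, ⟨hx1, hx2⟩, hx3⟩, hcr⟩ := hc
  obtain ⟨⟨-, -, hdX, -, hvd, hdu, y, ⟨hy1, hy2⟩, hy3⟩, hdr⟩ := hd
  obtain ⟨s, rfl⟩ := exists_bis huv (pw_zero_of_mem hu hv hx1 hx2)
  obtain ⟨t, rfl⟩ := exists_bis huv (pw_zero_of_mem hu hv hy1 hy2)
  have e1 := pw_zero_of_mem hu hcX hx1 hx3
  have e2 := pw_zero_of_mem hu hdX hy1 hy3
  have e3 := mem_vcell.1 hx1 d hdX
  have e4 := mem_vcell.1 hy1 c hcX
  rw [pw_bis] at e1 e2 e3 e4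
  have hst : s = t := by
    apply le_antisymm
    · by_contra h
      push Not at h
      nlinarith
    · by_contra h
      push Not at h
      nlinarith
  subst hst
  rcases h3 _ u v c d hu hv hcX hdX hx1 hx2 hx3 hy3 huv hvc hcu with h | h | h
  · exact absurd h hdu
  · exact absurd h.symm hvd
  · exact h.symm

end Vale.Agent.P148.R2.H592
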