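import Vale.Agent.P148.R2.H592.Del3

/-!
# Links and discs in Delaunay triangulations (P148, module B)
-/

open Set Metric Topology Filter

namespace Vale.Agent.P148.R2.H592

theorem tri_nondeg {X : Set ℂ} {u v w : ℂ} (h : tri X u v w) : cr u v w ≠ 0 := by
  obtain ⟨hu, hv, hw, huv, hvw, hwu, x, ⟨hx1, hx2⟩, hx3⟩ := h
  intro hcr
  obtain ⟨s, rfl⟩ := exists_bis huv (pw_zero_of_mem hu hv hx1 hx2)
  have e1 := pw_zero_of_mem hu hw hx1 hx3
  rw [pw_bis, hcr, pw_eq] at e1
  have e2 : (w - u) * (starRingEnd ℂ) (w - v) = 0 := by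
    apply Complex.ext
    · simp only [bis, Complex.normSq_apply] at e1
      simp only [Complex.mul_re, Complex.sub_re, Complex.sub_im, Complex.conj_re, Complex.conj_im,
        Complex.zero_re, map_sub]
      linarith
    · unfold cr at hcr
      simp only [Complex.mul_im, Complex.sub_re, Complex.sub_im, Complex.conj_re, Complex.conj_im,
        Complex.zero_im, map_sub]
      linarith
  rcases mul_eq_zero.1 e2 with h | h
  · exact hwu (sub_eq_zero.1 h)
  · rw [map_eq_zero, sub_eq_zero] at h
    exact hvw h.symm

theorem face_or_face {X : Set ℂ} {u v w : ℂ} (h : tri X u v w) : face X u v w ∨ face X v u w := by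
  rcases lt_or_gt_of_ne (tri_nondeg h) with h1 | h1
  · right
    exact ⟨tri_swap h, by rw [cr_swap]; linarith⟩
  · left
    exact ⟨h, h1⟩

/-- The Delaunay graph restricted to a disc is connected. -/
theorem disc_connected {X : Set ℂ} (hX : X.Finite) (x₀ : ℂ) (r : ℝ) {u v : ℂ} (hu : u ∈ X)
    (hv : v ∈ X) (hur : dist u x₀ < r) (hvr : dist v x₀ < r) :
    Relation.ReflTransGen (fun a b => nbr X a b ∧ dist a x₀ < r ∧ dist b x₀ < r) u v := by
  set R : ℂ → ℂ → Prop := fun a b => nbr X a b ∧ dist a x₀ < r ∧ dist b x₀ < r with hR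
  have hsymm : ∀ a b, R a b → R b a := fun a b h => ⟨nbr_symm h.1, h.2.2, h.2.1⟩
  have step : ∀ n : ℕ, ∀ v ∈ X, dist v x₀ < r → {w ∈ X | dist w x₀ < dist v x₀}.ncard = n →
      ∃ w ∈ X, x₀ ∈ vcell X w ∧ dist w x₀ < r ∧ Relation.ReflTransGen R v w := by
    intro n
    induction n using Nat.strong_induction_on with
    | _ n ih =>
      intro v hv hvr hn
      by_cases hc : x₀ ∈ vcell X v
      · exact ⟨v, hv, hc, hvr, Relation.ReflTransGen.refl⟩
      · obtain ⟨⟨w, hw⟩, -⟩ := low_connected hX hv hc
        have h1 : dist x₀ w < dist x₀ v := pw_lt_iff.1 hw.2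
        rw [dist_comm x₀ w, dist_comm x₀ v] at h1
        have hwX : w ∈ X := hw.1.2.1
        have hlt : {w' ∈ X | dist w' x₀ < dist w x₀}.ncard < n := by
          rw [← hn]
          apply Set.ncard_lt_ncard _ (hX.subset fun _ h => h.1)
          refine ⟨fun a ha => ⟨ha.1, ha.2.trans h1⟩, fun hsub => ?_⟩
          have := hsub (show w ∈ {w' ∈ X | dist w' x₀ < dist v x₀} from ⟨hwX, h1⟩)
          exact lt_irrefl _ this.2
        obtain ⟨w', hw'X, hw'c, hw'r, hw'⟩ := ih _ hlt w hwX (h1.trans hvr) rfl
        exact ⟨w', hw'X, hw'c, hw'r, Relation.ReflTransGen.head ⟨hw.1, hvr, h1.trans hvr⟩ hw'⟩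
  obtain ⟨a, haX, hac, har, ha⟩ := step _ u hu hur rfl
  obtain ⟨b, hbX, hbc, hbr, hb⟩ := step _ v hv hvr rfl
  have hb' : Relation.ReflTransGen R b v := by
    have h := Relation.ReflTransGen.swap _ _ hb
    exact Relation.ReflTransGen.mono (fun x y hxy => hsymm y x hxy) _ _ h
  by_cases hab : a = b
  · rw [hab] at ha
    exact ha.trans hb'
  · exact (ha.tail ⟨⟨haX, hbX, hab, x₀, hac, hbc⟩, har, hbr⟩).trans hb'

/-- Two neighbours of `v` in a common open half-plane are joined in the link. -/
theorem link_aux {X : Set ℂ} (hX : X.Finite) {v w w' : ℂ} (hw : nbr X v w) (hw' : nbr X v w')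
    (d : ℂ) (h1 : 0 < d.re * (w.re - v.re) + d.im * (w.im - v.im))
    (h2 : 0 < d.re * (w'.re - v.re) + d.im * (w'.im - v.im)) :
    Relation.ReflTransGen (fun a b => tri X v a b) w w' := by
  have key : ∀ u, 0 < d.re * (u.re - v.re) + d.im * (u.im - v.im) →
      ∃ s₀ : ℝ, ∀ s, s₀ ≤ s → pw v u (v + (s : ℂ) * d) < 0 := by
    intro u hu
    refine ⟨(Complex.normSq u - Complex.normSq v - 2 * (v.re * (u.re - v.re) + v.im * (u.im - v.im))
      + 1) / (2 * (d.re * (u.re - v.re) + d.im * (u.im - v.im))), fun s hs => ?_⟩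
    rw [div_le_iff₀ (by positivity)] at hs
    rw [pw_eq]
    simp only [Complex.add_re, Complex.add_im, Complex.mul_re, Complex.mul_im, Complex.ofReal_re,
      Complex.ofReal_im]
    nlinarith
  obtain ⟨s1, hs1⟩ := key w h1
  obtain ⟨s2, hs2⟩ := key w' h2
  have e1 := hs1 (max s1 s2) (le_max_left _ _)
  have e2 := hs2 (max s1 s2) (le_max_right _ _)
  set p := v + ((max s1 s2 : ℝ) : ℂ) * d with hp
  have hpv : p ∉ vcell X v := by
    intro h
    have := mem_vcell.1 h w hw.2.1
    linarith
  have := (low_connected hX hw.1 hpv).2 w ⟨hw, e1⟩ w' ⟨hw', e2⟩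
  exact Relation.ReflTransGen.mono (fun a b (h : a ∈ low X v p ∧ b ∈ low X v p ∧ tri X v a b) => h.2.2) _ _ this

/-- **Links are connected**: any two neighbours of `v` are joined by triangles at `v`, provided
`X` is not contained in a line through `v`. -/
theorem link_connected {X : Set ℂ} (hX : X.Finite) {v w w' : ℂ} (hw : nbr X v w) (hw' : nbr X v w')
    (hline : ∀ a : ℂ, a ≠ 0 → ∃ u ∈ X, 0 < a.re * (u.im - v.im) - a.im * (u.re - v.re) ∨
      a.re * (u.im - v.im) - a.im * (u.re - v.re) < 0) :
    Relation.ReflTransGen (fun a b => tri X v a b) w w' := by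
  have hne : ∀ {u}, nbr X v u → 0 < (u.re - v.re) ^ 2 + (u.im - v.im) ^ 2 := by
    intro u hu
    by_contra hcon
    push Not at hcon
    have h1 : (u.re - v.re) ^ 2 = 0 := by nlinarith [sq_nonneg (u.re - v.re), sq_nonneg (u.im - v.im)]
    have h2 : (u.im - v.im) ^ 2 = 0 := by nlinarith [sq_nonneg (u.re - v.re), sq_nonneg (u.im - v.im)]
    apply hu.2.2.1
    have h3 := pow_eq_zero_iff (two_ne_zero) |>.1 h1
    have h4 := pow_eq_zero_iff (two_ne_zero) |>.1 h2
    exact Complex.ext (by linarith) (by linarith)
  -- two neighbours which are not opposite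
  have case1 : ∀ {a b : ℂ}, nbr X v a → nbr X v b →
      ((a.re - v.re) * (b.im - v.im) - (a.im - v.im) * (b.re - v.re) ≠ 0 ∨
        0 < (a.re - v.re) * (b.re - v.re) + (a.im - v.im) * (b.im - v.im)) →
      Relation.ReflTransGen (fun a b => tri X v a b) a b := by
    intro a b ha hb hab
    have ha' := hne ha
    have hb' := hne hb
    set x := a.re - v.re with hx
    set y := a.im - v.im with hy
    set x' := b.re - v.re with hx'
    set y' := b.im - v.im with hy'
    -- direction: |b| a + |a| b
    set A := Real.sqrt (x ^ 2 + y ^ 2) with hA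
    set B := Real.sqrt (x' ^ 2 + y' ^ 2) with hB
    have hA0 : 0 < A := Real.sqrt_pos.2 ha'
    have hB0 : 0 < B := Real.sqrt_pos.2 hb'
    have hA2 : A ^ 2 = x ^ 2 + y ^ 2 := Real.sq_sqrt ha'.le
    have hB2 : B ^ 2 = x' ^ 2 + y' ^ 2 := Real.sq_sqrt hb'.le
    have hlag : (x * x' + y * y') ^ 2 + (x * y' - y * x') ^ 2 = (A * B) ^ 2 := by
      rw [mul_pow, hA2, hB2]; ring
    have hkey : 0 < A * B + (x * x' + y * y') := by
      have hAB : 0 < A * B := mul_pos hA0 hB0
      rcases hab with h | h
      · have h1 : 0 < (x * y' - y * x') ^ 2 := by positivity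
        by_contra hcon
        push Not at hcon
        nlinarith
      · linarith
    refine link_aux hX ha hb ⟨B * x + A * x', B * y + A * y'⟩ ?_ ?_
    · show 0 < (B * x + A * x') * (a.re - v.re) + (B * y + A * y') * (a.im - v.im)
      rw [← hx, ← hy]
      have : (B * x + A * x') * x + (B * y + A * y') * y = A * (A * B + (x * x' + y * y')) := by
        have : A * (A * B + (x * x' + y * y')) = A ^ 2 * B + A * (x * x' + y * y') := by ring
        rw [this, hA2]; ring
      rw [this]
      positivity
    · show 0 < (B * x + A * x') * (b.re - v.re) + (B * y + A * y') * (b.im - v.im)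
      rw [← hx', ← hy']
      have : (B * x + A * x') * x' + (B * y + A * y') * y' = B * (A * B + (x * x' + y * y')) := by
        have : B * (A * B + (x * x' + y * y')) = B ^ 2 * A + B * (x * x' + y * y') := by ring
        rw [this, hB2]; ring
      rw [this]
      positivity
  by_cases hop : (w.re - v.re) * (w'.im - v.im) - (w.im - v.im) * (w'.re - v.re) ≠ 0 ∨
      0 < (w.re - v.re) * (w'.re - v.re) + (w.im - v.im) * (w'.im - v.im)
  · exact case1 hw hw' hop
  · -- there is a neighbour off the line
    push Not at hop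
    obtain ⟨hop1, hop2⟩ := hop
    have hw0 := hne hw
    have hw0' := hne hw'
    have hex : ∃ a, nbr X v a ∧ (w.re - v.re) * (a.im - v.im) - (w.im - v.im) * (a.re - v.re) ≠ 0 := by
      by_contra hcon
      push Not at hcon
      obtain ⟨u, hu, hu'⟩ := hline ⟨w.re - v.re, w.im - v.im⟩ (by
        intro h
        have h1 := congrArg Complex.re h
        have h2 := congrArg Complex.im h
        simp only [Complex.zero_re, Complex.zero_im] at h1 h2
        rw [h1, h2] at hw0
        norm_num at hw0)
      simp only at hu'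
      have main : ∀ e : ℝ, (0 < e * ((w.re - v.re) * (u.im - v.im) - (w.im - v.im) * (u.re - v.re))) →
          False := by
        intro e he
        -- go far in the direction `e * I * (w - v)`
        set d : ℂ := ⟨-(e * (w.im - v.im)), e * (w.re - v.re)⟩ with hd
        have h1 : 0 < d.re * (u.re - v.re) + d.im * (u.im - v.im) := by
          simp only [hd]; linarith
        let s : ℝ := (Complex.normSq u - Complex.normSq v - 2 * (v.re * (u.re - v.re) +
          v.im * (u.im - v.im)) + 1) / (2 * (d.re * (u.re - v.re) + d.im * (u.im - v.im)))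
        have hs : s * (2 * (d.re * (u.re - v.re) + d.im * (u.im - v.im))) = (Complex.normSq u -
            Complex.normSq v - 2 * (v.re * (u.re - v.re) + v.im * (u.im - v.im)) + 1) :=
          div_mul_cancel₀ _ (by positivity)
        have h2 : pw v u (v + (s : ℂ) * d) < 0 := by
          rw [pw_eq]
          simp only [Complex.add_re, Complex.add_im, Complex.mul_re, Complex.mul_im,
            Complex.ofReal_re, Complex.ofReal_im]
          linarith
        have hpv : v + (s : ℂ) * d ∉ vcell X v := by
          intro h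
          have := mem_vcell.1 h u hu
          linarith
        obtain ⟨⟨a, ha⟩, -⟩ := low_connected hX hw.1 hpv
        have h3 := hcon a ha.1
        have h4 := ha.2
        rw [pw_eq] at h4
        simp only [Complex.add_re, Complex.add_im, Complex.mul_re, Complex.mul_im,
          Complex.ofReal_re, Complex.ofReal_im, hd] at h4
        have h5 := hne ha.1
        simp only [Complex.normSq_apply] at h4
        have h6 : s * e * ((w.re - v.re) * (a.im - v.im) - (w.im - v.im) * (a.re - v.re)) = 0 := by
          rw [h3, mul_zero]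
        nlinarith
      rcases hu' with h | h
      · exact main 1 (by linarith)
      · exact main (-1) (by linarith)
    obtain ⟨a, ha, ha'⟩ := hex
    refine (case1 hw ha (Or.inl ha')).trans (case1 ha hw' (Or.inl ?_))
    intro h
    apply ha'
    -- w' - v is a nonzero multiple of w - v
    set x := w.re - v.re with hx
    set y := w.im - v.im with hy
    set x' := w'.re - v.re with hx'
    set y' := w'.im - v.im with hy'
    set p := a.re - v.re with hp
    set q := a.im - v.im with hq
    -- x * y' = y * x', p * y' = q * x', (x',y') ≠ 0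
    have e1 : x' * (x * q - y * p) = 0 := by linear_combination (-x) * h + p * hop1
    have e2 : y' * (x * q - y * p) = 0 := by linear_combination (-y) * h + q * hop1
    by_contra hne0
    have e3 : x' = 0 := by
      rcases mul_eq_zero.1 e1 with h | h
      · exact h
      · exact absurd h hne0
    have e4 : y' = 0 := by
      rcases mul_eq_zero.1 e2 with h | h
      · exact h
      · exact absurd h hne0
    rw [e3, e4] at hw0'
    norm_num at hw0'

end Vale.Agent.P148.R2.H592
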