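import Vale.Agent.P148.R2.H592.Del4

/-!
# The sphere triangulation of a finite set with a triangular hull (P148, module B)
-/

open Set Metric Topology Filter

namespace Vale.Agent.P148.R2.H592

theorem z3_cases (i k : ZMod 3) : k = i ∨ k = i + 1 ∨ k = i + 2 := by revert i k; decide

theorem z3_of_ne (i k : ZMod 3) (h : i ≠ k) : k = i + 1 ∨ k = i + 2 := by revert i k; decide

theorem z3_of_ne' (i k : ZMod 3) (h : i ≠ k) : i = k + 1 ∨ k = i + 1 := by revert i k; decide

theorem z3_21 (j : ZMod 3) : j + 2 + 1 = j := by revert j; decide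

theorem z3_22 (j : ZMod 3) : j + 2 + 2 = j + 1 := by revert j; decide

/-- `X` is a finite set with at most three nearest points everywhere, contained in the triangle
`b 0, b 1, b 2` (counterclockwise) of three of its points, all other points being inside. -/
structure HullTri (X : Set ℂ) (b : ZMod 3 → ℂ) : Prop where
  fin : X.Finite
  three : Three X
  mem : ∀ j, b j ∈ X
  ccw : 0 < cr (b 0) (b 1) (b 2)
  inside : ∀ x ∈ X, (∀ j, x ≠ b j) → ∀ j, 0 < cr (b j) (b (j + 1)) x

namespace HullTri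

variable {X : Set ℂ} {b : ZMod 3 → ℂ} (h : HullTri X b)
include h

theorem ccw' (j : ZMod 3) : 0 < cr (b j) (b (j + 1)) (b (j + 2)) := by
  have h3 : j = 0 ∨ j = 1 ∨ j = 2 := by revert j; decide
  rcases h3 with rfl | rfl | rfl
  · simpa using h.ccw
  · have e1 : (1 : ZMod 3) + 1 = 2 := by decide
    have e2 : (1 : ZMod 3) + 2 = 0 := by decide
    rw [e1, e2, cr_rot]
    exact h.ccw
  · have e1 : (2 : ZMod 3) + 1 = 0 := by decide
    have e2 : (2 : ZMod 3) + 2 = 1 := by decide
    rw [e1, e2, ← cr_rot]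
    exact h.ccw

theorem b_ne {i j : ZMod 3} (hij : i ≠ j) : b i ≠ b j := by
  intro he
  have h3 := z3_of_ne i j hij
  have := h.ccw' i
  rcases h3 with rfl | rfl
  · rw [← he] at this
    unfold cr at this
    linarith
  · rw [← he] at this
    unfold cr at this
    linarith

/-- The other points are to the left of the hull edges. -/
theorem left_hull {x : ℂ} (hx : x ∈ X) (j : ZMod 3) (h1 : x ≠ b j) (h2 : x ≠ b (j + 1)) :
    0 < cr (b j) (b (j + 1)) x := by
  by_cases h3 : x = b (j + 2)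
  · rw [h3]; exact h.ccw' j
  · refine h.inside x hx (fun i => ?_) j
    rcases z3_cases j i with rfl | rfl | rfl
    · exact h1
    · exact h2
    · exact h3

/-- Hull edges are edges. -/
theorem nbr_hull (j : ZMod 3) : nbr X (b (j + 1)) (b j) := by
  have hne : b (j + 1) ≠ b j := h.b_ne (by revert j; decide)
  refine ⟨h.mem _, h.mem _, hne, ?_⟩
  have key : ∀ w ∈ X, ∃ s : ℝ, ∀ t, s ≤ t → 0 ≤ pw (b (j + 1)) w (bis (b (j + 1)) (b j) t) := by
    intro w hw
    by_cases h1 : w = b j
    · exact ⟨0, fun t _ => by rw [h1, pw_bis_self]⟩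
    by_cases h2 : w = b (j + 1)
    · exact ⟨0, fun t _ => by rw [h2, pw_self]⟩
    have h3 : cr (b (j + 1)) (b j) w < 0 := by
      rw [cr_swap]
      linarith [h.left_hull hw j h1 h2]
    refine ⟨pw (b (j + 1)) w (bis (b (j + 1)) (b j) 0) / (2 * cr (b (j + 1)) (b j) w), fun t ht => ?_⟩
    rw [pw_bis]
    rw [div_le_iff_of_neg (by linarith)] at ht
    linarith
  choose! s hs using key
  obtain ⟨M, hM⟩ := (h.fin.image s).bddAbove
  have hx : bis (b (j + 1)) (b j) M ∈ vcell X (b (j + 1)) :=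
    mem_vcell.2 fun w hw => hs w hw M (hM ⟨w, hw, rfl⟩)
  exact ⟨_, hx, mem_near_of_pw (h.mem _) hx (pw_bis_self _ _ _)⟩

/-- There is no point to the left of a reversed hull edge. -/
theorem not_face_hull (j : ZMod 3) (w : ℂ) : ¬ face X (b (j + 1)) (b j) w := by
  rintro ⟨⟨-, -, hw, -, h1, h2, -⟩, hcr⟩
  have := h.left_hull hw j h1.symm h2
  rw [cr_swap] at hcr
  linarith

/-- Every edge which is not a reversed hull edge has a point to its left. -/
theorem exists_left {u v : ℂ} (huv : nbr X u v) (hn : ∀ j, ¬ (u = b (j + 1) ∧ v = b j)) :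
    ∃ w ∈ X, 0 < cr u v w := by
  obtain ⟨hu, hv, hne, -⟩ := huv
  by_contra hcon
  push Not at hcon
  have c0 := fun j => hcon (b j) (h.mem j)
  -- barycentric identity
  have bary : ∀ x : ℂ, ∀ j : ZMod 3, cr (b j) (b (j + 1)) x * cr u v (b (j + 2)) +
      cr (b (j + 1)) (b (j + 2)) x * cr u v (b j) + cr (b (j + 2)) (b j) x * cr u v (b (j + 1)) =
      cr (b j) (b (j + 1)) (b (j + 2)) * cr u v x := by
    intro x j
    unfold cr
    ring
  have cuu : cr u v u = 0 := by unfold cr; ring
  have cvv : cr u v v = 0 := by unfold cr; ring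
  -- a strictly inside point on the line gives a contradiction
  have hin : ∀ x ∈ X, (∀ j, x ≠ b j) → cr u v x = 0 → False := by
    intro x hx hxb hx0
    have h0 := h.inside x hx hxb 0
    have h1 := h.inside x hx hxb 1
    have h2 := h.inside x hx hxb 2
    have e := bary x 0
    have e1 : (0 : ZMod 3) + 1 = 1 := by decide
    have e2 : (0 : ZMod 3) + 2 = 2 := by decide
    have e3 : (1 : ZMod 3) + 1 = 2 := by decide
    have e4 : (2 : ZMod 3) + 1 = 0 := by decide
    rw [e1] at h0
    rw [e3] at h1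
    rw [e4] at h2
    rw [e1, e2, hx0, mul_zero] at e
    have z0 := c0 0
    have z1 := c0 1
    have z2 := c0 2
    have y0 : cr u v (b 0) = 0 := by nlinarith
    have y1 : cr u v (b 1) = 0 := by nlinarith
    have y2 : cr u v (b 2) = 0 := by nlinarith
    -- all three on the line u v
    have hdet : cr (b 0) (b 1) (b 2) * ((v.re - u.re) ^ 2 + (v.im - u.im) ^ 2) = 0 := by
      have : cr (b 0) (b 1) (b 2) * ((v.re - u.re) ^ 2 + (v.im - u.im) ^ 2) =
        (cr u v (b 1) - cr u v (b 0)) * (-((b 2).re - (b 0).re) * (v.re - u.re)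
          - ((b 2).im - (b 0).im) * (v.im - u.im)) +
        (cr u v (b 2) - cr u v (b 0)) * (((b 1).re - (b 0).re) * (v.re - u.re)
          + ((b 1).im - (b 0).im) * (v.im - u.im)) := by
        unfold cr
        ring
      rw [this, y0, y1, y2]
      ring
    rcases mul_eq_zero.1 hdet with h3 | h3
    · have := h.ccw
      linarith
    · apply hne
      have h4 : v.re - u.re = 0 := by nlinarith [sq_nonneg (v.re - u.re), sq_nonneg (v.im - u.im)]
      have h5 : v.im - u.im = 0 := by nlinarith [sq_nonneg (v.re - u.re), sq_nonneg (v.im - u.im)]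
      exact Complex.ext (by linarith) (by linarith)
  by_cases hub : ∀ j, u ≠ b j
  · exact hin u hu hub cuu
  by_cases hvb : ∀ j, v ≠ b j
  · exact hin v hv hvb cvv
  push Not at hub hvb
  obtain ⟨i, hi⟩ := hub
  obtain ⟨k, hk⟩ := hvb
  have hik : i ≠ k := by
    rintro rfl
    exact hne (hi.trans hk.symm)
  rcases z3_of_ne' i k hik with rfl | rfl
  · exact hn k ⟨hi, hk⟩
  · have h1 := h.ccw' i
    have h2 := c0 (i + 2)
    rw [hi, hk] at h2
    linarith

/-- Every edge has a third vertex on its left; the outer face is to the left of the reversed hull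
edges. -/
theorem exists_third {u v : ℂ} (huv : nbr X u v) :
    ∃ w, face X u v w ∨ ∃ j, u = b (j + 1) ∧ v = b j ∧ w = b (j + 2) := by
  by_cases hn : ∃ j, u = b (j + 1) ∧ v = b j
  · obtain ⟨j, h1, h2⟩ := hn
    exact ⟨b (j + 2), Or.inr ⟨j, h1, h2, rfl⟩⟩
  · push Not at hn
    obtain ⟨w, hw⟩ := exists_face h.fin huv (h.exists_left huv fun j hj => hn j hj.1 hj.2)
    exact ⟨w, Or.inl hw⟩

theorem hull_inj {i j : ZMod 3} (hij : b i = b j) : i = j := by
  by_contra hne
  exact h.b_ne hne hij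

end HullTri

/-- the combinatorial triangle relation of the sphere: `w` is the third vertex on the left of
`u v` -/
def Tl (X : Set ℂ) (b : ZMod 3 → ℂ) (u v w : ℂ) : Prop :=
  face X u v w ∨ ∃ j, u = b (j + 1) ∧ v = b j ∧ w = b (j + 2)

namespace HullTri

variable {X : Set ℂ} {b : ZMod 3 → ℂ} (h : HullTri X b)
include h

theorem Tl_unique {u v w w' : ℂ} (h1 : Tl X b u v w) (h2 : Tl X b u v w') : w = w' := by
  rcases h1 with h1 | ⟨j, hu, hv, hw⟩
  · rcases h2 with h2 | ⟨j, hu, hv, hw⟩
    · exact face_unique h.three h1 h2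
    · rw [hu, hv] at h1
      exact absurd h1 (h.not_face_hull j w)
  · rcases h2 with h2 | ⟨i, hu', hv', hw'⟩
    · rw [hu, hv] at h2
      exact absurd h2 (h.not_face_hull j w')
    · have : j = i := h.hull_inj (hv.symm.trans hv')
      rw [hw, hw', this]

omit h in
theorem Tl_rot {u v w : ℂ} (h1 : Tl X b u v w) : Tl X b v w u := by
  rcases h1 with h1 | ⟨j, hu, hv, hw⟩
  · exact Or.inl (face_rot h1)
  · refine Or.inr ⟨j + 2, ?_, hw, ?_⟩
    · rw [hv, z3_21]
    · rw [hu, z3_22]

theorem Tl_nbr {u v w : ℂ} (h1 : Tl X b u v w) : nbr X u v := by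
  rcases h1 with h1 | ⟨j, hu, hv, hw⟩
  · exact nbr_of_tri h1.1
  · rw [hu, hv]
    exact h.nbr_hull j

theorem Tl_ne {u v w : ℂ} (h1 : Tl X b u v w) : u ≠ v ∧ v ≠ w ∧ w ≠ u :=
  ⟨(h.Tl_nbr h1).2.2.1, (h.Tl_nbr (Tl_rot h1)).2.2.1, (h.Tl_nbr (Tl_rot (Tl_rot h1))).2.2.1⟩

theorem Tl_exists {u v : ℂ} (huv : nbr X u v) : ∃ w, Tl X b u v w := h.exists_third huv

omit h in
theorem Tl_of_tri {u v w : ℂ} (ht : tri X u v w) : Tl X b u v w ∨ Tl X b v u w := by
  rcases face_or_face ht with h1 | h1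
  · exact Or.inl (Or.inl h1)
  · exact Or.inr (Or.inl h1)

/-- The points of `X` are not on a line. -/
theorem off_line (v a : ℂ) (ha : a ≠ 0) : ∃ u ∈ X, 0 < a.re * (u.im - v.im) - a.im * (u.re - v.re) ∨
      a.re * (u.im - v.im) - a.im * (u.re - v.re) < 0 := by
  by_contra hcon
  push Not at hcon
  have k : ∀ j, a.re * ((b j).im - v.im) - a.im * ((b j).re - v.re) = 0 := fun j =>
    le_antisymm (hcon _ (h.mem j)).1 (hcon _ (h.mem j)).2
  have h0 := k 0
  have h1 := k 1
  have h2 := k 2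
  have hdet : cr (b 0) (b 1) (b 2) * (a.re ^ 2 + a.im ^ 2) = 0 := by
    have e1 : a.re * ((b 1).im - (b 0).im) - a.im * ((b 1).re - (b 0).re) = 0 := by linarith
    have e2 : a.re * ((b 2).im - (b 0).im) - a.im * ((b 2).re - (b 0).re) = 0 := by linarith
    have : cr (b 0) (b 1) (b 2) * (a.re ^ 2 + a.im ^ 2) =
        (a.re * ((b 1).im - (b 0).im) - a.im * ((b 1).re - (b 0).re)) *
          (-((b 2).re - (b 0).re) * a.re - ((b 2).im - (b 0).im) * a.im) +
        (a.re * ((b 2).im - (b 0).im) - a.im * ((b 2).re - (b 0).re)) *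
          (((b 1).re - (b 0).re) * a.re + ((b 1).im - (b 0).im) * a.im) := by
      unfold cr
      ring
    rw [this, e1, e2]
    ring
  rcases mul_eq_zero.1 hdet with h3 | h3
  · have := h.ccw
    linarith
  · apply ha
    have h4 : a.re = 0 := by nlinarith [sq_nonneg a.re, sq_nonneg a.im]
    have h5 : a.im = 0 := by nlinarith [sq_nonneg a.re, sq_nonneg a.im]
    exact Complex.ext h4 h5

end HullTri

end Vale.Agent.P148.R2.H592
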