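import Vale.Agent.P148.R2.H592.Del5

/-!
# Every mod 2 cycle of the Delaunay triangulation bounds (P148, module B)
-/

set_option linter.unusedSimpArgs false

open Set Metric Topology Filter

namespace Vale.Agent.P148.R2.H592

open Classical in
/-- The indicator of the edge `a b`. -/
noncomputable def eind (a b : ℂ) (u v : ℂ) : ZMod 2 :=
  if (u = a ∧ v = b) ∨ (u = b ∧ v = a) then 1 else 0

open Classical in
/-- The indicator of the (oriented) sides of the triangle `a b c`. -/
noncomputable def tind (a b c : ℂ) (u v : ℂ) : ZMod 2 :=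
  if (u = a ∧ v = b) ∨ (u = b ∧ v = c) ∨ (u = c ∧ v = a) then 1 else 0

theorem eind_symm (a b u v : ℂ) : eind a b u v = eind a b v u := by
  unfold eind
  congr 1
  apply propext
  tauto

theorem eind_symm' (a b u v : ℂ) : eind a b u v = eind b a u v := by
  unfold eind
  congr 1
  apply propext
  tauto

theorem eind_of_ne {a b u v : ℂ} (h : ¬ ((u = a ∧ v = b) ∨ (u = b ∧ v = a))) : eind a b u v = 0 := by
  unfold eind
  rw [if_neg h]

theorem eind_self (a b : ℂ) : eind a b a b = 1 := by
  unfold eind
  rw [if_pos (Or.inl ⟨rfl, rfl⟩)]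

theorem sum_eind {s : Finset ℂ} {a b : ℂ} (hab : a ≠ b) (ha : a ∈ s) (hb : b ∈ s) (v : ℂ) :
    ∑ x ∈ s, eind a b v x = (if v = a then 1 else 0) + (if v = b then 1 else 0) := by
  classical
  by_cases h1 : v = a
  · subst h1
    rw [if_pos rfl, if_neg hab, add_zero]
    rw [Finset.sum_eq_single b]
    · exact eind_self v b
    · intro x _ hx
      refine eind_of_ne ?_
      rintro (⟨-, h⟩ | ⟨h, -⟩)
      · exact hx h
      · exact hab h
    · intro h; exact absurd hb h
  · by_cases h2 : v = b
    · subst h2
      rw [if_neg h1, if_pos rfl, zero_add]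
      rw [Finset.sum_eq_single a]
      · rw [eind_symm']; exact eind_self v a
      · intro x _ hx
        refine eind_of_ne ?_
        rintro (⟨h, -⟩ | ⟨-, h⟩)
        · exact h1 h
        · exact hx h
      · intro h; exact absurd ha h
    · rw [if_neg h1, if_neg h2, add_zero]
      refine Finset.sum_eq_zero fun x _ => eind_of_ne ?_
      rintro (⟨h, -⟩ | ⟨h, -⟩)
      · exact h1 h
      · exact h2 h

/-- `N` fills the chain `z`. -/
def Fills (X : Set ℂ) (b : ZMod 3 → ℂ) (N z : ℂ → ℂ → ZMod 2) : Prop :=
  (∀ u v w, Tl X b u v w → N u v = N v w) ∧ ∀ u v, nbr X u v → N u v + N v u = z u v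

theorem Fills.add {X : Set ℂ} {b : ZMod 3 → ℂ} {N z N' z' : ℂ → ℂ → ZMod 2} (h : Fills X b N z)
    (h' : Fills X b N' z') : Fills X b (fun u v => N u v + N' u v) (fun u v => z u v + z' u v) := by
  refine ⟨fun u v w hw => ?_, fun u v huv => ?_⟩
  · show N u v + N' u v = N v w + N' v w
    rw [h.1 u v w hw, h'.1 u v w hw]
  · show N u v + N' u v + (N v u + N' v u) = z u v + z' u v
    rw [← h.2 u v huv, ← h'.2 u v huv]
    ring

theorem Fills.zero (X : Set ℂ) (b : ZMod 3 → ℂ) : Fills X b (fun _ _ => 0) (fun _ _ => 0) :=
  ⟨fun _ _ _ _ => rfl, fun _ _ _ => by simp⟩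

theorem Fills.smul {X : Set ℂ} {b : ZMod 3 → ℂ} {N z : ℂ → ℂ → ZMod 2} (h : Fills X b N z)
    (c : ZMod 2) : Fills X b (fun u v => c * N u v) (fun u v => c * z u v) := by
  refine ⟨fun u v w hw => ?_, fun u v huv => ?_⟩
  · show c * N u v = c * N v w
    rw [h.1 u v w hw]
  · show c * N u v + c * N v u = c * z u v
    rw [← h.2 u v huv]
    ring

theorem Fills.sum {X : Set ℂ} {b : ZMod 3 → ℂ} {ι : Type*} (s : Finset ι)
    {N z : ι → ℂ → ℂ → ZMod 2} (h : ∀ i ∈ s, Fills X b (N i) (z i)) :
    Fills X b (fun u v => ∑ i ∈ s, N i u v) (fun u v => ∑ i ∈ s, z i u v) := by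
  classical
  induction s using Finset.induction_on with
  | empty => simpa using Fills.zero X b
  | insert a s ha ih =>
    have h1 := ih fun i hi => h i (Finset.mem_insert_of_mem hi)
    have h2 := (h a (Finset.mem_insert_self a s)).add h1
    simpa only [Finset.sum_insert ha] using h2

theorem Fills.congr {X : Set ℂ} {b : ZMod 3 → ℂ} {N z z' : ℂ → ℂ → ZMod 2} (h : Fills X b N z)
    (hz : ∀ u v, nbr X u v → z u v = z' u v) : Fills X b N z' :=
  ⟨h.1, fun u v huv => by rw [h.2 u v huv, hz u v huv]⟩

namespace HullTri

variable {X : Set ℂ} {b : ZMod 3 → ℂ} (h : HullTri X b)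
include h

theorem Tl_eq_iff {u v w p q r : ℂ} (h1 : Tl X b u v w) (h2 : Tl X b p q r) :
    ((u = p ∧ v = q) ∨ (u = q ∧ v = r) ∨ (u = r ∧ v = p)) ↔
      ((v = p ∧ w = q) ∨ (v = q ∧ w = r) ∨ (v = r ∧ w = p)) := by
  constructor
  · rintro (⟨rfl, rfl⟩ | ⟨rfl, rfl⟩ | ⟨rfl, rfl⟩)
    · exact Or.inr (Or.inl ⟨rfl, h.Tl_unique h1 h2⟩)
    · exact Or.inr (Or.inr ⟨rfl, h.Tl_unique h1 (Tl_rot h2)⟩)
    · exact Or.inl ⟨rfl, h.Tl_unique h1 (Tl_rot (Tl_rot h2))⟩
  · rintro (⟨rfl, rfl⟩ | ⟨rfl, rfl⟩ | ⟨rfl, rfl⟩)
    · exact Or.inr (Or.inr ⟨h.Tl_unique (Tl_rot h1) h2, rfl⟩)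
    · exact Or.inl ⟨h.Tl_unique (Tl_rot h1) (Tl_rot h2), rfl⟩
    · exact Or.inr (Or.inl ⟨h.Tl_unique (Tl_rot h1) (Tl_rot (Tl_rot h2)), rfl⟩)

/-- The boundary of a triangle. -/
theorem fills_tri {p q r : ℂ} (ht : Tl X b p q r) :
    Fills X b (tind p q r) (fun u v => eind p q u v + eind q r u v + eind p r u v) := by
  obtain ⟨hpq, hqr, hrp⟩ := h.Tl_ne ht
  refine ⟨fun u v w hw => ?_, fun u v huv => ?_⟩
  · unfold tind
    congr 1
    exact propext (h.Tl_eq_iff hw ht)
  · unfold tind eind
    have huv' := huv.2.2.1
    by_cases h1 : u = p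
    · subst h1
      by_cases h2 : v = q
      · subst h2
        simp [hpq, hqr, hrp, hpq.symm, hqr.symm, hrp.symm]
      · by_cases h3 : v = r
        · subst h3
          simp [hpq, hqr, hrp, hpq.symm, hqr.symm, hrp.symm]
        · simp [hpq, hqr, hrp, hpq.symm, hqr.symm, hrp.symm, h2, h3, huv', huv'.symm]
    · by_cases h2 : u = q
      · subst h2
        by_cases h3 : v = p
        · subst h3
          simp [hpq, hqr, hrp, hpq.symm, hqr.symm, hrp.symm]
        · by_cases h4 : v = r
          · subst h4
            simp [hpq, hqr, hrp, hpq.symm, hqr.symm, hrp.symm]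
          · simp [hpq, hqr, hrp, hpq.symm, hqr.symm, hrp.symm, h3, h4, huv', huv'.symm]
      · by_cases h3 : u = r
        · subst h3
          by_cases h4 : v = p
          · subst h4
            simp [hpq, hqr, hrp, hpq.symm, hqr.symm, hrp.symm]
          · by_cases h5 : v = q
            · subst h5
              simp [hpq, hqr, hrp, hpq.symm, hqr.symm, hrp.symm]
            · simp [hpq, hqr, hrp, hpq.symm, hqr.symm, hrp.symm, h4, h5, huv', huv'.symm]
        · simp [h1, h2, h3]

/-- **Every mod 2 cycle bounds.** -/
theorem homology {z : ℂ → ℂ → ZMod 2} (hs : ∀ u v, z u v = z v u)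
    (hz : ∀ u v, ¬ nbr X u v → z u v = 0)
    (hc : ∀ v ∈ X, ∑ w ∈ h.fin.toFinset, z v w = 0) : ∃ N, Fills X b N z := by
  classical
  obtain ⟨p, hp⟩ := exists_base h.fin
  have key : ∀ s : Finset ℂ, (↑s ⊆ X) → (∀ x ∈ X, ∀ y ∈ s, dist p x < dist p y → x ∈ s) →
      ∀ z : ℂ → ℂ → ZMod 2, (∀ u v, z u v = z v u) → (∀ u v, ¬ nbr X u v → z u v = 0) →
      (∀ u v, u ∉ s → z u v = 0) → (∀ v ∈ X, ∑ w ∈ h.fin.toFinset, z v w = 0) →
      ∃ N, Fills X b N z := by
    intro s
    induction s using Finset.induction_on_max_value (fun v => dist p v) with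
    | empty =>
      intro _ _ z _ _ hz0 _
      refine ⟨fun _ _ => 0, (Fills.zero X b).congr fun u v _ => ?_⟩
      rw [hz0 u v (Finset.notMem_empty u)]
    | insert a s ha hmax ih =>
      intro hsX hini z hsym hznb hzs hcyc
      have haX : a ∈ X := hsX (Finset.mem_insert_self a s)
      have hsX' : ↑s ⊆ X := fun x hx => hsX (Finset.mem_insert_of_mem hx)
      have hlt : ∀ w ∈ s, dist p w < dist p a := by
        intro w hw
        refine lt_of_le_of_ne (hmax w hw) fun h => ha ?_
        rwa [hp a haX w (hsX' hw) h.symm]
      have hini' : ∀ x ∈ X, ∀ y ∈ s, dist p x < dist p y → x ∈ s := fun x hx y hy hxy => by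
        have h1 := hini x hx y (Finset.mem_insert_of_mem hy) hxy
        rcases Finset.mem_insert.1 h1 with h2 | h2
        · exfalso
          rw [h2] at hxy
          exact absurd hxy (not_lt.2 (hmax y hy))
        · exact h2
      have hlow : ∀ w ∈ low X a p, w ∈ s := by
        intro w hw
        have h1 : dist p w < dist p a := pw_lt_iff.1 hw.2
        rcases Finset.mem_insert.1 (hini w hw.1.2.1 a (Finset.mem_insert_self a s) h1) with h2 | h2
        · rw [h2] at h1
          exact absurd h1 (lt_irrefl _)
        · exact h2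
      have hzlow : ∀ w, z a w ≠ 0 → w ∈ low X a p := by
        intro w hw
        have h1 : nbr X a w := by
          by_contra h1
          exact hw (hznb a w h1)
        have h2 : w ∈ insert a s := by
          by_contra h2
          exact hw (by rw [hsym]; exact hzs w a h2)
        rcases Finset.mem_insert.1 h2 with h3 | h3
        · exact absurd h3.symm h1.2.2.1
        · exact ⟨h1, pw_lt_iff.2 (hlt w h3)⟩
      by_cases hall : ∀ w, z a w = 0
      · refine ih hsX' hini' z hsym hznb (fun u v hu => ?_) hcyc
        by_cases hua : u = a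
        · rw [hua]; exact hall v
        · exact hzs u v (by rw [Finset.mem_insert]; push Not; exact ⟨hua, hu⟩)
      · push Not at hall
        obtain ⟨w₀, hw₀⟩ := hall
        have hw₀l := hzlow w₀ hw₀
        have hpa : p ∉ vcell X a := by
          intro hc
          have := mem_vcell.1 hc w₀ hw₀l.1.2.1
          linarith [hw₀l.2]
        have hconn := (low_connected h.fin haX hpa).2
        -- fillings of differences of stars
        have hfill : ∀ w ∈ low X a p, ∃ N y : ℂ → ℂ → ZMod 2,
            Fills X b N (fun u v => eind a w₀ u v + eind a w u v + y u v) ∧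
            (∀ u v, y u v = y v u) ∧ (∀ u v, ¬ nbr X u v → y u v = 0) ∧
            (∀ u v, u ∉ s → y u v = 0) ∧
            (∀ v, ∑ x ∈ h.fin.toFinset, (eind a w₀ v x + eind a w v x + y v x) = 0) := by
          intro w hw
          have hr := hconn w₀ hw₀l w hw
          induction hr with
          | refl =>
            refine ⟨fun _ _ => 0, fun _ _ => 0, (Fills.zero X b).congr fun u v _ => ?_,
              fun _ _ => rfl, fun _ _ _ => rfl, fun _ _ _ => rfl, fun v =>
              Finset.sum_eq_zero fun x _ => ?_⟩
            · have : ∀ x : ZMod 2, 0 = x + x + 0 := by decide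
              exact this _
            · have : ∀ x : ZMod 2, x + x + 0 = 0 := by decide
              exact this _
          | tail _ hbc ih2 =>
            rename_i c d _
            obtain ⟨N, y, hN, hy1, hy2, hy3, hy4⟩ := ih2 hbc.1
            have hcd : nbr X c d := nbr_of_tri (tri_rot hbc.2.2)
            have htri : ∃ N', Fills X b N' (fun u v => eind a c u v + eind c d u v + eind a d u v) := by
              rcases Tl_of_tri (b := b) hbc.2.2 with h1 | h1
              · exact ⟨_, h.fills_tri h1⟩
              · refine ⟨_, (h.fills_tri h1).congr fun u v _ => ?_⟩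
                rw [eind_symm' c a u v]
                ring
            obtain ⟨N', hN'⟩ := htri
            refine ⟨_, fun u v => y u v + eind c d u v, (hN.add hN').congr fun u v _ => ?_,
              fun u v => ?_, fun u v huv => ?_, fun u v hu => ?_, fun v => ?_⟩
            · have : ∀ x y z w k : ZMod 2, x + y + z + (y + w + k) = x + k + (z + w) := by decide
              exact this _ _ _ _ _
            · show y u v + eind c d u v = y v u + eind c d v u
              rw [hy1, eind_symm c d u v]
            · show y u v + eind c d u v = 0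
              rw [hy2 u v huv, eind_of_ne, add_zero]
              rintro (⟨rfl, rfl⟩ | ⟨rfl, rfl⟩)
              · exact huv hcd
              · exact huv (nbr_symm hcd)
            · show y u v + eind c d u v = 0
              rw [hy3 u v hu, eind_of_ne, add_zero]
              rintro (⟨rfl, rfl⟩ | ⟨rfl, rfl⟩)
              · exact hu (hlow _ hbc.1)
              · exact hu (hlow _ hbc.2.1)
            · have e : ∀ x, eind a w₀ v x + eind a d v x + (y v x + eind c d v x) =
                  (eind a w₀ v x + eind a c v x + y v x) +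
                    (eind a c v x + eind c d v x + eind a d v x) := fun x => by
                have : ∀ x y z w k : ZMod 2, x + k + (z + w) = x + y + z + (y + w + k) := by decide
                exact this _ _ _ _ _
              rw [Finset.sum_congr rfl fun x _ => e x, Finset.sum_add_distrib, hy4 v, zero_add,
                Finset.sum_add_distrib, Finset.sum_add_distrib]
              have hcX := h.fin.mem_toFinset.2 hcd.1
              have hdX := h.fin.mem_toFinset.2 hcd.2.1
              have haX' := h.fin.mem_toFinset.2 haX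
              rw [sum_eind hbc.1.1.2.2.1 haX' hcX, sum_eind hcd.2.2.1 hcX hdX,
                sum_eind hbc.2.1.1.2.2.1 haX' hdX]
              have : ∀ x y z : ZMod 2, x + y + (y + z) + (x + z) = 0 := by decide
              exact this _ _ _
        choose! NN yy hNN using hfill
        -- the sum over the star of `a`
        let L : Finset ℂ := s.filter fun w => z a w ≠ 0
        have hLlow : ∀ w ∈ L, w ∈ low X a p := fun w hw => hzlow w (Finset.mem_filter.1 hw).2
        let M : ℂ → ℂ → ZMod 2 := fun u v => ∑ w ∈ L, NN w u v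
        have hM := Fills.sum L fun w hw => (hNN w (hLlow w hw)).1
        let z' : ℂ → ℂ → ZMod 2 := fun u v => z u v +
          ∑ w ∈ L, (eind a w₀ u v + eind a w u v + yy w u v)
        have hz'sym : ∀ u v, z' u v = z' v u := by
          intro u v
          show z u v + _ = z v u + _
          rw [hsym u v]
          congr 1
          refine Finset.sum_congr rfl fun w hw => ?_
          rw [eind_symm a w₀ u v, eind_symm a w u v, (hNN w (hLlow w hw)).2.1 u v]
        have hz'nb : ∀ u v, ¬ nbr X u v → z' u v = 0 := by
          intro u v huv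
          show z u v + _ = 0
          rw [hznb u v huv, zero_add]
          refine Finset.sum_eq_zero fun w hw => ?_
          rw [(hNN w (hLlow w hw)).2.2.1 u v huv, eind_of_ne, eind_of_ne]
          · simp
          · rintro (⟨rfl, rfl⟩ | ⟨rfl, rfl⟩)
            · exact huv (hLlow v hw).1
            · exact huv (nbr_symm (hLlow u hw).1)
          · rintro (⟨rfl, rfl⟩ | ⟨rfl, rfl⟩)
            · exact huv hw₀l.1
            · exact huv (nbr_symm hw₀l.1)
        have hLcard : ((L.card : ℕ) : ZMod 2) = 0 := by
          have h1 := hcyc a haX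
          have h2 : ∑ w ∈ h.fin.toFinset, z a w = ∑ w ∈ L, z a w := by
            refine (Finset.sum_subset (fun w hw => h.fin.mem_toFinset.2 (hLlow w hw).1.2.1)
              fun w _ hw => ?_).symm
            by_contra h3
            exact hw (Finset.mem_filter.2 ⟨hlow w (hzlow w h3), h3⟩)
          have h3 : ∑ w ∈ L, z a w = ∑ w ∈ L, (1 : ZMod 2) := by
            refine Finset.sum_congr rfl fun w hw => ?_
            have h4 := (Finset.mem_filter.1 hw).2
            have h5 : ∀ x : ZMod 2, x ≠ 0 → x = 1 := by decide
            exact h5 _ h4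
          rw [h2, h3] at h1
          simpa using h1
        have hw₀a : w₀ ≠ a := hw₀l.1.2.2.1.symm
        have hz's : ∀ u v, u ∉ s → z' u v = 0 := by
          intro u v hu
          by_cases hua : u = a
          · subst hua
            show z u v + _ = 0
            have e1 : ∑ w ∈ L, (eind u w₀ u v + eind u w u v + yy w u v) =
                ∑ w ∈ L, eind u w u v := by
              rw [Finset.sum_add_distrib, Finset.sum_add_distrib]
              have e2 : ∑ w ∈ L, eind u w₀ u v = 0 := by
                rw [Finset.sum_const, nsmul_eq_mul, hLcard, zero_mul]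
              have e3 : ∑ w ∈ L, yy w u v = 0 :=
                Finset.sum_eq_zero fun w hw => (hNN w (hLlow w hw)).2.2.2.1 u v hu
              rw [e2, e3, zero_add, add_zero]
            rw [e1]
            by_cases hv : v ∈ L
            · rw [Finset.sum_eq_single v]
              · rw [eind_self]
                have h4 := (Finset.mem_filter.1 hv).2
                have h5 : ∀ x : ZMod 2, x ≠ 0 → x + 1 = 0 := by decide
                exact h5 _ h4
              · intro w hw hwv
                refine eind_of_ne ?_
                rintro (⟨-, h1⟩ | ⟨h1, -⟩)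
                · exact hwv h1.symm
                · exact (hLlow w hw).1.2.2.1 h1
              · intro h1; exact absurd hv h1
            · have h4 : z u v = 0 := by
                by_contra h3
                exact hv (Finset.mem_filter.2 ⟨hlow v (hzlow v h3), h3⟩)
              rw [h4, zero_add]
              refine Finset.sum_eq_zero fun w hw => eind_of_ne ?_
              rintro (⟨-, h1⟩ | ⟨h1, -⟩)
              · exact hv (h1 ▸ hw)
              · exact (hLlow w hw).1.2.2.1 h1
          · show z u v + _ = 0
            rw [hzs u v (by rw [Finset.mem_insert]; push Not; exact ⟨hua, hu⟩), zero_add]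
            refine Finset.sum_eq_zero fun w hw => ?_
            rw [(hNN w (hLlow w hw)).2.2.2.1 u v hu, eind_of_ne, eind_of_ne]
            · simp
            · rintro (⟨h1, -⟩ | ⟨h1, -⟩)
              · exact hua h1
              · exact hu (h1 ▸ hlow w (hLlow w hw))
            · rintro (⟨h1, -⟩ | ⟨h1, -⟩)
              · exact hua h1
              · exact hu (h1 ▸ hlow w₀ hw₀l)
        have hz'c : ∀ v ∈ X, ∑ x ∈ h.fin.toFinset, z' v x = 0 := by
          intro v hv
          show ∑ x ∈ h.fin.toFinset, (z v x + _) = 0
          rw [Finset.sum_add_distrib, hcyc v hv, zero_add, Finset.sum_comm]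
          exact Finset.sum_eq_zero fun w hw => (hNN w (hLlow w hw)).2.2.2.2 v
        obtain ⟨N', hN'⟩ := ih hsX' hini' z' hz'sym hz'nb hz's hz'c
        refine ⟨_, (hN'.add hM).congr fun u v _ => ?_⟩
        show z u v + _ + _ = z u v
        rw [add_assoc]
        have h5 : ∀ x y : ZMod 2, x + (y + y) = x := by decide
        exact h5 _ _
  exact key h.fin.toFinset (by simp) (fun x hx _ _ _ => h.fin.mem_toFinset.2 hx) z hs hz
    (fun u v hu => hz u v fun hn => hu (h.fin.mem_toFinset.2 hn.1)) hc

end HullTri

end Vale.Agent.P148.R2.H592
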