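import Vale.Agent.P148.R2.H592.Del7
import Vale.Agent.P148.R2.H258.A1

/-!
# The Delaunay triangulation as an abstract planar triangulation (P148, module B)
-/

open Set Metric Topology Filter

namespace Vale.Agent.P148.R2.H592

/-- The fibres of `π` on `X` are nonempty and connected in the Delaunay graph. -/
structure Fib {V : Type*} (X : Set ℂ) (π : ℂ → V) : Prop where
  conn : ∀ x ∈ X, ∀ y ∈ X, π x = π y →
    Relation.ReflTransGen (fun a b => nbr X a b ∧ π a = π b) x y
  surj : ∀ v, ∃ x ∈ X, π x = v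

theorem graph_connected {X : Set ℂ} (hX : X.Finite) {u v : ℂ} (hu : u ∈ X) (hv : v ∈ X) :
    Relation.ReflTransGen (fun a b => nbr X a b) u v := by
  have := disc_connected hX 0 (dist u 0 + dist v 0 + 1) hu hv
    (by linarith [dist_nonneg (x := v) (y := (0 : ℂ))])
    (by linarith [dist_nonneg (x := u) (y := (0 : ℂ))])
  exact Relation.ReflTransGen.mono (fun a b (h : nbr X a b ∧ _ ∧ _) => h.1) _ _ this

theorem z3_11 (j : ZMod 3) : j + 1 + 1 = j + 2 := by revert j; decide

theorem z3_12 (j : ZMod 3) : j + 1 + 2 = j := by revert j; decide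

namespace HullTri

variable {X : Set ℂ} {b : ZMod 3 → ℂ} (h : HullTri X b)
include h

omit h in
theorem tail_next (q : Fc X b × ZMod 3) : tail (q.1, q.2 + 1) = head q := by
  show vc q.1 (q.2 + 1 + 1) = vc q.1 (q.2 + 2)
  rw [z3_11]

omit h in
theorem head_next (q : Fc X b × ZMod 3) : head (q.1, q.2 + 1) = vc q.1 q.2 := by
  show vc q.1 (q.2 + 1 + 2) = vc q.1 q.2
  rw [z3_12]

omit h in
theorem tail_next2 (q : Fc X b × ZMod 3) : tail (q.1, q.2 + 2) = vc q.1 q.2 := by
  show vc q.1 (q.2 + 2 + 1) = vc q.1 q.2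
  rw [z3_21]

omit h in
theorem head_next2 (q : Fc X b × ZMod 3) : head (q.1, q.2 + 2) = tail q := by
  show vc q.1 (q.2 + 2 + 2) = vc q.1 (q.2 + 1)
  rw [z3_22]

/-- The closed cochain lemma for darts. -/
theorem potential (ω : Fc X b × ZMod 3 → ZMod 2) (hrev : ∀ q, ω (h.rv q) = ω q)
    (hcl : ∀ t, ω (t, 0) + ω (t, 1) + ω (t, 2) = 0) :
    ∃ f : ℂ → ZMod 2, ∀ q, ω q = f (tail q) + f (head q) := by
  classical
  let c : ℂ → ℂ → ZMod 2 := fun u v => if huv : nbr X u v then ω (h.dart huv) else 0
  have hc : ∀ q, c (tail q) (head q) = ω q := by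
    intro q
    simp only [c]
    rw [dif_pos (h.nbr_th q)]
    congr 1
    exact h.th_inj (h.tail_dart _) (h.head_dart _)
  have hsymm : ∀ u v, c u v = c v u := by
    intro u v
    by_cases huv : nbr X u v
    · obtain ⟨q, rfl, rfl⟩ := h.exists_dart huv
      rw [hc q, ← hrev q, ← hc (h.rv q), h.tail_rv, h.head_rv]
    · have hvu : ¬ nbr X v u := fun h => huv (nbr_symm h)
      simp only [c]
      rw [dif_neg huv, dif_neg hvu]
  have hcl' : ∀ (t : Fc X b) (j : ZMod 3), ω (t, j) + ω (t, j + 1) + ω (t, j + 2) = 0 := by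
    intro t j
    have h3 : j = 0 ∨ j = 1 ∨ j = 2 := by revert j; decide
    rcases h3 with rfl | rfl | rfl
    · simpa using hcl t
    · have e1 : (1 : ZMod 3) + 1 = 2 := by decide
      have e2 : (1 : ZMod 3) + 2 = 0 := by decide
      rw [e1, e2, ← hcl t]; ring
    · have e1 : (2 : ZMod 3) + 1 = 0 := by decide
      have e2 : (2 : ZMod 3) + 2 = 1 := by decide
      rw [e1, e2, ← hcl t]; ring
  have hTl : ∀ u v w, Tl X b u v w → c u v + c v w + c w u = 0 := by
    intro u v w ht
    obtain ⟨q, rfl, rfl, rfl⟩ := h.exists_face_of_Tl ht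
    have e1 : c (head q) (vc q.1 q.2) = ω (q.1, q.2 + 1) := by
      rw [← hc, tail_next, head_next]
    have e2 : c (vc q.1 q.2) (tail q) = ω (q.1, q.2 + 2) := by
      rw [← hc, tail_next2, head_next2]
    rw [hc q, e1, e2]
    exact hcl' q.1 q.2
  obtain ⟨p, hp⟩ := exists_base h.fin
  obtain ⟨f, hf⟩ := exists_potential h.fin hp c hsymm (by
    intro u v w ht
    rcases Tl_of_tri (b := b) ht with h1 | h1
    · exact hTl _ _ _ h1
    · have := hTl _ _ _ h1
      rw [hsymm v u, hsymm u w, hsymm w v] at this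
      rw [← this]; ring)
  exact ⟨f, fun q => by rw [← hc q]; exact hf _ _ (h.nbr_th q)⟩

section quot

variable {V : Type*} (π : ℂ → V) (hπ : Fib X π)
include hπ

omit h in
/-- A function constant along the Delaunay edges inside the fibres factors. -/
theorem factor (f : ℂ → ZMod 2) (hf : ∀ a c, nbr X a c → π a = π c → f a = f c) :
    ∃ c : V → ZMod 2, ∀ x ∈ X, c (π x) = f x := by
  choose s hsX hs using hπ.surj
  refine ⟨fun v => f (s v), fun x hx => ?_⟩
  have h1 := hπ.conn _ (hsX (π x)) _ hx (hs (π x))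
  have : ∀ y, Relation.ReflTransGen (fun a b => nbr X a b ∧ π a = π b) (s (π x)) y →
      f (s (π x)) = f y := by
    intro y hy
    induction hy with
    | refl => rfl
    | tail _ hbc ih => rw [ih]; exact hf _ _ hbc.1 hbc.2
  exact this x h1

omit hπ in
theorem eqv_rot {v w w' : ℂ} (hw : nbr X v w) (hw' : nbr X v w') :
    Relation.EqvGen (fun f g : Fc X b × ZMod 3 => g = h.rv (f.1, f.2 + 2)) (h.dart hw)
      (h.dart hw') := by
  have h1 := link_connected h.fin hw hw' fun a ha => h.off_line v a ha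
  have step : ∀ {a c : ℂ} (ha : nbr X v a) (hc : nbr X v c), Tl X b v a c →
      h.dart hc = h.rv ((h.dart ha).1, (h.dart ha).2 + 2) := by
    intro a c ha hc ht
    have hq := th_Tl (h.dart ha)
    rw [h.tail_dart, h.head_dart] at hq
    have hc' : vc (h.dart ha).1 (h.dart ha).2 = c := h.Tl_unique hq ht
    apply h.th_inj
    · rw [h.tail_dart, h.tail_rv, head_next2, h.tail_dart]
    · rw [h.head_dart, h.head_rv, tail_next2, hc']
  induction h1 with
  | refl => exact Relation.EqvGen.refl _
  | tail _ hbc ih =>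
    rename_i a c _
    have ha : nbr X v a := nbr_of_tri hbc
    refine Relation.EqvGen.trans _ _ _ (ih ha) ?_
    rcases Tl_of_tri (b := b) hbc with h2 | h2
    · exact Relation.EqvGen.rel _ _ (step ha hw' h2)
    · exact Relation.EqvGen.symm _ _ (Relation.EqvGen.rel _ _ (step hw' ha (Tl_rot h2)))

/-- **The sphere triangulation, quotiented by `π`, as helper258's structure.** -/
noncomputable def tri258 : H258.Tri V (Fc X b × ZMod 3) where
  src q := π (tail q)
  rev := h.rv
  nxt q := (q.1, q.2 + 1)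
  rev_rev := h.rv_rv
  nxt3 q := by
    obtain ⟨t, j⟩ := q
    simp only
    congr 1
    revert j; decide
  src_nxt q := by rw [h.tail_rv, tail_next]
  link q r hqr := by
    have hn2 : ∀ f : Fc X b × ZMod 3, ((f.1, f.2 + 1 + 1) : Fc X b × ZMod 3) = (f.1, f.2 + 2) := by
      intro f
      congr 1
      generalize f.2 = j
      revert j; decide
    -- rotations about one vertex
    have hrot : ∀ q r : Fc X b × ZMod 3, tail q = tail r → Relation.EqvGen
        (fun f g : Fc X b × ZMod 3 => g = h.rv (f.1, f.2 + 1 + 1) ∨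
          (π (tail f) = π (tail (h.rv f)) ∧ g = h.rv f)) q r := by
      intro q r hqr
      have hr : nbr X (tail q) (head r) := by rw [hqr]; exact h.nbr_th r
      have h1 := h.eqv_rot (h.nbr_th q) hr
      have e1 : h.dart (h.nbr_th q) = q := h.th_inj (h.tail_dart _) (h.head_dart _)
      have e2 : h.dart hr = r := h.th_inj ((h.tail_dart _).trans hqr) (h.head_dart _)
      rw [e1, e2] at h1
      refine Relation.EqvGen.mono (fun f g hfg => Or.inl ?_) _ _ h1
      rw [hn2]
      exact hfg
    -- steps inside the fibre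
    have hfib : ∀ y, Relation.ReflTransGen (fun a b => nbr X a b ∧ π a = π b) (tail q) y →
        ∀ r : Fc X b × ZMod 3, tail r = y → Relation.EqvGen
        (fun f g : Fc X b × ZMod 3 => g = h.rv (f.1, f.2 + 1 + 1) ∨
          (π (tail f) = π (tail (h.rv f)) ∧ g = h.rv f)) q r := by
      intro y hy
      induction hy with
      | refl => intro r hr; exact hrot q r hr.symm
      | tail _ hbc ih =>
        rename_i a c _
        intro r hr
        have h1 := ih (h.dart hbc.1) (h.tail_dart _)
        refine Relation.EqvGen.trans _ _ _ h1 (Relation.EqvGen.trans _ (h.rv (h.dart hbc.1)) _ ?_ ?_)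
        · refine Relation.EqvGen.rel _ _ (Or.inr ⟨?_, rfl⟩)
          rw [h.tail_rv, h.tail_dart, h.head_dart]
          exact hbc.2
        · refine hrot _ _ ?_
          rw [h.tail_rv, h.head_dart, hr]
    exact hfib _ (hπ.conn _ (h.nbr_th q).1 _ (h.nbr_th r).1 hqr) r rfl

end quot

end HullTri

end Vale.Agent.P148.R2.H592
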