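import Vale.Agent.P148.R2.H592.Dom2

/-!
# P148, module B2J, part 3: the discrete three-arc domain from a necklace of connected sets
-/

open Set Metric Topology Filter

namespace Vale.Agent.P148.R2.H592

theorem z3_12' (j : ZMod 3) : j + 1 + 2 = j := by revert j; decide

theorem z3_22' (j : ZMod 3) : j + 2 + 2 = j + 1 := by revert j; decide

theorem z3_ne1 (j : ZMod 3) : j ≠ j + 1 := by revert j; decide

theorem z3_ne2 (j : ZMod 3) : j ≠ j + 2 := by revert j; decide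

theorem z3_ne12 (j : ZMod 3) : j + 1 ≠ j + 2 := by revert j; decide

/-- Pairwise disjointness of a cyclic family of three. -/
theorem pairwise_z3 {O : ZMod 3 → Set ℂ} (h : ∀ j, Disjoint (O j) (O (j + 1))) :
    Pairwise fun i j => Disjoint (O i) (O j) := by
  intro i j hij
  rcases z3_of_ne i j hij with rfl | rfl
  · exact h i
  · have := h (i + 2)
    rw [z3_21] at this
    exact this.symm

/-- A necklace of connected sets: `C j` joins `A j` to `A (j + 1)`. -/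
structure Necklace (X : Set ℂ) (A C : ZMod 3 → Set ℂ) : Prop where
  connA : ∀ j, ConnIn X (A j)
  connC : ∀ j, ConnIn X (C j)
  AA : ∀ j, Disjoint (A j) (A (j + 1))
  CC : ∀ j, Disjoint (C j) (C (j + 1))
  left : ∀ j, (A j ∩ C j).Nonempty
  right : ∀ j, (A (j + 1) ∩ C j).Nonempty
  opp : ∀ j, Disjoint (A (j + 2)) (C j)

/-- The whole necklace. -/
def ring (A C : ZMod 3 → Set ℂ) : Set ℂ := ⋃ j, (A j ∪ C j)

/-- The interior: a component of the complement of the necklace. -/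
def inn (X : Set ℂ) (A C : ZMod 3 → Set ℂ) (i₀ : ℂ) : Set ℂ := comp X (X \ ring A C) i₀

/-- One step of the simultaneous growth of the classes inside `E`; ties go to the smaller index. -/
def step (X E : Set ℂ) (O : ZMod 3 → Set ℂ) (j : ZMod 3) : Set ℂ :=
  O j ∪ {v | v ∈ E ∧ (∀ i, v ∉ O i) ∧ (∃ u ∈ O j, nbr X u v) ∧
    ∀ i : ZMod 3, i.val < j.val → ¬ ∃ u ∈ O i, nbr X u v}

/-- The classes grown inside `E` (canonical, no choice). -/
def grow (X E : Set ℂ) (O : ZMod 3 → Set ℂ) : ℕ → ZMod 3 → Set ℂ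
  | 0 => O
  | n + 1 => step X E (grow X E O n)

/-- The limit of the growth. -/
def ext (X E : Set ℂ) (O : ZMod 3 → Set ℂ) (j : ZMod 3) : Set ℂ := ⋃ n, grow X E O n j

theorem connIn_attach {X O N : Set ℂ} (h : ConnIn X O) (hN : ∀ v ∈ N, ∃ u ∈ O, nbr X u v) :
    ConnIn X (O ∪ N) := by
  refine ⟨union_subset h.1 fun v hv => (hN v hv).choose_spec.2.2.1, ?_⟩
  have key : ∀ x ∈ O ∪ N, ∃ w ∈ O, Relation.ReflTransGen
      (fun u v => nbr X u v ∧ u ∈ O ∪ N ∧ v ∈ O ∪ N) x w := by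
    rintro x (hx | hx)
    · exact ⟨x, hx, Relation.ReflTransGen.refl⟩
    · obtain ⟨u, hu, hux⟩ := hN x hx
      exact ⟨u, hu, Relation.ReflTransGen.single ⟨nbr_symm hux, Or.inr hx, Or.inl hu⟩⟩
  intro x hx y hy
  obtain ⟨w, hw, h1⟩ := key x hx
  obtain ⟨w', hw', h2⟩ := key y hy
  exact h1.trans ((h.lift subset_union_left hw hw').trans (symm_in h2))

theorem connIn_step {X E : Set ℂ} {O : ZMod 3 → Set ℂ} (h : ∀ j, ConnIn X (O j)) (j : ZMod 3) :
    ConnIn X (step X E O j) := connIn_attach (h j) fun _ hv => hv.2.2.1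

theorem disj_step {X E : Set ℂ} {O : ZMod 3 → Set ℂ}
    (h : Pairwise fun i j => Disjoint (O i) (O j)) :
    Pairwise fun i j => Disjoint (step X E O i) (step X E O j) := by
  intro i j hij
  rw [Set.disjoint_left]
  rintro x (hx | hx) (hx' | hx')
  · exact Set.disjoint_left.1 (h hij) hx hx'
  · exact hx'.2.1 i hx
  · exact hx.2.1 j hx'
  · have hne : i.val ≠ j.val := fun h => hij (ZMod.val_injective 3 h)
    rcases lt_or_gt_of_ne hne with h1 | h1
    · exact hx'.2.2.2 i h1 hx.2.2.1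
    · exact hx.2.2.2 j h1 hx'.2.2.1

theorem grow_mono {X E : Set ℂ} {O : ZMod 3 → Set ℂ} (j : ZMod 3) :
    Monotone fun n => grow X E O n j :=
  monotone_nat_of_le_succ fun _ => subset_union_left

theorem subset_ext (X E : Set ℂ) (O : ZMod 3 → Set ℂ) (j : ZMod 3) : O j ⊆ ext X E O j :=
  subset_iUnion (fun n => grow X E O n j) 0

theorem connIn_grow {X E : Set ℂ} {O : ZMod 3 → Set ℂ} (h : ∀ j, ConnIn X (O j)) (n : ℕ) :
    ∀ j, ConnIn X (grow X E O n j) := by
  induction n with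
  | zero => exact h
  | succ n ih => exact connIn_step ih

theorem disj_grow {X E : Set ℂ} {O : ZMod 3 → Set ℂ}
    (h : Pairwise fun i j => Disjoint (O i) (O j)) (n : ℕ) :
    Pairwise fun i j => Disjoint (grow X E O n i) (grow X E O n j) := by
  induction n with
  | zero => exact h
  | succ n ih => exact disj_step ih

theorem grow_subset {X E : Set ℂ} {O : ZMod 3 → Set ℂ} (h : ∀ j, O j ⊆ E) (n : ℕ) :
    ∀ j, grow X E O n j ⊆ E := by
  induction n with
  | zero => exact h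
  | succ n ih => exact fun j => union_subset (ih j) fun v hv => hv.1

theorem connIn_ext {X E : Set ℂ} {O : ZMod 3 → Set ℂ} (h : ∀ j, ConnIn X (O j)) (j : ZMod 3) :
    ConnIn X (ext X E O j) := by
  refine ⟨iUnion_subset fun n => (connIn_grow h n j).1, fun x hx y hy => ?_⟩
  obtain ⟨n, hn⟩ := mem_iUnion.1 hx
  obtain ⟨m, hm⟩ := mem_iUnion.1 hy
  exact (connIn_grow h (max n m) j).lift (subset_iUnion (fun n => grow X E O n j) _)
    (grow_mono j (le_max_left n m) hn) (grow_mono j (le_max_right n m) hm)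

theorem disj_ext {X E : Set ℂ} {O : ZMod 3 → Set ℂ}
    (h : Pairwise fun i j => Disjoint (O i) (O j)) :
    Pairwise fun i j => Disjoint (ext X E O i) (ext X E O j) := by
  intro i j hij
  rw [Set.disjoint_left]
  intro x hx hy
  obtain ⟨n, hn⟩ := mem_iUnion.1 hx
  obtain ⟨m, hm⟩ := mem_iUnion.1 hy
  exact Set.disjoint_left.1 (disj_grow h (max n m) hij) (grow_mono i (le_max_left n m) hn)
    (grow_mono j (le_max_right n m) hm)

theorem iUnion_ext {X E : Set ℂ} {O : ZMod 3 → Set ℂ} (hE : ConnIn X E) (hsub : ∀ j, O j ⊆ E)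
    (hne : ∃ j, (O j).Nonempty) : ⋃ j, ext X E O j = E := by
  refine Subset.antisymm (iUnion_subset fun j => iUnion_subset fun n => grow_subset hsub n j) ?_
  intro w hw
  by_contra hcon
  obtain ⟨j₀, r, hr⟩ := hne
  obtain ⟨a, c, hac, ha, hc⟩ := exists_exit (A := ⋃ j, ext X E O j) (hE.2 r (hsub j₀ hr) w hw)
    (mem_iUnion.2 ⟨j₀, subset_ext X E O j₀ hr⟩) hcon
  obtain ⟨i, hi⟩ := mem_iUnion.1 ha
  obtain ⟨n, hn⟩ := mem_iUnion.1 hi
  have hcn : ∀ k, c ∉ grow X E O n k := fun k hk =>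
    hc (mem_iUnion.2 ⟨k, mem_iUnion.2 ⟨n, hk⟩⟩)
  -- the first adjacent class
  have hex : ∃ m : ℕ, ∃ k : ZMod 3, k.val = m ∧ ∃ u ∈ grow X E O n k, nbr X u c :=
    ⟨i.val, i, rfl, a, hn, hac.1⟩
  classical
  obtain ⟨k, hk, hu⟩ := Nat.find_spec hex
  refine hc (mem_iUnion.2 ⟨k, mem_iUnion.2 ⟨n + 1, Or.inr ⟨hac.2.2, hcn, hu, ?_⟩⟩⟩)
  intro k' hk' hu'
  rw [hk] at hk'
  exact Nat.find_min hex hk' ⟨k', rfl, hu'⟩

/-- The first part of a bead. -/
def bead (X : Set ℂ) (A C : ZMod 3 → Set ℂ) (j : ZMod 3) : Set ℂ :=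
  {y | ∃ a ∈ A j, y ∈ comp X ((A j ∪ C j) \ A (j + 1)) a}

/-- The beads: the classes on the necklace. -/
def beads (X : Set ℂ) (A C : ZMod 3 → Set ℂ) (j : ZMod 3) : Set ℂ :=
  bead X A C j ∪ (C (j + 2) \ bead X A C (j + 2))

/-- The classes of the domain (canonical). -/
def cls (X : Set ℂ) (A C : ZMod 3 → Set ℂ) (i₀ : ℂ) : ZMod 3 → Set ℂ :=
  ext X (X \ inn X A C i₀) (beads X A C)

/-- The discrete three-arc domain with free vertices `I`, classes `O j`, built on the necklace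
`A`, `C`. -/
structure Dom (X : Set ℂ) (b : ZMod 3 → ℂ) (A C : ZMod 3 → Set ℂ) (i₀ : ℂ)
    (O : ZMod 3 → Set ℂ) : Prop where
  conn : ∀ j, ConnIn X (O j)
  disj : Pairwise fun i j => Disjoint (O i) (O j)
  cover : ⋃ j, O j = X \ inn X A C i₀
  sub : ∀ j, A j ⊆ O j
  ring_sub : ∀ j, O j ∩ ring A C ⊆ A j ∪ C j ∪ C (j + 2)
  face : ∃ o : ZMod 3 → ℂ, (∀ j, o j ∈ O j) ∧
    (Tl X b (o 0) (o 1) (o 2) ∨ Tl X b (o 1) (o 0) (o 2))

namespace Necklace

variable {X : Set ℂ} {A C : ZMod 3 → Set ℂ} (h : Necklace X A C)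
include h

theorem connAC (j : ZMod 3) : ConnIn X (A j ∪ C j) := (h.connA j).union (h.connC j) (h.left j)

theorem conn_ring : ConnIn X (ring A C) := by
  refine connIn_iUnion h.connAC fun i j => ?_
  have h1 : ∀ j : ZMod 3, ((A j ∪ C j) ∩ (A (j + 1) ∪ C (j + 1))).Nonempty := fun j => by
    obtain ⟨x, hx, hx'⟩ := h.right j
    exact ⟨x, Or.inr hx', Or.inl hx⟩
  have h2 : ∀ j : ZMod 3, Relation.ReflTransGen
      (fun i j => ((A i ∪ C i) ∩ (A j ∪ C j)).Nonempty) j (j + 1) := fun j =>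
    Relation.ReflTransGen.single (h1 j)
  rcases z3_cases i j with rfl | rfl | rfl
  · exact Relation.ReflTransGen.refl
  · exact h2 i
  · have h3 := h2 (i + 1)
    have e : i + 1 + 1 = i + 2 := z3_11 i
    rw [e] at h3
    exact (h2 i).trans h3

theorem ring_nonempty : (ring A C).Nonempty := by
  obtain ⟨x, hx, -⟩ := h.left 0
  exact ⟨x, mem_iUnion.2 ⟨0, Or.inl hx⟩⟩

theorem disjA {i j : ZMod 3} (hij : i ≠ j) : Disjoint (A i) (A j) := pairwise_z3 h.AA hij

theorem disjC {i j : ZMod 3} (hij : i ≠ j) : Disjoint (C i) (C j) := pairwise_z3 h.CC hij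

/-- The beads. -/
theorem beads_spec : (∀ j, ConnIn X (beads X A C j)) ∧
    (Pairwise fun i j => Disjoint (beads X A C i) (beads X A C j)) ∧ (∀ j, A j ⊆ beads X A C j) ∧
    (∀ j, beads X A C j ⊆ A j ∪ C j ∪ C (j + 2)) ∧ ⋃ j, beads X A C j = ring A C ∧
    ∀ j, ∃ u ∈ beads X A C j, ∃ v ∈ beads X A C (j + 1), nbr X u v := by
  have hne : ∀ j, ∃ a, a ∈ A j := fun j => (h.left j).imp fun _ hx => hx.1
  choose a ha using hne
  set B : ZMod 3 → Set ℂ := fun j => comp X ((A j ∪ C j) \ A (j + 1)) (a j) with hB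
  set D : ZMod 3 → Set ℂ := fun j => C j \ B j with hD
  have hsub : ∀ j, (A j ∪ C j) \ A (j + 1) ⊆ X := fun j =>
    sdiff_subset.trans (union_subset (h.connA j).1 (h.connC j).1)
  have hA' : ∀ j, A j ⊆ (A j ∪ C j) \ A (j + 1) := fun j x hx =>
    ⟨Or.inl hx, Set.disjoint_left.1 (h.AA j) hx⟩
  have hBc : ∀ j, ConnIn X (B j) := fun j => connIn_comp (hsub j) _
  have hAB : ∀ j, A j ⊆ B j := fun j =>
    (h.connA j).subset_comp (hA' j) (ha j) (mem_comp_self (hA' j (ha j)))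
  have hBs : ∀ j, B j ⊆ (A j ∪ C j) \ A (j + 1) := fun j => comp_subset _ _ _
  have hBb : ∀ j, bead X A C j = B j := by
    intro j
    ext y
    constructor
    · rintro ⟨a', ha', h1, h2⟩
      exact ⟨h1, ((h.connA j).lift (hA' j) (ha j) ha').trans h2⟩
    · exact fun hy => ⟨a j, ha j, hy⟩
  have hbe : ∀ j, beads X A C j = B j ∪ D (j + 2) := by
    intro j
    unfold beads
    rw [hBb, hBb]
  simp only [hbe]
  have hCA : ∀ j, C j ∩ A (j + 1) ⊆ D j := fun j x hx => ⟨hx.1, fun hb => (hBs j hb).2 hx.2⟩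
  -- connection of the rest to the next class
  have hDc : ∀ j, ∀ y ∈ D j, ∃ w ∈ A (j + 1), Relation.ReflTransGen
      (fun a b => nbr X a b ∧ a ∈ D j ∧ b ∈ D j) y w := by
    intro j y hy
    obtain ⟨w, hwA, hwC⟩ := h.right j
    have key : ∀ y, Relation.ReflTransGen (fun a b => nbr X a b ∧ a ∈ C j ∧ b ∈ C j) y w →
        y ∈ D j → ∃ w ∈ A (j + 1), Relation.ReflTransGen
          (fun a b => nbr X a b ∧ a ∈ D j ∧ b ∈ D j) y w := by
      intro y hyw
      induction hyw using Relation.ReflTransGen.head_induction_on with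
      | refl => exact fun _ => ⟨w, hwA, Relation.ReflTransGen.refl⟩
      | head hac _ ih =>
        rename_i p q _
        intro hp
        by_cases hpA : p ∈ A (j + 1)
        · exact ⟨p, hpA, Relation.ReflTransGen.refl⟩
        · have hq : q ∈ D j := by
            refine ⟨hac.2.2, fun hqB => hp.2 ?_⟩
            exact comp_closed hqB (nbr_symm hac.1) ⟨Or.inr hac.2.1, hpA⟩
          obtain ⟨w', hw', h1⟩ := ih hq
          exact ⟨w', hw', Relation.ReflTransGen.head ⟨hac.1, hp, hq⟩ h1⟩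
    exact key y ((h.connC j).2 y hy.1 w hwC) hy
  have hOc : ∀ j, ConnIn X (B j ∪ D (j + 2)) := by
    intro j
    have e : j + 2 + 1 = j := z3_21 j
    refine ⟨union_subset (hBc j).1 (sdiff_subset.trans (h.connC _).1), ?_⟩
    have key : ∀ x ∈ B j ∪ D (j + 2), ∃ w ∈ B j, Relation.ReflTransGen
        (fun u v => nbr X u v ∧ u ∈ B j ∪ D (j + 2) ∧ v ∈ B j ∪ D (j + 2)) x w := by
      rintro x (hx | hx)
      · exact ⟨x, hx, Relation.ReflTransGen.refl⟩
      · obtain ⟨w, hw, h1⟩ := hDc (j + 2) x hx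
        rw [e] at hw
        exact ⟨w, hAB j hw, Relation.ReflTransGen.mono
          (fun u v (h : nbr X u v ∧ _ ∧ _) => ⟨h.1, Or.inr h.2.1, Or.inr h.2.2⟩) _ _ h1⟩
    intro x hx y hy
    obtain ⟨w, hw, h1⟩ := key x hx
    obtain ⟨w', hw', h2⟩ := key y hy
    exact h1.trans (((hBc j).lift subset_union_left hw hw').trans (symm_in h2))
  have hBB : ∀ j, Disjoint (B j) (B (j + 1)) := by
    intro j
    rw [Set.disjoint_left]
    intro x hx hx'
    obtain ⟨h1, h2⟩ := hBs j hx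
    obtain ⟨h3 | h3, h4⟩ := hBs (j + 1) hx'
    · exact h2 h3
    · rcases h1 with h1 | h1
      · have := h.opp (j + 1)
        rw [z3_12'] at this
        exact Set.disjoint_left.1 this h1 h3
      · exact Set.disjoint_left.1 (h.CC j) h1 h3
  have hdis : ∀ j, Disjoint (B j ∪ D (j + 2)) (B (j + 1) ∪ D (j + 1 + 2)) := by
    intro j
    have e : j + 1 + 2 = j := z3_12' j
    rw [e, Set.disjoint_left]
    rintro x (hx | hx) (hx' | hx')
    · exact Set.disjoint_left.1 (hBB j) hx hx'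
    · exact hx'.2 hx
    · obtain ⟨h1 | h1, h2⟩ := hBs (j + 1) hx'
      · have := h.opp (j + 2)
        rw [z3_22'] at this
        exact Set.disjoint_left.1 this h1 hx.1
      · exact Set.disjoint_left.1 (h.disjC (z3_ne12 j)) h1 hx.1
    · exact Set.disjoint_left.1 (h.disjC (z3_ne2 j)) hx'.1 hx.1
  refine ⟨hOc, pairwise_z3 (O := fun j => B j ∪ D (j + 2)) hdis, fun j => (hAB j).trans
    subset_union_left, fun j => ?_, ?_, fun j => ?_⟩
  · rintro x (hx | hx)
    · exact Or.inl (hBs j hx).1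
    · exact Or.inr hx.1
  · ext x
    simp only [ring, mem_iUnion]
    constructor
    · rintro ⟨j, hx | hx⟩
      · exact ⟨j, (hBs j hx).1⟩
      · exact ⟨j + 2, Or.inr hx.1⟩
    · rintro ⟨j, hx | hx⟩
      · exact ⟨j, Or.inl (hAB j hx)⟩
      · by_cases hxB : x ∈ B j
        · exact ⟨j, Or.inl hxB⟩
        · refine ⟨j + 1, Or.inr ?_⟩
          rw [z3_12']
          exact ⟨hx, hxB⟩
  · obtain ⟨x, hxA, hxC⟩ := h.left j
    obtain ⟨y, hyA, hyC⟩ := h.right j
    obtain ⟨p, q, hpq, hp, hq⟩ := exists_exit ((h.connC j).2 x hxC y hyC) (hAB j hxA)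
      (hCA j ⟨hyC, hyA⟩).2
    refine ⟨p, Or.inl hp, q, Or.inr ?_, hpq.1⟩
    rw [z3_12']
    exact ⟨hpq.2.2, hq⟩

/-- **The discrete three-arc domain.** -/
theorem dom {b : ZMod 3 → ℂ} (hX : HullTri X b) (i₀ : ℂ) : Dom X b A C i₀ (cls X A C i₀) := by
  obtain ⟨h1, h2, h3, h4, h5, h6⟩ := h.beads_spec
  have hE : ConnIn X (X \ inn X A C i₀) :=
    connIn_compl_comp hX.fin h.conn_ring h.ring_nonempty i₀
  have hsubE : ∀ j, beads X A C j ⊆ X \ inn X A C i₀ := by
    intro j x hx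
    refine ⟨(h1 j).1 hx, fun hxI => ?_⟩
    have : x ∈ ring A C := by rw [← h5]; exact mem_iUnion.2 ⟨j, hx⟩
    exact (comp_subset _ _ _ hxI).2 this
  have g2 : ∀ j, ConnIn X (cls X A C i₀ j) := connIn_ext h1
  have g3 : Pairwise fun i j => Disjoint (cls X A C i₀ i) (cls X A C i₀ j) := disj_ext h2
  have g4 : ⋃ j, cls X A C i₀ j = X \ inn X A C i₀ :=
    iUnion_ext hE hsubE ⟨0, by obtain ⟨u, hu, -⟩ := h6 0; exact ⟨u, hu⟩⟩
  have g1 : ∀ j, beads X A C j ⊆ cls X A C i₀ j := subset_ext _ _ _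
  refine ⟨g2, g3, g4, fun j => (h3 j).trans (g1 j), fun j x hx => ?_, ?_⟩
  · obtain ⟨hxO, hxR⟩ := hx
    rw [← h5] at hxR
    obtain ⟨i, hi⟩ := mem_iUnion.1 hxR
    have : i = j := by
      by_contra hne
      exact Set.disjoint_left.1 (g3 hne) (g1 i hi) hxO
    rw [this] at hi
    exact h4 j hi
  · refine hX.exists_tri_face (connIn_comp sdiff_subset i₀) g3 g2 g4 fun j => ?_
    obtain ⟨u, hu, v, hv, huv⟩ := h6 j
    exact ⟨u, g1 j hu, v, g1 (j + 1) hv, huv⟩

/-- On the necklace the classes are the beads. -/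
theorem cls_inter_ring {b : ZMod 3 → ℂ} (hX : HullTri X b) (i₀ : ℂ) (j : ZMod 3) :
    cls X A C i₀ j ∩ ring A C = beads X A C j := by
  obtain ⟨h1, h2, h3, h4, h5, h6⟩ := h.beads_spec
  have hd := (h.dom hX i₀).disj
  have g1 : ∀ j, beads X A C j ⊆ cls X A C i₀ j := subset_ext _ _ _
  refine Subset.antisymm ?_ fun x hx => ⟨g1 j hx, by rw [← h5]; exact mem_iUnion.2 ⟨j, hx⟩⟩
  rintro x ⟨hxO, hxR⟩
  rw [← h5] at hxR
  obtain ⟨i, hi⟩ := mem_iUnion.1 hxR
  have : i = j := by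
    by_contra hne
    exact Set.disjoint_left.1 (hd hne) (g1 i hi) hxO
  rwa [this] at hi

end Necklace

namespace Dom

variable {X : Set ℂ} {b : ZMod 3 → ℂ} {A C : ZMod 3 → Set ℂ} {i₀ : ℂ} {O : ZMod 3 → Set ℂ}
  (h : Dom X b A C i₀ O)
include h

theorem nonempty (j : ZMod 3) : (O j).Nonempty := by
  obtain ⟨o, ho, -⟩ := h.face
  exact ⟨o j, ho j⟩

/-- The contraction map of the domain. -/
theorem fib : Fib X (cmap X O) := fib_cmap h.disj h.conn h.nonempty

/-- The free vertices. -/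
theorem free_iff {x : ℂ} (hx : x ∈ X) : (∀ j, x ∉ O j) ↔ x ∈ inn X A C i₀ := by
  constructor
  · intro h1
    by_contra h2
    have : x ∈ ⋃ j, O j := by rw [h.cover]; exact ⟨hx, h2⟩
    obtain ⟨j, hj⟩ := mem_iUnion.1 this
    exact h1 j hj
  · intro h1 j hj
    have : x ∈ X \ inn X A C i₀ := by rw [← h.cover]; exact mem_iUnion.2 ⟨j, hj⟩
    exact this.2 h1

/-- A neighbour of a free vertex is free or in the necklace, near the arc of its class. -/
theorem nbr_free {u v : ℂ} (hu : u ∈ inn X A C i₀) (huv : nbr X u v) :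
    v ∈ inn X A C i₀ ∨ ∃ j, v ∈ O j ∧ v ∈ A j ∪ C j ∪ C (j + 2) := by
  rcases nbr_comp hu huv with h1 | h1
  · exact Or.inl h1
  · right
    have : v ∈ ⋃ j, O j := by
      rw [h.cover]
      exact ⟨huv.2.1, fun h2 => (comp_subset _ _ _ h2).2 h1⟩
    obtain ⟨j, hj⟩ := mem_iUnion.1 this
    exact ⟨j, hj, h.ring_sub j ⟨hj, h1⟩⟩

end Dom

end Vale.Agent.P148.R2.H592
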