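import Vale.Agent.P148.R2.H592.Dom3

/-!
# P148, module B2J, part 4: necklaces from thickened connected sets
-/

open Set Metric Topology Filter

namespace Vale.Agent.P148.R2.H592

/-- Preconnected sets are chain connected. -/
theorem chain_of_preconnected {K : Set ℂ} (hK : IsPreconnected K) {ε : ℝ} (hε : 0 < ε) {x y : ℂ}
    (hx : x ∈ K) (hy : y ∈ K) :
    Relation.ReflTransGen (fun a b => a ∈ K ∧ b ∈ K ∧ dist a b < ε) x y := by
  by_contra hcon
  set S : Set ℂ := {z | z ∈ K ∧ Relation.ReflTransGen (fun a b => a ∈ K ∧ b ∈ K ∧ dist a b < ε) x z}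
    with hS
  set T : Set ℂ := K \ S with hT
  have h1 : IsOpen (⋃ z ∈ S, ball z ε) := isOpen_biUnion fun _ _ => isOpen_ball
  have h2 : IsOpen (⋃ z ∈ T, ball z ε) := isOpen_biUnion fun _ _ => isOpen_ball
  have hcov : K ⊆ (⋃ z ∈ S, ball z ε) ∪ ⋃ z ∈ T, ball z ε := by
    intro z hz
    by_cases hzS : z ∈ S
    · exact Or.inl (mem_biUnion hzS (mem_ball_self hε))
    · exact Or.inr (mem_biUnion (show z ∈ T from ⟨hz, hzS⟩) (mem_ball_self hε))
  have hxS : x ∈ S := ⟨hx, Relation.ReflTransGen.refl⟩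
  have hyT : y ∈ T := ⟨hy, fun h => hcon h.2⟩
  obtain ⟨z, hz, hz1, hz2⟩ := hK _ _ h1 h2 hcov ⟨x, hx, mem_biUnion hxS (mem_ball_self hε)⟩
    ⟨y, hy, mem_biUnion hyT (mem_ball_self hε)⟩
  obtain ⟨s, hs, hzs⟩ := mem_iUnion₂.1 hz1
  obtain ⟨t, ht, hzt⟩ := mem_iUnion₂.1 hz2
  refine ht.2 ⟨ht.1, (hs.2.tail ⟨hs.1, hz, ?_⟩).tail ⟨hz, ht.1, hzt⟩⟩
  rw [dist_comm]
  exact hzs

/-- The vertices near a connected set form a connected set. -/
theorem connIn_thickening {X : Set ℂ} (hX : X.Finite) {K : Set ℂ} (hK : IsPreconnected K) {δ : ℝ}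
    (hδ : 0 < δ) (hnet : ∀ z ∈ K, ∃ x ∈ X, dist x z < δ / 2) : ConnIn X (X ∩ thickening δ K) := by
  rw [thickening_eq_biUnion_ball]
  refine connIn_discs hX K (fun z => z) (fun _ => δ) fun z hz w hw => ?_
  refine Relation.ReflTransGen.mono (fun a b (hab : a ∈ K ∧ b ∈ K ∧ dist a b < δ / 2) => ?_) _ _
    (chain_of_preconnected hK (half_pos hδ) hz hw)
  obtain ⟨ha, hb, hd⟩ := hab
  obtain ⟨x, hx, hxa⟩ := hnet a ha
  refine ⟨ha, hb, x, hx, ?_, ?_⟩
  · rw [mem_ball]; linarith
  · rw [mem_ball]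
    have := dist_triangle x a b
    linarith

/-- The curve of the necklace. -/
def curve (K G : ZMod 3 → Set ℂ) : Set ℂ := ⋃ j, (K j ∪ G j)

/-- Continuum data of a three-arc domain: `G j` joins `K j` to `K (j + 1)`. -/
structure Geo (K G : ZMod 3 → Set ℂ) : Prop where
  cK : ∀ j, IsCompact (K j)
  cG : ∀ j, IsCompact (G j)
  pK : ∀ j, IsPreconnected (K j)
  pG : ∀ j, IsPreconnected (G j)
  KK : ∀ j, Disjoint (K j) (K (j + 1))
  GG : ∀ j, Disjoint (G j) (G (j + 1))
  left : ∀ j, (K j ∩ G j).Nonempty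
  right : ∀ j, (K (j + 1) ∩ G j).Nonempty
  opp : ∀ j, Disjoint (K (j + 2)) (G j)

/-- The thickenings of radius `δ` are still disjoint. -/
structure Sep (δ : ℝ) (K G : ZMod 3 → Set ℂ) : Prop where
  KK : ∀ j, Disjoint (thickening δ (K j)) (thickening δ (K (j + 1)))
  GG : ∀ j, Disjoint (thickening δ (G j)) (thickening δ (G (j + 1)))
  opp : ∀ j, Disjoint (thickening δ (K (j + 2))) (thickening δ (G j))

theorem Geo.exists_sep {K G : ZMod 3 → Set ℂ} (h : Geo K G) :
    ∃ δ₀ > 0, ∀ δ ≤ δ₀, Sep δ K G := by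
  choose a ha ha' using fun j => (h.KK j).exists_thickenings (h.cK j) (h.cK (j + 1)).isClosed
  choose b hb hb' using fun j => (h.GG j).exists_thickenings (h.cG j) (h.cG (j + 1)).isClosed
  choose c hc hc' using fun j => (h.opp j).exists_thickenings (h.cK (j + 2)) (h.cG j).isClosed
  set m : ZMod 3 → ℝ := fun j => min (a j) (min (b j) (c j)) with hm
  have hmp : ∀ j, 0 < m j := fun j => lt_min (ha j) (lt_min (hb j) (hc j))
  refine ⟨min (m 0) (min (m 1) (m 2)), lt_min (hmp 0) (lt_min (hmp 1) (hmp 2)), fun δ hδ => ?_⟩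
  have hle : ∀ j : ZMod 3, δ ≤ m j := by
    intro j
    have hj : j = 0 ∨ j = 1 ∨ j = 2 := by revert j; decide
    rcases hj with rfl | rfl | rfl
    · exact hδ.trans (min_le_left _ _)
    · exact hδ.trans ((min_le_right _ _).trans (min_le_left _ _))
    · exact hδ.trans ((min_le_right _ _).trans (min_le_right _ _))
  exact ⟨fun j => (ha' j).mono (thickening_mono ((hle j).trans (min_le_left _ _)) _)
      (thickening_mono ((hle j).trans (min_le_left _ _)) _),
    fun j => (hb' j).mono (thickening_mono ((hle j).trans ((min_le_right _ _).trans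
      (min_le_left _ _))) _) (thickening_mono ((hle j).trans ((min_le_right _ _).trans
      (min_le_left _ _))) _),
    fun j => (hc' j).mono (thickening_mono ((hle j).trans ((min_le_right _ _).trans
      (min_le_right _ _))) _) (thickening_mono ((hle j).trans ((min_le_right _ _).trans
      (min_le_right _ _))) _)⟩

/-- The vertices within `δ` of `K j`. -/
def thk (X : Set ℂ) (δ : ℝ) (K : ZMod 3 → Set ℂ) (j : ZMod 3) : Set ℂ := X ∩ thickening δ (K j)

theorem subset_curve_left {K G : ZMod 3 → Set ℂ} (j : ZMod 3) : K j ⊆ curve K G :=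
  subset_union_left.trans (subset_iUnion (fun j => K j ∪ G j) j)

theorem subset_curve_right {K G : ZMod 3 → Set ℂ} (j : ZMod 3) : G j ⊆ curve K G :=
  subset_union_right.trans (subset_iUnion (fun j => K j ∪ G j) j)

theorem ring_thk (X : Set ℂ) (δ : ℝ) (K G : ZMod 3 → Set ℂ) :
    ring (thk X δ K) (thk X δ G) = X ∩ thickening δ (curve K G) := by
  ext x
  simp only [ring, thk, mem_iUnion, mem_union, mem_inter_iff]
  constructor
  · rintro ⟨j, ⟨h1, h2⟩ | ⟨h1, h2⟩⟩
    · exact ⟨h1, thickening_subset_of_subset _ (subset_curve_left j) h2⟩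
    · exact ⟨h1, thickening_subset_of_subset _ (subset_curve_right j) h2⟩
  · rintro ⟨h1, h2⟩
    obtain ⟨z, hz, hxz⟩ := mem_thickening_iff.1 h2
    obtain ⟨j, hj⟩ := mem_iUnion.1 hz
    rcases hj with hj | hj
    · exact ⟨j, Or.inl ⟨h1, mem_thickening_iff.2 ⟨z, hj, hxz⟩⟩⟩
    · exact ⟨j, Or.inr ⟨h1, mem_thickening_iff.2 ⟨z, hj, hxz⟩⟩⟩

/-- **The necklace of a dense configuration.** -/
theorem Geo.necklace {K G : ZMod 3 → Set ℂ} (h : Geo K G) {δ : ℝ} (hδ : 0 < δ) (hs : Sep δ K G)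
    {X : Set ℂ} (hX : X.Finite) (hnet : ∀ z ∈ curve K G, ∃ x ∈ X, dist x z < δ / 2) :
    Necklace X (thk X δ K) (thk X δ G) where
  connA j := connIn_thickening hX (h.pK j) hδ fun z hz => hnet z (subset_curve_left j hz)
  connC j := connIn_thickening hX (h.pG j) hδ fun z hz => hnet z (subset_curve_right j hz)
  AA j := (hs.KK j).mono inter_subset_right inter_subset_right
  CC j := (hs.GG j).mono inter_subset_right inter_subset_right
  left j := by
    obtain ⟨z, hz, hz'⟩ := h.left j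
    obtain ⟨x, hx, hxz⟩ := hnet z (subset_curve_left j hz)
    exact ⟨x, ⟨hx, mem_thickening_iff.2 ⟨z, hz, by linarith⟩⟩,
      ⟨hx, mem_thickening_iff.2 ⟨z, hz', by linarith⟩⟩⟩
  right j := by
    obtain ⟨z, hz, hz'⟩ := h.right j
    obtain ⟨x, hx, hxz⟩ := hnet z (subset_curve_left (j + 1) hz)
    exact ⟨x, ⟨hx, mem_thickening_iff.2 ⟨z, hz, by linarith⟩⟩,
      ⟨hx, mem_thickening_iff.2 ⟨z, hz', by linarith⟩⟩⟩
  opp j := (hs.opp j).mono inter_subset_right inter_subset_right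

theorem inter_frontier_nonempty {s t : Set ℂ} (ht : IsPreconnected t) (h1 : (t ∩ s).Nonempty)
    (h2 : (t ∩ sᶜ).Nonempty) : (t ∩ frontier s).Nonempty := by
  by_contra hcon
  rw [not_nonempty_iff_eq_empty] at hcon
  have hf : ∀ x ∈ t, x ∉ frontier s := fun x hx hxf => by
    have : x ∈ t ∩ frontier s := ⟨hx, hxf⟩
    rw [hcon] at this
    exact this
  have hin : ∀ x ∈ t, x ∈ s → x ∈ interior s := fun x hx hxs => by
    by_contra hn
    exact hf x hx ⟨subset_closure hxs, hn⟩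
  have hout : ∀ x ∈ t, x ∉ s → x ∈ (closure s)ᶜ := fun x hx hxs hxc =>
    hf x hx ⟨hxc, fun hn => hxs (interior_subset hn)⟩
  obtain ⟨a, hat, has⟩ := h1
  obtain ⟨c, hct, hcs⟩ := h2
  obtain ⟨x, -, hx1, hx2⟩ := ht (interior s) (closure s)ᶜ isOpen_interior
    isClosed_closure.isOpen_compl (fun x hx => by
      by_cases hxs : x ∈ s
      · exact Or.inl (hin x hx hxs)
      · exact Or.inr (hout x hx hxs)) ⟨a, hat, hin a hat has⟩ ⟨c, hct, hout c hct hcs⟩
  exact hx2 (subset_closure (interior_subset hx1))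

/-- The interior does not leave a region whose frontier is on the curve. -/
theorem inn_subset {K G : ZMod 3 → Set ℂ} {X : Set ℂ} {δ : ℝ} {U : Set ℂ}
    (hU : frontier U ⊆ curve K G) (hsh : ∀ u v, nbr X u v → u ∈ U → dist u v < δ) {i₀ : ℂ}
    (hi : i₀ ∈ U) : inn X (thk X δ K) (thk X δ G) i₀ ⊆ U := by
  rintro x ⟨-, hx⟩
  rw [ring_thk] at hx
  induction hx with
  | refl => exact hi
  | tail _ hac ih =>
    rename_i a c _
    obtain ⟨hnb, ha, -⟩ := hac
    by_contra hc
    have hseg : IsPreconnected (segment ℝ a c) := (convex_segment a c).isPreconnected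
    obtain ⟨z, hz, hzf⟩ := inter_frontier_nonempty hseg ⟨a, left_mem_segment ℝ a c, ih⟩
      ⟨c, right_mem_segment ℝ a c, hc⟩
    refine ha.2 ⟨ha.1, mem_thickening_iff.2 ⟨z, hU hzf, ?_⟩⟩
    have h1 : dist a z ≤ dist a c := by
      obtain ⟨t, ht, rfl⟩ := (segment_eq_image_lineMap ℝ a c) ▸ hz
      rw [dist_left_lineMap, Real.norm_of_nonneg ht.1]
      exact mul_le_of_le_one_left dist_nonneg ht.2
    exact h1.trans_lt (hsh a c hnb ih)

/-- Connected sets away from the curve are in the interior. -/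
theorem subset_inn {K G : ZMod 3 → Set ℂ} {X : Set ℂ} (hX : X.Finite) {δ δ' : ℝ} (hδ' : 0 < δ')
    {F : Set ℂ} (hF : IsPreconnected F) (hnet : ∀ z ∈ F, ∃ x ∈ X, dist x z < δ' / 2)
    (hd : Disjoint (thickening δ' F) (thickening δ (curve K G))) {i₀ : ℂ}
    (hi : i₀ ∈ X ∩ thickening δ' F) :
    X ∩ thickening δ' F ⊆ inn X (thk X δ K) (thk X δ G) i₀ := by
  have hsub : X ∩ thickening δ' F ⊆ X \ ring (thk X δ K) (thk X δ G) := by
    rintro x ⟨hx, hx'⟩
    refine ⟨hx, fun h => ?_⟩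
    rw [ring_thk] at h
    exact Set.disjoint_left.1 hd hx' h.2
  exact (connIn_thickening hX hF hδ' hnet).subset_comp hsub hi (mem_comp_self (hsub hi))

/-- Edges are short where the configuration is dense. -/
theorem edge_short {X : Set ℂ} {ρ : ℝ} (hρ : 0 < ρ) {u v : ℂ}
    (hnet : ∀ z ∈ closedBall u (2 * ρ), ∃ x ∈ X, dist z x ≤ ρ) (huv : nbr X u v) :
    dist u v ≤ 2 * ρ := by
  obtain ⟨hu, hv, -, z, hzu, hzv⟩ := huv
  have key : dist z u ≤ ρ := by
    by_contra hcon
    push Not at hcon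
    set r := dist z u with hr
    set s := min r (2 * ρ) with hs
    have hs1 : ρ < s := lt_min hcon (by linarith)
    have hr0 : 0 < r := hρ.trans hcon
    set z' : ℂ := AffineMap.lineMap u z (s / r) with hz'
    have ht0 : 0 ≤ s / r := div_nonneg (hρ.le.trans hs1.le) hr0.le
    have ht1 : s / r ≤ 1 := (div_le_one hr0).2 (min_le_left _ _)
    have hd : dist z' u = s := by
      rw [hz', dist_lineMap_left, Real.norm_of_nonneg ht0, dist_comm u z, ← hr]
      exact div_mul_cancel₀ s hr0.ne'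
    have hmem : z' ∈ vcell X u := by
      have hc := convex_vcell X u
      have h1 : u ∈ vcell X u := fun w _ => by rw [dist_self]; exact dist_nonneg
      have h2 : z' ∈ segment ℝ u z := by
        rw [segment_eq_image_lineMap]
        exact ⟨s / r, ⟨ht0, ht1⟩, rfl⟩
      exact hc.segment_subset h1 hzu h2
    obtain ⟨x, hx, hxz⟩ := hnet z' (by rw [mem_closedBall, hd]; exact min_le_right _ _)
    have := hmem x hx
    rw [hd] at this
    linarith
  have h2 : dist z v ≤ ρ := (hzv u hu).trans key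
  have h3 := dist_triangle_left u v z
  linarith

end Vale.Agent.P148.R2.H592
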