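import Vale.Agent.P148.R2.H592.Dom4
import Vale.Agent.P148.Defs

/-!
# P148, module B2J, part 5: the continuum data of a Jordan quad
-/

open Set Metric Topology Filter

namespace Vale.Agent.P148.R2.H592

open _root_.P148

/-- The sup norm of the plane. -/
noncomputable def nrm (w : ℂ) : ℝ := max |w.re| |w.im|

theorem continuous_nrm : Continuous nrm :=
  (Complex.continuous_re.abs).max (Complex.continuous_im.abs)

theorem nrm_nonneg (w : ℂ) : 0 ≤ nrm w := (abs_nonneg _).trans (le_max_left _ _)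

theorem nrm_smul {s : ℝ} (hs : 0 ≤ s) (w : ℂ) : nrm ((s : ℂ) * w) = s * nrm w := by
  unfold nrm
  rw [Complex.re_ofReal_mul, Complex.im_ofReal_mul, abs_mul, abs_mul, abs_of_nonneg hs,
    mul_max_of_nonneg _ _ hs]

theorem re_le_nrm (w : ℂ) : |w.re| ≤ nrm w := le_max_left _ _

theorem im_le_nrm (w : ℂ) : |w.im| ≤ nrm w := le_max_right _ _

theorem norm_le_nrm (w : ℂ) : ‖w‖ ≤ 2 * nrm w := by
  have h1 := Complex.norm_le_abs_re_add_abs_im w
  have h2 := re_le_nrm w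
  have h3 := im_le_nrm w
  linarith

/-- A closed rectangle, possibly degenerate. -/
def box (a b c d : ℝ) : Set ℂ := {w | a ≤ w.re ∧ w.re ≤ b ∧ c ≤ w.im ∧ w.im ≤ d}

theorem box_eq (a b c d : ℝ) : box a b c d = Icc a b ×ℂ Icc c d := by
  ext w
  simp only [box, mem_ofPred_eq, Complex.mem_reProdIm, mem_Icc, and_assoc]

theorem isCompact_box (a b c d : ℝ) : IsCompact (box a b c d) := by
  rw [box_eq]
  exact isCompact_Icc.reProdIm isCompact_Icc

theorem isPreconnected_box (a b c d : ℝ) : IsPreconnected (box a b c d) := by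
  apply Convex.isPreconnected
  intro x hx y hy s t hs ht hst
  obtain ⟨h1, h2, h3, h4⟩ := hx
  obtain ⟨g1, g2, g3, g4⟩ := hy
  have e1 : (s • x + t • y).re = s * x.re + t * y.re := by simp
  have e2 : (s • x + t • y).im = s * x.im + t * y.im := by simp
  have hst' : s = 1 - t := by linarith
  subst hst'
  refine ⟨?_, ?_, ?_, ?_⟩
  · rw [e1]; nlinarith
  · rw [e1]; nlinarith
  · rw [e2]; nlinarith
  · rw [e2]; nlinarith

/-- The three shrunk arcs of the boundary of the square, in the order `arc 0 ∪ arc 1`, `arc 2`,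
`arc 3`. -/
def arcA (t : ℝ) (j : ZMod 3) : Set ℂ :=
  match j with
  | 0 => box (-1 + t) 1 (-1) (-1) ∪ box 1 1 (-1) (1 - t)
  | 1 => box (-1 + t) (1 - t) 1 1
  | 2 => box (-1) (-1) (-1 + t) (1 - t)

/-- The corner arcs: `arcC t j` joins `arcA t j` to `arcA t (j + 1)`. -/
def arcC (t : ℝ) (j : ZMod 3) : Set ℂ :=
  match j with
  | 0 => box 1 1 (1 - t) 1 ∪ box (1 - t) 1 1 1
  | 1 => box (-1) (-1 + t) 1 1 ∪ box (-1) (-1) (1 - t) 1
  | 2 => box (-1) (-1) (-1) (-1 + t) ∪ box (-1) (-1 + t) (-1) (-1)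

theorem z3_all {P : ZMod 3 → Prop} (h0 : P 0) (h1 : P 1) (h2 : P 2) (j : ZMod 3) : P j := by
  have hj : j = 0 ∨ j = 1 ∨ j = 2 := by revert j; decide
  rcases hj with rfl | rfl | rfl
  · exact h0
  · exact h1
  · exact h2

theorem isCompact_arcA (t : ℝ) (j : ZMod 3) : IsCompact (arcA t j) :=
  z3_all (P := fun j => IsCompact (arcA t j)) ((isCompact_box _ _ _ _).union (isCompact_box _ _ _ _))
    (isCompact_box _ _ _ _) (isCompact_box _ _ _ _) j

theorem isCompact_arcC (t : ℝ) (j : ZMod 3) : IsCompact (arcC t j) :=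
  z3_all (P := fun j => IsCompact (arcC t j)) ((isCompact_box _ _ _ _).union (isCompact_box _ _ _ _))
    ((isCompact_box _ _ _ _).union (isCompact_box _ _ _ _))
    ((isCompact_box _ _ _ _).union (isCompact_box _ _ _ _)) j

theorem pre_union {s t : Set ℂ} (p : ℂ) (hs : p ∈ s) (ht : p ∈ t) (h1 : IsPreconnected s)
    (h2 : IsPreconnected t) : IsPreconnected (s ∪ t) := h1.union p hs ht h2

theorem isPreconnected_arcA {t : ℝ} (h0 : 0 < t) (h1 : t < 1) (j : ZMod 3) :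
    IsPreconnected (arcA t j) := by
  refine z3_all (P := fun j => IsPreconnected (arcA t j)) ?_ (isPreconnected_box _ _ _ _)
    (isPreconnected_box _ _ _ _) j
  refine pre_union ⟨1, -1⟩ ?_ ?_ (isPreconnected_box _ _ _ _) (isPreconnected_box _ _ _ _)
  · exact ⟨by linarith, le_rfl, le_rfl, le_rfl⟩
  · exact ⟨le_rfl, le_rfl, le_rfl, by simp only; linarith⟩

theorem isPreconnected_arcC {t : ℝ} (h0 : 0 < t) (h1 : t < 1) (j : ZMod 3) :
    IsPreconnected (arcC t j) := by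
  refine z3_all (P := fun j => IsPreconnected (arcC t j)) ?_ ?_ ?_ j
  · refine pre_union ⟨1, 1⟩ ?_ ?_ (isPreconnected_box _ _ _ _) (isPreconnected_box _ _ _ _)
    · exact ⟨le_rfl, le_rfl, by simp only; linarith, le_rfl⟩
    · exact ⟨by simp only; linarith, le_rfl, le_rfl, le_rfl⟩
  · refine pre_union ⟨-1, 1⟩ ?_ ?_ (isPreconnected_box _ _ _ _) (isPreconnected_box _ _ _ _)
    · exact ⟨le_rfl, by simp only; linarith, le_rfl, le_rfl⟩
    · exact ⟨le_rfl, le_rfl, by simp only; linarith, le_rfl⟩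
  · refine pre_union ⟨-1, -1⟩ ?_ ?_ (isPreconnected_box _ _ _ _) (isPreconnected_box _ _ _ _)
    · exact ⟨le_rfl, le_rfl, le_rfl, by simp only; linarith⟩
    · exact ⟨le_rfl, by simp only; linarith, le_rfl, le_rfl⟩

theorem nrm_eq_one {w : ℂ} (h1 : |w.re| ≤ 1) (h2 : |w.im| ≤ 1) (h3 : |w.re| = 1 ∨ |w.im| = 1) :
    nrm w = 1 := by
  unfold nrm
  rcases h3 with h3 | h3
  · rw [h3]; exact max_eq_left h2
  · rw [h3]; exact max_eq_right h1

theorem nrm_arcA {t : ℝ} (h0 : 0 < t) (h1 : t < 1) (j : ZMod 3) : ∀ w ∈ arcA t j, nrm w = 1 := by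
  refine z3_all (P := fun j => ∀ w ∈ arcA t j, nrm w = 1) ?_ ?_ ?_ j
  · rintro w (⟨a, b, c, d⟩ | ⟨a, b, c, d⟩)
    · have e : w.im = -1 := le_antisymm d c
      exact nrm_eq_one (abs_le.2 ⟨by linarith, b⟩) (by rw [e]; norm_num) (Or.inr (by rw [e]; norm_num))
    · have e : w.re = 1 := le_antisymm b a
      exact nrm_eq_one (by rw [e]; norm_num) (abs_le.2 ⟨c, by linarith⟩) (Or.inl (by rw [e]; norm_num))
  · rintro w ⟨a, b, c, d⟩
    have e : w.im = 1 := le_antisymm d c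
    exact nrm_eq_one (abs_le.2 ⟨by linarith, by linarith⟩) (by rw [e]; norm_num)
      (Or.inr (by rw [e]; norm_num))
  · rintro w ⟨a, b, c, d⟩
    have e : w.re = -1 := le_antisymm b a
    exact nrm_eq_one (by rw [e]; norm_num) (abs_le.2 ⟨by linarith, by linarith⟩)
      (Or.inl (by rw [e]; norm_num))

theorem nrm_arcC {t : ℝ} (h0 : 0 < t) (h1 : t < 1) (j : ZMod 3) : ∀ w ∈ arcC t j, nrm w = 1 := by
  refine z3_all (P := fun j => ∀ w ∈ arcC t j, nrm w = 1) ?_ ?_ ?_ j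
  · rintro w (⟨a, b, c, d⟩ | ⟨a, b, c, d⟩)
    · have e : w.re = 1 := le_antisymm b a
      exact nrm_eq_one (by rw [e]; norm_num) (abs_le.2 ⟨by linarith, by linarith⟩)
        (Or.inl (by rw [e]; norm_num))
    · have e : w.im = 1 := le_antisymm d c
      exact nrm_eq_one (abs_le.2 ⟨by linarith, by linarith⟩) (by rw [e]; norm_num)
        (Or.inr (by rw [e]; norm_num))
  · rintro w (⟨a, b, c, d⟩ | ⟨a, b, c, d⟩)
    · have e : w.im = 1 := le_antisymm d c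
      exact nrm_eq_one (abs_le.2 ⟨by linarith, by linarith⟩) (by rw [e]; norm_num)
        (Or.inr (by rw [e]; norm_num))
    · have e : w.re = -1 := le_antisymm b a
      exact nrm_eq_one (by rw [e]; norm_num) (abs_le.2 ⟨by linarith, by linarith⟩)
        (Or.inl (by rw [e]; norm_num))
  · rintro w (⟨a, b, c, d⟩ | ⟨a, b, c, d⟩)
    · have e : w.re = -1 := le_antisymm b a
      exact nrm_eq_one (by rw [e]; norm_num) (abs_le.2 ⟨by linarith, by linarith⟩)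
        (Or.inl (by rw [e]; norm_num))
    · have e : w.im = -1 := le_antisymm d c
      exact nrm_eq_one (abs_le.2 ⟨by linarith, by linarith⟩) (by rw [e]; norm_num)
        (Or.inr (by rw [e]; norm_num))

theorem arcAA {t : ℝ} (h0 : 0 < t) (h1 : t < 1) (j : ZMod 3) :
    Disjoint (arcA t j) (arcA t (j + 1)) := by
  refine z3_all (P := fun j => Disjoint (arcA t j) (arcA t (j + 1))) ?_ ?_ ?_ j
  · rw [Set.disjoint_left]
    rintro w (⟨a, b, c, d⟩ | ⟨a, b, c, d⟩) ⟨a', b', c', d'⟩ <;> linarith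
  · rw [Set.disjoint_left]
    rintro w ⟨a, b, c, d⟩ ⟨a', b', c', d'⟩
    linarith
  · rw [Set.disjoint_left]
    rintro w ⟨a, b, c, d⟩ (⟨a', b', c', d'⟩ | ⟨a', b', c', d'⟩) <;> linarith

theorem arcCC {t : ℝ} (h0 : 0 < t) (h1 : t < 1) (j : ZMod 3) :
    Disjoint (arcC t j) (arcC t (j + 1)) := by
  refine z3_all (P := fun j => Disjoint (arcC t j) (arcC t (j + 1))) ?_ ?_ ?_ j
  · rw [Set.disjoint_left]
    rintro w (⟨a, b, c, d⟩ | ⟨a, b, c, d⟩) (⟨a', b', c', d'⟩ | ⟨a', b', c', d'⟩) <;> linarith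
  · rw [Set.disjoint_left]
    rintro w (⟨a, b, c, d⟩ | ⟨a, b, c, d⟩) (⟨a', b', c', d'⟩ | ⟨a', b', c', d'⟩) <;> linarith
  · rw [Set.disjoint_left]
    rintro w (⟨a, b, c, d⟩ | ⟨a, b, c, d⟩) (⟨a', b', c', d'⟩ | ⟨a', b', c', d'⟩) <;> linarith

theorem arcAC {t : ℝ} (h0 : 0 < t) (h1 : t < 1) (j : ZMod 3) :
    Disjoint (arcA t (j + 2)) (arcC t j) := by
  refine z3_all (P := fun j => Disjoint (arcA t (j + 2)) (arcC t j)) ?_ ?_ ?_ j
  · rw [Set.disjoint_left]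
    rintro w ⟨a, b, c, d⟩ (⟨a', b', c', d'⟩ | ⟨a', b', c', d'⟩) <;> linarith
  · rw [Set.disjoint_left]
    rintro w (⟨a, b, c, d⟩ | ⟨a, b, c, d⟩) (⟨a', b', c', d'⟩ | ⟨a', b', c', d'⟩) <;> linarith
  · rw [Set.disjoint_left]
    rintro w ⟨a, b, c, d⟩ (⟨a', b', c', d'⟩ | ⟨a', b', c', d'⟩) <;> linarith

/-- The point where a corner arc meets the preceding arc. -/
theorem arc_left {t : ℝ} (h0 : 0 < t) (h1 : t < 1) (j : ZMod 3) :
    (arcA t j ∩ arcC t j).Nonempty := by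
  refine z3_all (P := fun j => (arcA t j ∩ arcC t j).Nonempty) ?_ ?_ ?_ j
  · exact ⟨⟨1, 1 - t⟩, Or.inr ⟨le_rfl, le_rfl, by simp only; linarith, le_rfl⟩,
      Or.inl ⟨le_rfl, le_rfl, le_rfl, by simp only; linarith⟩⟩
  · exact ⟨⟨-1 + t, 1⟩, ⟨le_rfl, by simp only; linarith, le_rfl, le_rfl⟩,
      Or.inl ⟨by simp only; linarith, le_rfl, le_rfl, le_rfl⟩⟩
  · exact ⟨⟨-1, -1 + t⟩, ⟨le_rfl, le_rfl, le_rfl, by simp only; linarith⟩,
      Or.inl ⟨le_rfl, le_rfl, by simp only; linarith, le_rfl⟩⟩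

theorem arc_right {t : ℝ} (h0 : 0 < t) (h1 : t < 1) (j : ZMod 3) :
    (arcA t (j + 1) ∩ arcC t j).Nonempty := by
  refine z3_all (P := fun j => (arcA t (j + 1) ∩ arcC t j).Nonempty) ?_ ?_ ?_ j
  · exact ⟨⟨1 - t, 1⟩, ⟨by simp only; linarith, le_rfl, le_rfl, le_rfl⟩,
      Or.inr ⟨le_rfl, by simp only; linarith, le_rfl, le_rfl⟩⟩
  · exact ⟨⟨-1, 1 - t⟩, ⟨le_rfl, le_rfl, by simp only; linarith, le_rfl⟩,
      Or.inr ⟨le_rfl, le_rfl, le_rfl, by simp only; linarith⟩⟩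
  · exact ⟨⟨-1 + t, -1⟩, Or.inl ⟨le_rfl, by simp only; linarith, le_rfl, le_rfl⟩,
      Or.inr ⟨by simp only; linarith, le_rfl, le_rfl, le_rfl⟩⟩

/-- The arcs cover the boundary of the square. -/
theorem arc_cover {t : ℝ} (h0 : 0 < t) (h1 : t < 1) {w : ℂ} (hw : nrm w = 1) :
    ∃ j, w ∈ arcA t j ∪ arcC t j := by
  have h2 : |w.re| ≤ 1 := hw ▸ re_le_nrm w
  have h3 : |w.im| ≤ 1 := hw ▸ im_le_nrm w
  obtain ⟨a1, a2⟩ := abs_le.1 h2
  obtain ⟨b1, b2⟩ := abs_le.1 h3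
  have h4 : |w.re| = 1 ∨ |w.im| = 1 := by
    unfold nrm at hw
    rcases max_choice |w.re| |w.im| with h | h
    · exact Or.inl (h ▸ hw)
    · exact Or.inr (h ▸ hw)
  have h5 : w.re = 1 ∨ w.re = -1 ∨ w.im = 1 ∨ w.im = -1 := by
    rcases h4 with h | h
    · rcases eq_or_eq_neg_of_abs_eq h with h | h
      · exact Or.inl h
      · exact Or.inr (Or.inl h)
    · rcases eq_or_eq_neg_of_abs_eq h with h | h
      · exact Or.inr (Or.inr (Or.inl h))
      · exact Or.inr (Or.inr (Or.inr h))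
  rcases h5 with h | h | h | h
  · by_cases h6 : w.im ≤ 1 - t
    · exact ⟨0, Or.inl (Or.inr ⟨h.ge, h.le, b1, h6⟩)⟩
    · exact ⟨0, Or.inr (Or.inl ⟨h.ge, h.le, (not_le.1 h6).le, b2⟩)⟩
  · by_cases h6 : w.im ≤ 1 - t
    · by_cases h7 : -1 + t ≤ w.im
      · exact ⟨2, Or.inl ⟨h.ge, h.le, h7, h6⟩⟩
      · exact ⟨2, Or.inr (Or.inl ⟨h.ge, h.le, b1, (not_le.1 h7).le⟩)⟩
    · exact ⟨1, Or.inr (Or.inr ⟨h.ge, h.le, (not_le.1 h6).le, b2⟩)⟩
  · by_cases h6 : w.re ≤ 1 - t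
    · by_cases h7 : -1 + t ≤ w.re
      · exact ⟨1, Or.inl ⟨h7, h6, h.ge, h.le⟩⟩
      · exact ⟨1, Or.inr (Or.inl ⟨a1, (not_le.1 h7).le, h.ge, h.le⟩)⟩
    · exact ⟨0, Or.inr (Or.inr ⟨(not_le.1 h6).le, a2, h.ge, h.le⟩)⟩
  · by_cases h7 : -1 + t ≤ w.re
    · exact ⟨0, Or.inl (Or.inl ⟨h7, a2, h.ge, h.le⟩)⟩
    · exact ⟨2, Or.inr (Or.inr ⟨a1, (not_le.1 h7).le, h.ge, h.le⟩)⟩

/-- The collar over a set of boundary points of the square. -/
def cone (e : ℝ) (A : Set ℂ) : Set ℂ := (fun p : ℝ × ℂ => (p.1 : ℂ) * p.2) '' (Icc 1 (1 + e) ×ˢ A)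

/-- The outer end of the collar. -/
def outer (e : ℝ) (A : Set ℂ) : Set ℂ := (fun a : ℂ => ((1 + e : ℝ) : ℂ) * a) '' A

theorem continuous_smul' : Continuous fun p : ℝ × ℂ => (p.1 : ℂ) * p.2 :=
  (Complex.continuous_ofReal.comp continuous_fst).mul continuous_snd

theorem cone_disj {e : ℝ} {A B : Set ℂ} (hA : ∀ w ∈ A, nrm w = 1) (hB : ∀ w ∈ B, nrm w = 1)
    (hd : Disjoint A B) : Disjoint (cone e A) (cone e B) := by
  rw [Set.disjoint_left]
  rintro _ ⟨⟨s, a⟩, ⟨hs, ha⟩, rfl⟩ ⟨⟨s', a'⟩, ⟨hs', ha'⟩, h⟩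
  simp only at h hs hs' ha ha'
  have hs0 : 0 < s := lt_of_lt_of_le one_pos hs.1
  have hs0' : 0 < s' := lt_of_lt_of_le one_pos hs'.1
  have e1 : s' = s := by
    have := congrArg nrm h
    rwa [nrm_smul hs0'.le, nrm_smul hs0.le, hA a ha, hB a' ha', mul_one, mul_one] at this
  subst e1
  have e2 : a' = a := mul_left_cancel₀ (by exact_mod_cast hs0.ne') h
  rw [e2] at ha'
  exact Set.disjoint_left.1 hd ha ha'

theorem outer_subset_cone {e : ℝ} (he : 0 ≤ e) (A : Set ℂ) : outer e A ⊆ cone e A := by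
  rintro _ ⟨a, ha, rfl⟩
  exact ⟨(1 + e, a), ⟨⟨by linarith, le_rfl⟩, ha⟩, rfl⟩

variable (Q : Quad)

/-- The collars outside the arcs. -/
def KQ (t e : ℝ) (j : ZMod 3) : Set ℂ := Q.H '' cone e (arcA t j)

/-- The joints outside the corners. -/
def GQ (t e : ℝ) (j : ZMod 3) : Set ℂ := Q.H '' outer e (arcC t j)

/-- **The continuum data of a Jordan quad.** -/
theorem geoQ {t e : ℝ} (h0 : 0 < t) (h1 : t < 1) (he : 0 < e) : Geo (KQ Q t e) (GQ Q t e) where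
  cK j := (((isCompact_Icc.prod (isCompact_arcA t j)).image continuous_smul').image
    Q.H.continuous)
  cG j := ((isCompact_arcC t j).image (continuous_const.mul continuous_id)).image Q.H.continuous
  pK j := ((isPreconnected_Icc.prod (isPreconnected_arcA h0 h1 j)).image _
    continuous_smul'.continuousOn).image _ Q.H.continuous.continuousOn
  pG j := ((isPreconnected_arcC h0 h1 j).image _ (continuous_const.mul
    continuous_id).continuousOn).image _ Q.H.continuous.continuousOn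
  KK j := (disjoint_image_iff Q.H.injective).2 (cone_disj (nrm_arcA h0 h1 j)
    (nrm_arcA h0 h1 (j + 1)) (arcAA h0 h1 j))
  GG j := (disjoint_image_iff Q.H.injective).2 ((cone_disj (nrm_arcC h0 h1 j)
    (nrm_arcC h0 h1 (j + 1)) (arcCC h0 h1 j)).mono (outer_subset_cone he.le _)
    (outer_subset_cone he.le _))
  left j := by
    obtain ⟨a, ha, ha'⟩ := arc_left h0 h1 j
    exact ⟨Q.H (((1 + e : ℝ) : ℂ) * a), ⟨_, outer_subset_cone he.le _ ⟨a, ha, rfl⟩, rfl⟩,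
      ⟨_, ⟨a, ha', rfl⟩, rfl⟩⟩
  right j := by
    obtain ⟨a, ha, ha'⟩ := arc_right h0 h1 j
    exact ⟨Q.H (((1 + e : ℝ) : ℂ) * a), ⟨_, outer_subset_cone he.le _ ⟨a, ha, rfl⟩, rfl⟩,
      ⟨_, ⟨a, ha', rfl⟩, rfl⟩⟩
  opp j := (disjoint_image_iff Q.H.injective).2 ((cone_disj (nrm_arcA h0 h1 (j + 2))
    (nrm_arcC h0 h1 j) (arcAC h0 h1 j)).mono subset_rfl (outer_subset_cone he.le _))

/-- The region inside the outer curve, without the collars. -/
def UQ (t e : ℝ) : Set ℂ := Q.H '' {w | nrm w < 1 + e} \ ⋃ j, KQ Q t e j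

theorem frontier_UQ {t e : ℝ} (h0 : 0 < t) (h1 : t < 1) (he : 0 < e) :
    frontier (UQ Q t e) ⊆ curve (KQ Q t e) (GQ Q t e) := by
  have hopen : IsOpen {w : ℂ | nrm w < 1 + e} := isOpen_lt continuous_nrm continuous_const
  have hcK : IsClosed (⋃ j, KQ Q t e j) := isClosed_iUnion_of_finite fun j =>
    ((geoQ Q h0 h1 he).cK j).isClosed
  have hU : IsOpen (UQ Q t e) := (Q.H.isOpenMap _ hopen).sdiff hcK
  intro x hx
  rw [hU.frontier_eq] at hx
  obtain ⟨hxc, hxn⟩ := hx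
  by_cases hxK : x ∈ ⋃ j, KQ Q t e j
  · obtain ⟨j, hj⟩ := mem_iUnion.1 hxK
    exact subset_curve_left j hj
  have hx1 : x ∉ Q.H '' {w | nrm w < 1 + e} := fun h => hxn ⟨h, hxK⟩
  have hx2 : x ∈ closure (Q.H '' {w | nrm w < 1 + e}) := closure_mono sdiff_subset hxc
  rw [← Q.H.image_closure] at hx2
  obtain ⟨w, hw, rfl⟩ := hx2
  have hw1 : nrm w ≤ 1 + e := by
    have : closure {w : ℂ | nrm w < 1 + e} ⊆ {w | nrm w ≤ 1 + e} :=
      closure_lt_subset_le continuous_nrm continuous_const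
    exact this hw
  have hw2 : nrm w = 1 + e := by
    refine le_antisymm hw1 ?_
    by_contra hlt
    exact hx1 ⟨w, not_le.1 hlt, rfl⟩
  have he1 : (0 : ℝ) < 1 + e := by linarith
  set a : ℂ := ((1 / (1 + e) : ℝ) : ℂ) * w with ha
  have ha1 : nrm a = 1 := by
    rw [ha, nrm_smul (by positivity), hw2]
    field_simp
  have hwa : w = ((1 + e : ℝ) : ℂ) * a := by
    rw [ha, ← mul_assoc, ← Complex.ofReal_mul, mul_one_div_cancel he1.ne', Complex.ofReal_one,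
      one_mul]
  obtain ⟨j, hj | hj⟩ := arc_cover h0 h1 ha1
  · exact subset_curve_left j ⟨w, outer_subset_cone he.le _ ⟨a, hj, hwa.symm⟩, rfl⟩
  · exact subset_curve_right j ⟨w, ⟨a, hj, hwa.symm⟩, rfl⟩

/-- The inner compact sets. -/
def FQ (s : ℝ) : Set ℂ := Q.H '' {w | nrm w ≤ s}

theorem isCompact_FQ (s : ℝ) : IsCompact (FQ Q s) := by
  refine IsCompact.image ?_ Q.H.continuous
  refine Metric.isCompact_of_isClosed_isBounded (isClosed_le continuous_nrm continuous_const) ?_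
  refine (Metric.isBounded_closedBall (x := (0 : ℂ)) (r := 2 * s)).subset fun w hw => ?_
  rw [mem_closedBall, dist_zero_right]
  have := norm_le_nrm w
  have hw' : nrm w ≤ s := hw
  linarith

theorem isPreconnected_FQ {s : ℝ} : IsPreconnected (FQ Q s) := by
  refine IsPreconnected.image ?_ _ Q.H.continuous.continuousOn
  have : {w : ℂ | nrm w ≤ s} = box (-s) s (-s) s := by
    ext w
    simp only [mem_ofPred_eq, nrm, max_le_iff, abs_le, box, and_assoc]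
  rw [this]
  exact isPreconnected_box _ _ _ _

theorem nrm_curve {t e : ℝ} (h0 : 0 < t) (h1 : t < 1) (he : 0 < e) :
    curve (KQ Q t e) (GQ Q t e) ⊆ Q.H '' {w | 1 ≤ nrm w ∧ nrm w ≤ 1 + e} := by
  intro x hx
  obtain ⟨j, hj⟩ := mem_iUnion.1 hx
  have key : ∀ A : Set ℂ, (∀ w ∈ A, nrm w = 1) → ∀ w ∈ cone e A, 1 ≤ nrm w ∧ nrm w ≤ 1 + e := by
    rintro A hA _ ⟨⟨s, a⟩, ⟨hs, ha⟩, rfl⟩
    simp only at hs ha ⊢
    rw [nrm_smul (by linarith [hs.1]), hA a ha, mul_one]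
    exact hs
  rcases hj with ⟨w, hw, rfl⟩ | ⟨w, hw, rfl⟩
  · exact ⟨w, key _ (nrm_arcA h0 h1 j) w hw, rfl⟩
  · exact ⟨w, key _ (nrm_arcC h0 h1 j) w (outer_subset_cone he.le _ hw), rfl⟩

theorem FQ_disj_curve {t e s : ℝ} (h0 : 0 < t) (h1 : t < 1) (he : 0 < e) (hs : s < 1) :
    ∃ δ > 0, Disjoint (thickening δ (FQ Q s)) (thickening δ (curve (KQ Q t e) (GQ Q t e))) := by
  have hd : Disjoint (FQ Q s) (curve (KQ Q t e) (GQ Q t e)) := by
    rw [Set.disjoint_left]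
    rintro _ ⟨w, hw, rfl⟩ hx
    obtain ⟨w', ⟨h2, -⟩, hww⟩ := nrm_curve Q h0 h1 he hx
    have := Q.H.injective hww
    rw [this] at h2
    have hw' : nrm w ≤ s := hw
    linarith
  have hc : IsClosed (curve (KQ Q t e) (GQ Q t e)) := isClosed_iUnion_of_finite fun j =>
    (((geoQ Q h0 h1 he).cK j).isClosed).union (((geoQ Q h0 h1 he).cG j).isClosed)
  exact hd.exists_thickenings (isCompact_FQ Q s) hc

end Vale.Agent.P148.R2.H592
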