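import Vale.Agent.P148.R2.H592.Dom5
import Vale.Agent.P148.Asm1

/-!
# P148, module B2J, part 6: the discrete three-arc domain of a Jordan quad
-/

open Set Metric Topology Filter

namespace Vale.Agent.P148.R2.H592

open _root_.P148

/-- The three arcs of a quad: `arc 0 ∪ arc 1`, `arc 2`, `arc 3`. -/
def arcQ (Q : Quad) (j : ZMod 3) : Set ℂ :=
  match j with
  | 0 => Q.arc 0 ∪ Q.arc 1
  | 1 => Q.arc 2
  | 2 => Q.arc 3

/-- The sides of the square below the three arcs. -/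
def sideA (j : ZMod 3) : Set ℂ :=
  match j with
  | 0 => side 0 ∪ side 1
  | 1 => side 2
  | 2 => side 3

theorem arcQ_eq (Q : Quad) (j : ZMod 3) : arcQ Q j = Q.H '' sideA j := by
  refine z3_all (P := fun j => arcQ Q j = Q.H '' sideA j) ?_ rfl rfl j
  show Q.H '' side 0 ∪ Q.H '' side 1 = Q.H '' (side 0 ∪ side 1)
  rw [image_union]

theorem D_eq (Q : Quad) : Q.D = Q.H '' {w | nrm w < 1} := by
  unfold Quad.D
  congr 1
  ext w
  simp only [mem_ofPred_eq, nrm, max_lt_iff]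

theorem arcA_subset {t : ℝ} (h0 : 0 < t) (h1 : t < 1) (j : ZMod 3) : arcA t j ⊆ sideA j := by
  refine z3_all (P := fun j => arcA t j ⊆ sideA j) ?_ ?_ ?_ j
  · rintro w (⟨a, b, c, d⟩ | ⟨a, b, c, d⟩)
    · exact Or.inl ⟨abs_le.2 ⟨by linarith, b⟩, le_antisymm d c⟩
    · exact Or.inr ⟨le_antisymm b a, abs_le.2 ⟨c, by linarith⟩⟩
  · rintro w ⟨a, b, c, d⟩
    exact ⟨abs_le.2 ⟨by linarith, by linarith⟩, le_antisymm d c⟩
  · rintro w ⟨a, b, c, d⟩
    exact ⟨le_antisymm b a, abs_le.2 ⟨by linarith, by linarith⟩⟩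

/-- The corner between the arcs `j` and `j + 1`. -/
noncomputable def cornC (j : ZMod 3) : ℂ :=
  match j with
  | 0 => ⟨1, 1⟩
  | 1 => ⟨-1, 1⟩
  | 2 => ⟨-1, -1⟩

theorem cornC_mem (j : ZMod 3) : cornC j ∈ sideA j := by
  refine z3_all (P := fun j => cornC j ∈ sideA j) ?_ ?_ ?_ j
  · exact Or.inr ⟨rfl, by simp [cornC]⟩
  · exact ⟨by simp [cornC], rfl⟩
  · exact ⟨rfl, by simp [cornC]⟩

theorem cornC_mem' (j : ZMod 3) : cornC (j + 2) ∈ sideA j := by
  refine z3_all (P := fun j => cornC (j + 2) ∈ sideA j) ?_ ?_ ?_ j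
  · exact Or.inl ⟨by show |(-1 : ℝ)| ≤ 1; norm_num, rfl⟩
  · exact ⟨by show |(1 : ℝ)| ≤ 1; norm_num, rfl⟩
  · exact ⟨rfl, by show |(1 : ℝ)| ≤ 1; norm_num⟩

theorem dist_le_coord (w z : ℂ) {c : ℝ} (h1 : |w.re - z.re| ≤ c) (h2 : |w.im - z.im| ≤ c) :
    dist w z ≤ 2 * c := by
  rw [Complex.dist_eq]
  have := Complex.norm_le_abs_re_add_abs_im (w - z)
  rw [Complex.sub_re, Complex.sub_im] at this
  linarith

theorem arcC_near {t : ℝ} (h0 : 0 < t) (j : ZMod 3) : ∀ w ∈ arcC t j, dist w (cornC j) ≤ 2 * t := by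
  refine z3_all (P := fun j => ∀ w ∈ arcC t j, dist w (cornC j) ≤ 2 * t) ?_ ?_ ?_ j
  · rintro w (⟨a, b, c, d⟩ | ⟨a, b, c, d⟩) <;>
    refine dist_le_coord _ _ ?_ ?_ <;> rw [abs_le] <;> constructor <;> simp only [cornC] <;> linarith
  · rintro w (⟨a, b, c, d⟩ | ⟨a, b, c, d⟩) <;>
    refine dist_le_coord _ _ ?_ ?_ <;> rw [abs_le] <;> constructor <;> simp only [cornC] <;> linarith
  · rintro w (⟨a, b, c, d⟩ | ⟨a, b, c, d⟩) <;>
    refine dist_le_coord _ _ ?_ ?_ <;> rw [abs_le] <;> constructor <;> simp only [cornC] <;> linarith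

theorem nrm_sideA (j : ZMod 3) : ∀ w ∈ sideA j, nrm w = 1 := by
  refine z3_all (P := fun j => ∀ w ∈ sideA j, nrm w = 1) ?_ ?_ ?_ j
  · rintro w (⟨a, b⟩ | ⟨a, b⟩)
    · exact nrm_eq_one a (by rw [b]; norm_num) (Or.inr (by rw [b]; norm_num))
    · exact nrm_eq_one (by rw [a]; norm_num) b (Or.inl (by rw [a]; norm_num))
  · rintro w ⟨a, b⟩
    exact nrm_eq_one a (by rw [b]; norm_num) (Or.inr (by rw [b]; norm_num))
  · rintro w ⟨a, b⟩
    exact nrm_eq_one (by rw [a]; norm_num) b (Or.inl (by rw [a]; norm_num))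

variable (Q : Quad)

/-- The points which are `r`-deep in the domain are in a compact set of the family. -/
theorem exists_deep {r : ℝ} (hr : 0 < r) : ∃ s, 0 ≤ s ∧ s < 1 ∧ ∀ x, ball x r ⊆ Q.D → x ∈ FQ Q s := by
  set S : Set ℂ := {x | ball x r ⊆ Q.D} with hS
  have hcl : IsClosed S := by
    rw [← isOpen_compl_iff]
    have : Sᶜ = ⋃ y ∈ (Q.D)ᶜ, ball y r := by
      ext x
      simp only [hS, mem_compl_iff, mem_ofPred_eq, mem_iUnion, not_subset, exists_prop]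
      constructor
      · rintro ⟨y, hy, hyD⟩
        exact ⟨y, hyD, by rw [mem_ball, dist_comm]; exact hy⟩
      · rintro ⟨y, hyD, hy⟩
        exact ⟨y, by rw [mem_ball, dist_comm]; exact hy, hyD⟩
    rw [this]
    exact isOpen_biUnion fun _ _ => isOpen_ball
  have hSD : S ⊆ Q.D := fun x hx => hx (mem_ball_self hr)
  have hD1 : Q.D ⊆ FQ Q 1 := by
    rw [D_eq]
    refine image_mono fun w hw => ?_
    have hw' : nrm w < 1 := hw
    exact hw'.le
  have hc : IsCompact S := (isCompact_FQ Q 1).of_isClosed_subset hcl (hSD.trans hD1)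
  rcases S.eq_empty_or_nonempty with he | hne
  · refine ⟨0, le_rfl, one_pos, fun x hx => ?_⟩
    have : x ∈ S := hx
    rw [he] at this
    exact this.elim
  · obtain ⟨x₀, hx₀, hmax⟩ := hc.exists_isMaxOn hne
      ((continuous_nrm.comp Q.H.symm.continuous).continuousOn)
    have h1 : nrm (Q.H.symm x₀) < 1 := by
      have := hSD hx₀
      rw [D_eq] at this
      obtain ⟨w, hw, rfl⟩ := this
      rw [Q.H.symm_apply_apply]
      exact hw
    refine ⟨nrm (Q.H.symm x₀), nrm_nonneg _, h1, fun x hx => ?_⟩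
    exact ⟨Q.H.symm x, hmax hx, Q.H.apply_symm_apply x⟩

/-- Uniform continuity of the parametrisation. -/
theorem exists_unif {r : ℝ} (hr : 0 < r) : ∃ η > 0, ∀ w w' : ℂ, nrm w ≤ 2 → nrm w' ≤ 2 →
    dist w w' < η → dist (Q.H w) (Q.H w') < r := by
  have hc : IsCompact {w : ℂ | nrm w ≤ 2} := by
    refine Metric.isCompact_of_isClosed_isBounded (isClosed_le continuous_nrm continuous_const) ?_
    refine (Metric.isBounded_closedBall (x := (0 : ℂ)) (r := 4)).subset fun w hw => ?_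
    rw [mem_closedBall, dist_zero_right]
    have := norm_le_nrm w
    have hw' : nrm w ≤ 2 := hw
    linarith
  have hu := hc.uniformContinuousOn_of_continuous Q.H.continuous.continuousOn
  rw [Metric.uniformContinuousOn_iff] at hu
  obtain ⟨η, hη, h⟩ := hu r hr
  exact ⟨η, hη, fun w w' hw hw' => h w hw w' hw'⟩

/-- What the other modules need to know about the discrete domain: `O` are the classes, `X \ ⋃ O`
the free vertices. -/
structure QDom (r : ℝ) (X : Set ℂ) (b : ZMod 3 → ℂ) (O : ZMod 3 → Set ℂ) : Prop where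
  conn : ∀ j, ConnIn X (O j)
  disj : Pairwise fun i j => Disjoint (O i) (O j)
  free_conn : ConnIn X (X \ ⋃ j, O j)
  deep : ∀ x ∈ X, ball x r ⊆ Q.D → x ∉ ⋃ j, O j
  near : ∀ x ∈ X, x ∉ ⋃ j, O j → infDist x Q.D ≤ r
  arc : ∀ x ∈ X, x ∉ ⋃ j, O j → ∀ y, nbr X x y → ∀ j, y ∈ O j → infDist y (arcQ Q j) ≤ r
  face : ∃ o : ZMod 3 → ℂ, (∀ j, o j ∈ O j) ∧
    (Tl X b (o 0) (o 1) (o 2) ∨ Tl X b (o 1) (o 0) (o 2))

/-- The classes of the discrete domain of a Jordan quad with parameters `t`, `e`, `δ`. -/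
def clsQ (t e δ : ℝ) (X : Set ℂ) (i₀ : ℂ) : ZMod 3 → Set ℂ :=
  cls X (thk X δ (KQ Q t e)) (thk X δ (GQ Q t e)) i₀

/-- **The discrete three-arc domain of a Jordan quad.** -/
theorem exists_domain {r : ℝ} (hr : 0 < r) : ∃ t e δ ρ R : ℝ, 0 < t ∧ t < 1 ∧ 0 < e ∧ 0 < δ ∧
    δ < r ∧ 0 < ρ ∧ 0 < R ∧
    ∀ (X : Set ℂ) (b : ZMod 3 → ℂ), HullTri X b → (∀ z ∈ closedBall (0 : ℂ) R, ∃ x ∈ X, dist z x ≤ ρ) →
    ∀ i₀ ∈ X, dist i₀ (Q.H 0) < δ → QDom Q r X b (clsQ Q t e δ X i₀) := by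
  obtain ⟨η, hη, hH⟩ := exists_unif Q (half_pos hr)
  obtain ⟨s, hs0, hs1, hdeep⟩ := exists_deep Q hr
  set e : ℝ := min 1 (η / 8) with he
  have he0 : 0 < e := lt_min one_pos (by positivity)
  have he1 : e ≤ 1 := min_le_left _ _
  have heη : e ≤ η / 8 := min_le_right _ _
  set t : ℝ := min (1 / 2) (η / 8) with ht
  have ht0 : 0 < t := lt_min (by norm_num) (by positivity)
  have ht1 : t < 1 := (min_le_left _ _).trans_lt (by norm_num)
  have htη : t ≤ η / 8 := min_le_right _ _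
  have hG := geoQ Q ht0 ht1 he0
  obtain ⟨δ₀, hδ₀, hsep⟩ := hG.exists_sep
  obtain ⟨δ₁, hδ₁, hdis⟩ := FQ_disj_curve Q ht0 ht1 he0 hs1
  set δ : ℝ := min (min δ₀ δ₁) (r / 2) with hδ
  have hδ0 : 0 < δ := lt_min (lt_min hδ₀ hδ₁) (by positivity)
  have hδ₀' : δ ≤ δ₀ := (min_le_left _ _).trans (min_le_left _ _)
  have hδ₁' : δ ≤ δ₁ := (min_le_left _ _).trans (min_le_right _ _)
  have hδr : δ ≤ r / 2 := min_le_right _ _
  obtain ⟨R₀, hR₀⟩ := ((isCompact_FQ Q 2).isBounded).subset_closedBall (0 : ℂ)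
  set R : ℝ := max R₀ 0 + 1 with hR
  have hRpos : 0 < R := by have := le_max_right R₀ 0; linarith
  set ρ : ℝ := min (δ / 5) (1 / 2) with hρ
  have hρ0 : 0 < ρ := lt_min (by positivity) (by norm_num)
  have hρδ : ρ ≤ δ / 5 := min_le_left _ _
  have hρ1 : ρ ≤ 1 / 2 := min_le_right _ _
  refine ⟨t, e, δ, ρ, R, ht0, ht1, he0, hδ0, by linarith, hρ0, hRpos,
    fun X b hX hnet i₀ hi₀ hi₀' => ?_⟩
  -- the window
  have hwin : ∀ w : ℂ, nrm w ≤ 2 → Q.H w ∈ closedBall (0 : ℂ) (R - 1) := by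
    intro w hw
    have h1 := hR₀ ⟨w, hw, rfl⟩
    rw [mem_closedBall] at h1 ⊢
    have := le_max_left R₀ 0
    linarith
  have hwin' : closedBall (0 : ℂ) (R - 1) ⊆ closedBall (0 : ℂ) R :=
    closedBall_subset_closedBall (by linarith)
  have hcurve : ∀ z ∈ curve (KQ Q t e) (GQ Q t e), ∃ w, nrm w ≤ 2 ∧ Q.H w = z := by
    intro z hz
    obtain ⟨w, ⟨-, hw⟩, rfl⟩ := nrm_curve Q ht0 ht1 he0 hz
    exact ⟨w, by linarith, rfl⟩
  have hnet1 : ∀ z ∈ curve (KQ Q t e) (GQ Q t e), ∃ x ∈ X, dist x z < δ / 2 := by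
    intro z hz
    obtain ⟨w, hw, rfl⟩ := hcurve z hz
    obtain ⟨x, hx, hxz⟩ := hnet _ (hwin' (hwin w hw))
    exact ⟨x, hx, by rw [dist_comm]; linarith⟩
  have hneck := hG.necklace hδ0 (hsep δ hδ₀') hX.fin hnet1
  have hdom := hneck.dom hX i₀
  -- the interior
  have hF : X ∩ thickening δ (FQ Q s) ⊆ inn X (thk X δ (KQ Q t e)) (thk X δ (GQ Q t e)) i₀ := by
    refine subset_inn hX.fin hδ0 (isPreconnected_FQ Q) ?_ (hdis.mono (thickening_mono hδ₁' _)
      (thickening_mono hδ₁' _)) ⟨hi₀, mem_thickening_iff.2 ⟨Q.H 0, ⟨0, ?_, rfl⟩, hi₀'⟩⟩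
    · rintro _ ⟨w, hw, rfl⟩
      have hw' : nrm w ≤ s := hw
      obtain ⟨x, hx, hxz⟩ := hnet _ (hwin' (hwin w (by linarith)))
      exact ⟨x, hx, by rw [dist_comm]; linarith⟩
    · show nrm 0 ≤ s
      have : nrm 0 = 0 := by simp [nrm]
      rw [this]; exact hs0
  have hI : inn X (thk X δ (KQ Q t e)) (thk X δ (GQ Q t e)) i₀ ⊆ UQ Q t e := by
    refine inn_subset (frontier_UQ Q ht0 ht1 he0) ?_ ?_
    · rintro u v huv ⟨⟨w, hw, rfl⟩, -⟩
      have hw' : nrm w < 1 + e := hw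
      have h1 := hwin w (by linarith)
      have := edge_short hρ0 (fun z hz => hnet z (by
        rw [mem_closedBall] at hz h1 ⊢
        have := dist_triangle z (Q.H w) 0
        linarith)) huv
      linarith
    · -- the base point
      have hi : i₀ ∈ inn X (thk X δ (KQ Q t e)) (thk X δ (GQ Q t e)) i₀ := by
        refine hF ⟨hi₀, mem_thickening_iff.2 ⟨Q.H 0, ⟨0, ?_, rfl⟩, hi₀'⟩⟩
        show nrm 0 ≤ s
        have : nrm 0 = 0 := by simp [nrm]
        rw [this]; exact hs0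
      by_contra hU
      have h0 : Q.H 0 ∈ UQ Q t e := by
        refine ⟨⟨0, ?_, rfl⟩, fun hK => ?_⟩
        · show nrm 0 < 1 + e
          have : nrm 0 = 0 := by simp [nrm]
          rw [this]; linarith
        · obtain ⟨j, hj⟩ := mem_iUnion.1 hK
          obtain ⟨w, ⟨hw, -⟩, hw0⟩ := nrm_curve Q ht0 ht1 he0 (subset_curve_left j hj)
          have : w = 0 := Q.H.injective hw0
          rw [this] at hw
          have : nrm 0 = 0 := by simp [nrm]
          rw [this] at hw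
          linarith
      obtain ⟨z, hz, hzf⟩ := inter_frontier_nonempty
        (convex_segment (𝕜 := ℝ) i₀ (Q.H 0)).isPreconnected
        ⟨Q.H 0, right_mem_segment ℝ _ _, h0⟩ ⟨i₀, left_mem_segment ℝ _ _, hU⟩
      have h1 : dist i₀ z ≤ dist i₀ (Q.H 0) := by
        obtain ⟨τ, hτ, rfl⟩ := (segment_eq_image_lineMap ℝ i₀ (Q.H 0)) ▸ hz
        rw [dist_left_lineMap, Real.norm_of_nonneg hτ.1]
        exact mul_le_of_le_one_left dist_nonneg hτ.2
      refine (comp_subset _ _ _ hi).2 ?_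
      rw [ring_thk]
      exact ⟨hi₀, mem_thickening_iff.2 ⟨z, frontier_UQ Q ht0 ht1 he0 hzf, h1.trans_lt hi₀'⟩⟩
  have hcov : ⋃ j, clsQ Q t e δ X i₀ j =
      X \ inn X (thk X δ (KQ Q t e)) (thk X δ (GQ Q t e)) i₀ := hdom.cover
  have hfree : ∀ x ∈ X, x ∉ ⋃ j, clsQ Q t e δ X i₀ j →
      x ∈ inn X (thk X δ (KQ Q t e)) (thk X δ (GQ Q t e)) i₀ := by
    intro x hx hxO
    by_contra hcon
    exact hxO (by rw [hcov]; exact ⟨hx, hcon⟩)
  have hinX : inn X (thk X δ (KQ Q t e)) (thk X δ (GQ Q t e)) i₀ ⊆ X :=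
    (comp_subset _ _ _).trans sdiff_subset
  -- closeness to the arcs
  have hnear : ∀ j, ∀ z ∈ KQ Q t e j ∪ GQ Q t e j ∪ GQ Q t e (j + 2),
      ∃ a ∈ arcQ Q j, dist z a < r / 2 := by
    intro j z hz
    have hout : ∀ a : ℂ, nrm a = 1 → ∀ s' : ℝ, 1 ≤ s' → s' ≤ 1 + e →
        dist ((s' : ℂ) * a) a ≤ 2 * e ∧ nrm ((s' : ℂ) * a) ≤ 2 := by
      intro a ha s' h1 h2
      constructor
      · have e1 : (s' : ℂ) * a - a = ((s' - 1 : ℝ) : ℂ) * a := by push_cast; ring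
        rw [Complex.dist_eq, e1, norm_mul, Complex.norm_real, Real.norm_of_nonneg (by linarith)]
        have h3 := norm_le_nrm a
        rw [ha] at h3
        nlinarith [norm_nonneg a]
      · rw [nrm_smul (by linarith), ha]
        linarith
    rw [arcQ_eq]
    rcases hz with (⟨_, ⟨⟨s', a⟩, ⟨hs', ha⟩, rfl⟩, rfl⟩ | ⟨_, ⟨a, ha, rfl⟩, rfl⟩) |
      ⟨_, ⟨a, ha, rfl⟩, rfl⟩
    · simp only at hs' ha ⊢
      have ha1 := nrm_arcA ht0 ht1 j a ha
      obtain ⟨g1, g2⟩ := hout a ha1 s' hs'.1 hs'.2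
      exact ⟨Q.H a, ⟨a, arcA_subset ht0 ht1 j ha, rfl⟩, hH _ _ g2 (by rw [ha1]; norm_num)
        (by linarith)⟩
    · have ha1 := nrm_arcC ht0 ht1 j a ha
      obtain ⟨g1, g2⟩ := hout a ha1 (1 + e) (by linarith) le_rfl
      have g3 := arcC_near ht0 j a ha
      have g4 := dist_triangle (((1 + e : ℝ) : ℂ) * a) a (cornC j)
      exact ⟨Q.H (cornC j), ⟨_, cornC_mem j, rfl⟩, hH _ _ g2
        (by rw [nrm_sideA j _ (cornC_mem j)]; norm_num) (by linarith)⟩
    · have ha1 := nrm_arcC ht0 ht1 (j + 2) a ha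
      obtain ⟨g1, g2⟩ := hout a ha1 (1 + e) (by linarith) le_rfl
      have g3 := arcC_near ht0 (j + 2) a ha
      have g4 := dist_triangle (((1 + e : ℝ) : ℂ) * a) a (cornC (j + 2))
      exact ⟨Q.H (cornC (j + 2)), ⟨_, cornC_mem' j, rfl⟩, hH _ _ g2
        (by rw [nrm_sideA j _ (cornC_mem' j)]; norm_num) (by linarith)⟩
  refine ⟨hdom.conn, hdom.disj, ?_, fun x hx hxD hxO => ?_, fun x hx hxO => ?_,
    fun x hx hxO y hxy j hj => ?_, hdom.face⟩
  · have : X \ ⋃ j, clsQ Q t e δ X i₀ j =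
        inn X (thk X δ (KQ Q t e)) (thk X δ (GQ Q t e)) i₀ := by
      rw [hcov, sdiff_sdiff_right_self]
      exact inter_eq_self_of_subset_right hinX
    rw [this]
    exact connIn_comp sdiff_subset i₀
  · rw [hcov] at hxO
    exact hxO.2 (hF ⟨hx, self_subset_thickening hδ0 _ (hdeep x hxD)⟩)
  · obtain ⟨⟨w, hw, rfl⟩, -⟩ := hI (hfree x hx hxO)
    have hw' : nrm w < 1 + e := hw
    by_cases h1 : nrm w < 1
    · have : Q.H w ∈ Q.D := by rw [D_eq]; exact ⟨w, h1, rfl⟩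
      rw [infDist_zero_of_mem this]
      exact hr.le
    · rw [not_lt] at h1
      have hw0 : 0 < nrm w := by linarith
      set w' : ℂ := ((1 / nrm w : ℝ) : ℂ) * w with hw'd
      have hn1 : nrm w' = 1 := by
        rw [hw'd, nrm_smul (by positivity)]
        field_simp
      have hd : dist w w' ≤ 2 * e := by
        have e1 : w - w' = ((1 - 1 / nrm w : ℝ) : ℂ) * w := by rw [hw'd]; push_cast; ring
        have h2 : 0 ≤ 1 - 1 / nrm w := by
          rw [sub_nonneg, div_le_one hw0]; exact h1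
        rw [Complex.dist_eq, e1, norm_mul, Complex.norm_real, Real.norm_of_nonneg h2]
        have h3 := norm_le_nrm w
        have h4 : (1 - 1 / nrm w) * ‖w‖ ≤ (1 - 1 / nrm w) * (2 * nrm w) :=
          mul_le_mul_of_nonneg_left h3 h2
        have h5 : (1 - 1 / nrm w) * (2 * nrm w) = 2 * (nrm w - 1) := by
          field_simp
        linarith
      have h6 : dist (Q.H w) (Q.H w') < r / 2 :=
        hH _ _ (by linarith) (by rw [hn1]; norm_num) (by linarith)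
      have h7 : Q.H w' ∈ closure Q.D := by
        rw [Q.closure_D]
        refine ⟨w', ?_, rfl⟩
        exact ⟨hn1 ▸ re_le_nrm w', hn1 ▸ im_le_nrm w'⟩
      rw [← infDist_closure]
      exact (infDist_le_dist_of_mem h7).trans (by linarith)
  · -- neighbours of the free vertices
    rcases hdom.nbr_free (hfree x hx hxO) hxy with h1 | ⟨i, hi, hi'⟩
    · have : y ∈ ⋃ j, clsQ Q t e δ X i₀ j := mem_iUnion.2 ⟨j, hj⟩
      rw [hcov] at this
      exact absurd h1 this.2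
    · have hij : i = j := by
        by_contra hne
        exact Set.disjoint_left.1 (hdom.disj hne) hi hj
      subst hij
      have h2 : ∃ z ∈ KQ Q t e i ∪ GQ Q t e i ∪ GQ Q t e (i + 2), dist y z < δ := by
        rcases hi' with (⟨-, h⟩ | ⟨-, h⟩) | ⟨-, h⟩
        · obtain ⟨z, hz, hyz⟩ := mem_thickening_iff.1 h
          exact ⟨z, Or.inl (Or.inl hz), hyz⟩
        · obtain ⟨z, hz, hyz⟩ := mem_thickening_iff.1 h
          exact ⟨z, Or.inl (Or.inr hz), hyz⟩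
        · obtain ⟨z, hz, hyz⟩ := mem_thickening_iff.1 h
          exact ⟨z, Or.inr hz, hyz⟩
      obtain ⟨z, hz, hyz⟩ := h2
      obtain ⟨a, ha, hza⟩ := hnear i z hz
      refine (infDist_le_dist_of_mem ha).trans ?_
      have := dist_triangle y z a
      linarith

end Vale.Agent.P148.R2.H592
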