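import Vale.Agent.P148.R2.H592.Dom6

/-!
# P148, module B2J, part 7: the contracted triangulation of the domain and its outer dart
-/

open Set Metric Topology Filter

namespace Vale.Agent.P148.R2.H592

open _root_.P148

variable {X : Set ℂ} {b : ZMod 3 → ℂ} {O : ZMod 3 → Set ℂ}

/-- The corner of a dart which is on neither end. -/
def apx {X : Set ℂ} {b : ZMod 3 → ℂ} (q : Fc X b × ZMod 3) : ℂ := vc q.1 q.2

namespace HullTri

variable (h : HullTri X b) {V : Type*} (π : ℂ → V) (hπ : Fib X π)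

theorem src258 (q : Fc X b × ZMod 3) : (h.tri258 π hπ).src q = π (tail q) := rfl

theorem tgt258 (q : Fc X b × ZMod 3) : (h.tri258 π hπ).tgt q = π (head q) := by
  show π (tail (h.rv q)) = π (head q)
  rw [h.tail_rv]

theorem apex258 (q : Fc X b × ZMod 3) : (h.tri258 π hπ).apex q = π (apx q) := by
  show π (vc q.1 (q.2 + 1 + 1 + 1)) = π (vc q.1 q.2)
  have : q.2 + 1 + 1 + 1 = q.2 := by generalize q.2 = j; revert j; decide
  rw [this]

include h in
/-- The dart of a face given by its three corners. -/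
theorem exists_dart_face {u v w : ℂ} (ht : Tl X b u v w) :
    ∃ q : Fc X b × ZMod 3, tail q = u ∧ head q = v ∧ apx q = w := by
  obtain ⟨q, h1, h2⟩ := h.exists_dart (h.Tl_nbr ht)
  refine ⟨q, h1, h2, ?_⟩
  have := th_Tl q
  rw [h1, h2] at this
  exact h.Tl_unique this ht

/-- The outer dart of a contracted triangulation with three adjacent classes. -/
theorem exists_outer (hd : Pairwise fun i j => Disjoint (O i) (O j)) (hπ : Fib X (cmap X O))
    (hf : ∃ o : ZMod 3 → ℂ, (∀ j, o j ∈ O j) ∧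
      (Tl X b (o 0) (o 1) (o 2) ∨ Tl X b (o 1) (o 0) (o 2))) :
    ∃ d : Fc X b × ZMod 3, (h.tri258 (cmap X O) hπ).Good d ∧
      (h.tri258 (cmap X O) hπ).apex d = Sum.inl 2 ∧
      (((h.tri258 (cmap X O) hπ).src d = Sum.inl 0 ∧ (h.tri258 (cmap X O) hπ).tgt d = Sum.inl 1) ∨
        ((h.tri258 (cmap X O) hπ).src d = Sum.inl 1 ∧
          (h.tri258 (cmap X O) hπ).tgt d = Sum.inl 0)) := by
  obtain ⟨o, ho, h1⟩ := hf
  have hc : ∀ j, cmap X O (o j) = Sum.inl j := fun j => cmap_of_mem hd (ho j)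
  have e01 : (Sum.inl 0 : CV X O) ≠ Sum.inl 1 := fun h => absurd (Sum.inl_injective h) (by decide)
  have e02 : (Sum.inl 0 : CV X O) ≠ Sum.inl 2 := fun h => absurd (Sum.inl_injective h) (by decide)
  have e12 : (Sum.inl 1 : CV X O) ≠ Sum.inl 2 := fun h => absurd (Sum.inl_injective h) (by decide)
  rcases h1 with h1 | h1
  · obtain ⟨q, q1, q2, q3⟩ := h.exists_dart_face h1
    refine ⟨q, ?_, ?_, Or.inl ⟨?_, ?_⟩⟩
    · unfold H258.Tri.Good
      rw [h.src258, h.tgt258, h.apex258, q1, q2, q3, hc, hc, hc]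
      exact ⟨e01, e12, e02.symm⟩
    · rw [h.apex258, q3, hc]
    · rw [h.src258, q1, hc]
    · rw [h.tgt258, q2, hc]
  · obtain ⟨q, q1, q2, q3⟩ := h.exists_dart_face h1
    refine ⟨q, ?_, ?_, Or.inr ⟨?_, ?_⟩⟩
    · unfold H258.Tri.Good
      rw [h.src258, h.tgt258, h.apex258, q1, q2, q3, hc, hc, hc]
      exact ⟨e01.symm, e02, e12.symm⟩
    · rw [h.apex258, q3, hc]
    · rw [h.src258, q1, hc]
    · rw [h.tgt258, q2, hc]

end HullTri

namespace QDom

variable {Q : Quad} {r : ℝ} (h : QDom Q r X b O)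
include h

theorem nonempty (j : ZMod 3) : (O j).Nonempty := by
  obtain ⟨o, ho, -⟩ := h.face
  exact ⟨o j, ho j⟩

theorem fib : Fib X (cmap X O) := fib_cmap h.disj h.conn h.nonempty

omit h in
/-- The free vertices as a subtype are the vertices outside the classes. -/
theorem mem_free {x : ℂ} : (x ∈ X ∧ ∀ j, x ∉ O j) ↔ x ∈ X \ ⋃ j, O j := by
  simp only [Set.mem_sdiff, mem_iUnion, not_exists]

theorem exists_outer (hX : HullTri X b) :
    ∃ d : Fc X b × ZMod 3, (hX.tri258 (cmap X O) h.fib).Good d ∧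
      (hX.tri258 (cmap X O) h.fib).apex d = Sum.inl 2 ∧
      (((hX.tri258 (cmap X O) h.fib).src d = Sum.inl 0 ∧
          (hX.tri258 (cmap X O) h.fib).tgt d = Sum.inl 1) ∨
        ((hX.tri258 (cmap X O) h.fib).src d = Sum.inl 1 ∧
          (hX.tri258 (cmap X O) h.fib).tgt d = Sum.inl 0)) :=
  hX.exists_outer h.disj h.fib h.face

end QDom

/-- The domain does not depend on the choice of the base vertex. -/
theorem comp_eq {X O : Set ℂ} {x y : ℂ} (hy : y ∈ comp X O x) : comp X O y = comp X O x := by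
  ext z
  constructor
  · rintro ⟨h1, h2⟩
    exact ⟨h1, hy.2.trans h2⟩
  · rintro ⟨h1, h2⟩
    exact ⟨h1, (symm_in hy.2).trans h2⟩

theorem cls_eq {X : Set ℂ} {A C : ZMod 3 → Set ℂ} {i₀ i₁ : ℂ} (h : i₁ ∈ inn X A C i₀) :
    cls X A C i₁ = cls X A C i₀ := by
  have : inn X A C i₁ = inn X A C i₀ := comp_eq h
  unfold cls
  rw [this]

end Vale.Agent.P148.R2.H592
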