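import Vale.Agent.P148.R2.H592.Del5
import Vale.Agent.P148.KPoint2
import Vale.Agent.P148.Circ

/-!
# P148, module B2b: almost sure genericity of the Poisson process together with fixed points
-/

open MeasureTheory Set Metric Topology Filter ProbabilityTheory
open scoped ENNReal NNReal

namespace Vale.Agent.P148.R2.H592

open _root_.P148

/-- Four points at the same distance from some point. -/
def Conc (a b c d : ℂ) : Prop := ∃ z, dist z a = dist z b ∧ dist z a = dist z c ∧ dist z a = dist z d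

/-- The variable points `y` followed by the fixed points `c`. -/
def mix {k : ℕ} (c : Fin 4 → ℂ) (y : Fin k → ℂ) (i : Fin 4) : ℂ :=
  if h : (i : ℕ) < k then y ⟨i, h⟩ else c i

theorem measurable_mix {k : ℕ} (c : Fin 4 → ℂ) (i : Fin 4) :
    Measurable fun y : Fin k → ℂ => mix c y i := by
  unfold mix
  by_cases h : (i : ℕ) < k
  · simp only [h, dif_pos]
    exact measurable_pi_apply _
  · simp only [h, dif_neg, not_false_eq_true]
    exact measurable_const

theorem null_mix {m : ℕ} (c : Fin 4 → ℂ) :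
    volume {y : Fin (m + 1) → ℂ | dist (mix c y 0) (ccen (mix c y 1) (mix c y 2) (mix c y 3)) =
      dist (mix c y 1) (ccen (mix c y 1) (mix c y 2) (mix c y 3))} = 0 := by
  have hcm : Measurable fun y : Fin (m + 1) → ℂ => ccen (mix c y 1) (mix c y 2) (mix c y 3) := by
    have h : Measurable fun y : Fin (m + 1) → ℂ =>
        ((mix c y 1, mix c y 2, mix c y 3) : ℂ × ℂ × ℂ) :=
      (measurable_mix c 1).prodMk ((measurable_mix c 2).prodMk (measurable_mix c 3))
    exact measurable_ccen.comp h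
  refine null_of_lines (Pi.single 0 1) ?_ fun x => ?_
  · exact measurableSet_eq_fun ((measurable_mix c 0).dist hcm) ((measurable_mix c 1).dist hcm)
  · have hne : ∀ i : Fin 4, i ≠ 0 → ∀ t : ℂ,
        mix c (x + t • (Pi.single (0 : Fin (m + 1)) (1 : ℂ) : Fin (m + 1) → ℂ)) i = mix c x i := by
      intro i hi t
      unfold mix
      by_cases h : (i : ℕ) < m + 1
      · simp only [h, dif_pos, Pi.add_apply, Pi.smul_apply]
        rw [Pi.single_eq_of_ne, smul_zero, add_zero]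
        intro h0
        apply hi
        have := congrArg Fin.val h0
        simp only [Fin.val_zero] at this
        exact Fin.ext this
      · simp only [h, dif_neg, not_false_eq_true]
    have h0 : ∀ t : ℂ,
        mix c (x + t • (Pi.single (0 : Fin (m + 1)) (1 : ℂ) : Fin (m + 1) → ℂ)) 0 = x 0 + t := by
      intro t
      unfold mix
      simp
    have : {t : ℂ | x + t • (Pi.single (0 : Fin (m + 1)) (1 : ℂ) : Fin (m + 1) → ℂ) ∈
        {y : Fin (m + 1) → ℂ | dist (mix c y 0) (ccen (mix c y 1) (mix c y 2) (mix c y 3)) =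
          dist (mix c y 1) (ccen (mix c y 1) (mix c y 2) (mix c y 3))}} =
        (fun t : ℂ => x 0 + t) ⁻¹' sphere (ccen (mix c x 1) (mix c x 2) (mix c x 3))
          (dist (mix c x 1) (ccen (mix c x 1) (mix c x 2) (mix c x 3))) := by
      ext t
      simp only [mem_ofPred_eq, mem_preimage, mem_sphere, h0, hne 1 (by decide), hne 2 (by decide),
        hne 3 (by decide)]
    rw [this, measure_preimage_add]
    exact Measure.addHaar_sphere _ _ _

theorem null_conc {m : ℕ} (c : Fin 4 → ℂ) :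
    volume {y : Fin (m + 1) → ℂ | Function.Injective (mix c y) ∧
      Conc (mix c y 0) (mix c y 1) (mix c y 2) (mix c y 3)} = 0 := by
  refine measure_mono_null ?_ (null_mix c)
  rintro y ⟨hy, z, h1, h2, h3⟩
  have := eq_ccen (z := z) (hy.ne (by decide : (1 : Fin 4) ≠ 2)) (hy.ne (by decide : (1 : Fin 4) ≠ 3))
    (hy.ne (by decide : (2 : Fin 4) ≠ 3)) (h1.symm.trans h2) (h1.symm.trans h3)
  show dist (mix c y 0) (ccen (mix c y 1) (mix c y 2) (mix c y 3)) =
    dist (mix c y 1) (ccen (mix c y 1) (mix c y 2) (mix c y 3))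
  rw [← this, dist_comm (mix c y 0), dist_comm (mix c y 1), h1]

section

variable {Ω : Type*} [MeasurableSpace Ω] {P : Measure Ω} [IsProbabilityMeasure P]
  {S : Ω → Set Pt} {lam : ℝ≥0}

theorem ae_conc_mix (h : IsColouredPoisson P S lam) (m : ℕ) (c : Fin 4 → ℂ) :
    ∀ᵐ ω ∂P, ∀ y : Fin (m + 1) → ℂ, (∀ i, y i ∈ pts (S ω)) → Function.Injective (mix c y) →
      ¬ Conc (mix c y 0) (mix c y 1) (mix c y 2) (mix c y 3) := by
  by_cases hm : m < 4
  · filter_upwards [kPoint2 Ω P S lam h (m + 1) _ (null_conc (m := m) c)] with ω hω y hy hi hc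
    refine hω y ?_ hy ⟨hi, hc⟩
    intro i j hij
    have h1 : mix c y ⟨i, lt_of_lt_of_le i.2 (by omega)⟩ =
        mix c y ⟨j, lt_of_lt_of_le j.2 (by omega)⟩ := by
      unfold mix
      simp only [i.2, j.2, dif_pos]
      exact hij
    exact Fin.ext (by simpa using hi h1)
  · -- all four points are points of the process
    filter_upwards [kPoint2 Ω P S lam h 4 _ four] with ω hω y hy hi hc
    have e : ∀ i : Fin 4, mix c y i = y ⟨i, by omega⟩ := by
      intro i
      unfold mix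
      rw [dif_pos]
    refine hω (fun i => mix c y i) hi (fun i => ?_) ⟨hi, hc⟩
    rw [e]
    exact hy _

/-- **Genericity.** Almost surely no four different points of the union of the process and a fixed
countable set, at least one of them in the process, are at the same distance from some point. -/
theorem ae_conc (h : IsColouredPoisson P S lam) (B : Set ℂ) (hB : B.Countable) :
    ∀ᵐ ω ∂P, ∀ a ∈ pts (S ω), ∀ b ∈ pts (S ω) ∪ B, ∀ c ∈ pts (S ω) ∪ B, ∀ d ∈ pts (S ω) ∪ B,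
      a ≠ b → a ≠ c → a ≠ d → b ≠ c → b ≠ d → c ≠ d → ¬ Conc a b c d := by
  have : Countable B := hB.to_subtype
  have h4 := kPoint2 Ω P S lam h 4 _ four
  have key : ∀ m : ℕ, ∀ᵐ ω ∂P, ∀ c : Fin 4 → B, ∀ y : Fin (m + 1) → ℂ, (∀ i, y i ∈ pts (S ω)) →
      Function.Injective (mix (fun i => (c i : ℂ)) y) →
      ¬ Conc (mix (fun i => (c i : ℂ)) y 0) (mix (fun i => (c i : ℂ)) y 1)
        (mix (fun i => (c i : ℂ)) y 2) (mix (fun i => (c i : ℂ)) y 3) := by
    intro m
    rw [ae_all_iff]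
    intro c
    exact ae_conc_mix h m _
  have hinj : ∀ x0 x1 x2 x3 : ℂ, x0 ≠ x1 → x0 ≠ x2 → x0 ≠ x3 → x1 ≠ x2 → x1 ≠ x3 → x2 ≠ x3 →
      ∀ f : Fin 4 → ℂ, f 0 = x0 → f 1 = x1 → f 2 = x2 → f 3 = x3 → Function.Injective f := by
    intro x0 x1 x2 x3 h01 h02 h03 h12 h13 h23 f e0 e1 e2 e3 i j hij
    fin_cases i <;> fin_cases j <;> simp_all [eq_comm]
  filter_upwards [h4, key 0, key 1, key 2] with ω w4 w1 w2 w3
  -- the sorted forms
  have H4 : ∀ a ∈ pts (S ω), ∀ b ∈ pts (S ω), ∀ c ∈ pts (S ω), ∀ d ∈ pts (S ω),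
      a ≠ b → a ≠ c → a ≠ d → b ≠ c → b ≠ d → c ≠ d → ¬ Conc a b c d := by
    intro a ha b hb c hc d hd hab hac had hbc hbd hcd hC
    have hi := hinj a b c d hab hac had hbc hbd hcd ![a, b, c, d] rfl rfl rfl rfl
    refine w4 ![a, b, c, d] hi ?_ ⟨hi, hC⟩
    intro i
    fin_cases i <;> assumption
  have H3 : ∀ a ∈ pts (S ω), ∀ b ∈ pts (S ω), ∀ c ∈ pts (S ω), ∀ d ∈ B,
      a ≠ b → a ≠ c → a ≠ d → b ≠ c → b ≠ d → c ≠ d → ¬ Conc a b c d := by
    intro a ha b hb c hc d hd hab hac had hbc hbd hcd hC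
    have e0 : mix (fun _ : Fin 4 => ((⟨d, hd⟩ : B) : ℂ)) ![a, b, c] 0 = a := by simp [mix]
    have e1 : mix (fun _ : Fin 4 => ((⟨d, hd⟩ : B) : ℂ)) ![a, b, c] 1 = b := by simp [mix]
    have e2 : mix (fun _ : Fin 4 => ((⟨d, hd⟩ : B) : ℂ)) ![a, b, c] 2 = c := by simp [mix]
    have e3 : mix (fun _ : Fin 4 => ((⟨d, hd⟩ : B) : ℂ)) ![a, b, c] 3 = d := by simp [mix]
    refine w3 (fun _ => ⟨d, hd⟩) ![a, b, c] ?_ (hinj a b c d hab hac had hbc hbd hcd _ e0 e1 e2 e3) ?_
    · intro i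
      fin_cases i <;> assumption
    · rw [e0, e1, e2, e3]
      exact hC
  have H2 : ∀ a ∈ pts (S ω), ∀ b ∈ pts (S ω), ∀ c ∈ B, ∀ d ∈ B,
      a ≠ b → a ≠ c → a ≠ d → b ≠ c → b ≠ d → c ≠ d → ¬ Conc a b c d := by
    intro a ha b hb c hc d hd hab hac had hbc hbd hcd hC
    set f : Fin 4 → B := ![⟨c, hc⟩, ⟨c, hc⟩, ⟨c, hc⟩, ⟨d, hd⟩] with hf
    have e0 : mix (fun i => (f i : ℂ)) ![a, b] 0 = a := by simp [mix]
    have e1 : mix (fun i => (f i : ℂ)) ![a, b] 1 = b := by simp [mix]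
    have e2 : mix (fun i => (f i : ℂ)) ![a, b] 2 = c := by simp [mix, hf]
    have e3 : mix (fun i => (f i : ℂ)) ![a, b] 3 = d := by simp [mix, hf]
    refine w2 f ![a, b] ?_ (hinj a b c d hab hac had hbc hbd hcd _ e0 e1 e2 e3) ?_
    · intro i
      fin_cases i <;> assumption
    · rw [e0, e1, e2, e3]
      exact hC
  have H1 : ∀ a ∈ pts (S ω), ∀ b ∈ B, ∀ c ∈ B, ∀ d ∈ B,
      a ≠ b → a ≠ c → a ≠ d → b ≠ c → b ≠ d → c ≠ d → ¬ Conc a b c d := by
    intro a ha b hb c hc d hd hab hac had hbc hbd hcd hC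
    set f : Fin 4 → B := ![⟨b, hb⟩, ⟨b, hb⟩, ⟨c, hc⟩, ⟨d, hd⟩] with hf
    have e0 : mix (fun i => (f i : ℂ)) ![a] 0 = a := by simp [mix]
    have e1 : mix (fun i => (f i : ℂ)) ![a] 1 = b := by simp [mix, hf]
    have e2 : mix (fun i => (f i : ℂ)) ![a] 2 = c := by simp [mix, hf]
    have e3 : mix (fun i => (f i : ℂ)) ![a] 3 = d := by simp [mix, hf]
    refine w1 f ![a] ?_ (hinj a b c d hab hac had hbc hbd hcd _ e0 e1 e2 e3) ?_
    · intro i
      fin_cases i <;> assumption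
    · rw [e0, e1, e2, e3]
      exact hC
  have s12 : ∀ {a b c d : ℂ}, Conc a b c d → Conc a c b d := fun ⟨z, h1, h2, h3⟩ => ⟨z, h2, h1, h3⟩
  have s23 : ∀ {a b c d : ℂ}, Conc a b c d → Conc a b d c := fun ⟨z, h1, h2, h3⟩ => ⟨z, h1, h3, h2⟩
  rintro a ha b (hb | hb) c (hc | hc) d (hd | hd) hab hac had hbc hbd hcd hC
  · exact H4 a ha b hb c hc d hd hab hac had hbc hbd hcd hC
  · exact H3 a ha b hb c hc d hd hab hac had hbc hbd hcd hC
  · exact H3 a ha b hb d hd c hc hab had hac hbd hbc hcd.symm (s23 hC)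
  · exact H2 a ha b hb c hc d hd hab hac had hbc hbd hcd hC
  · exact H3 a ha c hc d hd b hb hac had hab hcd hbc.symm hbd.symm (s23 (s12 hC))
  · exact H2 a ha c hc b hb d hd hac hab had hbc.symm hcd hbd (s12 hC)
  · exact H2 a ha d hd b hb c hc had hab hac hbd.symm hcd.symm hbc (s12 (s23 hC))
  · exact H1 a ha b hb c hc d hd hab hac had hbc hbd hcd hC

end

end Vale.Agent.P148.R2.H592
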