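import Vale.Agent.P148.R2.F.Main

/-!
# P148: the final statement for arbitrary Jordan domains

The same statement as `FinalStmt`, with a Jordan domain given by its boundary curve instead of a
homeomorphism of the plane.
-/

open MeasureTheory Set Metric Topology Filter ProbabilityTheory
open scoped ENNReal NNReal

universe u

namespace Vale.Agent.P148.R2.H592.Sch

open _root_.P148
open Vale.Agent.P148.R2.H771 (posSigma)

/-- A Jordan domain with four marked boundary points: `D` is open, connected and bounded, its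
frontier is the closed curve `γ` without double points (period `N`), and `t i` are the parameters
of the marked points, in the cyclic order of the curve. -/
structure Marked (D : Set ℂ) (γ : ℝ → ℂ) (N : ℝ) (t : Fin 4 → ℝ) : Prop where
  isOpen : IsOpen D
  conn : IsConnected D
  bdd : Bornology.IsBounded D
  frontier_eq : frontier D = range γ
  pos : 0 < N
  cont : Continuous γ
  per : ∀ s, γ (s + N) = γ s
  inj : ∀ s s', γ s = γ s' → ∃ k : ℤ, s = s' + k * N
  lt01 : t 0 < t 1
  lt12 : t 1 < t 2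
  lt23 : t 2 < t 3
  lt30 : t 3 < t 0 + N

/-- `R ∩ closure D` contains a connected set meeting `A` and `A'`. -/
def Crosses (D A A' R : Set ℂ) : Prop :=
  ∃ K ⊆ R ∩ closure D, IsConnected K ∧ (K ∩ A).Nonempty ∧ (K ∩ A').Nonempty

/-- `φ` is a conformal map of `D` onto the upper half-plane, extended continuously to the closure,
with `a ↦ 0`, `b ↦ x`, `c ↦ 1`, `d ↦ ∞`. -/
structure Unif (D : Set ℂ) (a b c d : ℂ) (φ : ℂ → ℂ) (x : ℝ) : Prop where
  hol : DifferentiableOn ℂ φ D
  bij : BijOn φ D {w | 0 < w.im}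
  cont : ContinuousOn φ (closure D \ {d})
  at_a : φ a = 0
  at_b : φ b = x
  at_c : φ c = 1
  at_d : Tendsto (fun z => ‖φ z‖) (𝓝[D] d) atTop

/-- The black crossing of `D` from the arc `γ [t 0, t 1]` to the arc `γ [t 2, t 3]`. -/
def XEv (D : Set ℂ) (γ : ℝ → ℂ) (t : Fin 4 → ℝ) (R : Set ℂ) : Prop :=
  Crosses D (γ '' Icc (t 0) (t 1)) (γ '' Icc (t 2) (t 3)) R

/-- The final statement for Jordan domains: (1) the processes exist; (2) every Jordan domain with
four marked boundary points has a conformal map as in `Unif`, for the marks in one of the two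
orders (both orders give the same crossing event); (3) the crossing events are measurable up to
null sets; (4) the limit is Cardy's function, annealed and conditional on the positions of the
points, whichever of the two orders is used. -/
def FinalJordan : Prop :=
  (∀ lam : ℝ≥0, ∃ (Ω : Type u) (_ : MeasurableSpace Ω) (P : Measure Ω)
    (_ : IsProbabilityMeasure P) (S : Ω → Set Pt), IsColouredPoisson P S lam) ∧
  (∀ D γ N t, Marked D γ N t → ∃ φ x, Unif D (γ (t 0)) (γ (t 1)) (γ (t 2)) (γ (t 3)) φ x ∨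
    Unif D (γ (t 3)) (γ (t 2)) (γ (t 1)) (γ (t 0)) φ x) ∧
  (∀ (Ω : Type u) [m : MeasurableSpace Ω] (P : Measure Ω) [IsProbabilityMeasure P]
    (S : Ω → Set Pt) (lam : ℝ≥0), 0 < lam → IsColouredPoisson P S lam →
    posSigma S ≤ m ∧ ∀ D γ N t, Marked D γ N t →
      NullMeasurableSet {ω | XEv D γ t (blackRegion (S ω))} P) ∧
  ∀ D γ N t, Marked D γ N t → ∀ (φ : ℂ → ℂ) (x : ℝ),
    (Unif D (γ (t 0)) (γ (t 1)) (γ (t 2)) (γ (t 3)) φ x ∨
      Unif D (γ (t 3)) (γ (t 2)) (γ (t 1)) (γ (t 0)) φ x) → (0 < x ∧ x < 1) ∧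
    ∀ (Ω : ℝ → Type u) [∀ ε, MeasurableSpace (Ω ε)] (P : ∀ ε, Measure (Ω ε))
      [∀ ε, IsProbabilityMeasure (P ε)] (S : ∀ ε, Ω ε → Set Pt),
      (∀ ε > 0, IsColouredPoisson (P ε) (S ε) (Real.toNNReal (ε ^ (-2 : ℤ)))) →
      Tendsto (fun ε => (P ε {ω | XEv D γ t (blackRegion (S ε ω))}).toReal) (𝓝[>] 0)
        (𝓝 (cardy x)) ∧
      Tendsto (fun ε => ∫ ω, |((P ε)[{ω | XEv D γ t (blackRegion (S ε ω))}.indicator
        (fun _ => (1 : ℝ)) | posSigma (S ε)]) ω - cardy x| ∂(P ε)) (𝓝[>] 0) (𝓝 0)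

end Vale.Agent.P148.R2.H592.Sch
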