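import Vale.Agent.P153.R2.R1.HalfP
import Vale.Agent.P153.R2.TOP.Sep

/-!
# Jordan domains are good

`JDom D γ N`: `D` is open, connected, bounded and its frontier is the Jordan curve `γ` of period
`N`. Then the complement of the closure of `D` is connected and has the same frontier, and `D` has
no holes (`JDom.good`).
-/

open Set Topology Metric Filter Bornology
open P153.TOP Vale.Agent.P153.R2.R1

namespace Vale.Agent.P148.R2.H592.Sch

/-- A Jordan domain with its boundary curve. -/
structure JDom (D : Set ℂ) (γ : ℝ → ℂ) (N : ℝ) : Prop where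
  isOpen : IsOpen D
  conn : IsConnected D
  bdd : IsBounded D
  curve : JCurve γ N
  frontier_eq : frontier D = range γ

variable {D : Set ℂ} {γ : ℝ → ℂ} {N : ℝ}

theorem inter_frontier {t s : Set ℂ} (ht : IsPreconnected t) (h1 : (t ∩ s).Nonempty)
    (h2 : (t ∩ sᶜ).Nonempty) : (t ∩ frontier s).Nonempty := by
  by_contra hcon
  rw [not_nonempty_iff_eq_empty] at hcon
  have hno : ∀ x ∈ t, x ∉ frontier s := fun x hx hx' => by
    have : x ∈ t ∩ frontier s := ⟨hx, hx'⟩
    rw [hcon] at this
    exact this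
  obtain ⟨a, ha, has⟩ := h1
  obtain ⟨b, hb, hbs⟩ := h2
  obtain ⟨x, hx, hx1, hx2⟩ := ht (interior s) (closure s)ᶜ isOpen_interior
    isClosed_closure.isOpen_compl (fun x hx => by
      by_cases hc : x ∈ closure s
      · refine Or.inl ?_
        by_contra hi
        exact hno x hx ⟨hc, hi⟩
      · exact Or.inr hc)
    ⟨a, ha, by
      by_contra hi
      exact hno a ha ⟨subset_closure has, hi⟩⟩
    ⟨b, hb, fun hc => hno b hb ⟨hc, fun hi => hbs (interior_subset hi)⟩⟩
  exact hx2 (interior_subset_closure hx1)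

section curve

theorem range_Icc (h : JCurve γ N) (a : ℝ) : γ '' Icc a (a + N) = range γ :=
  Function.Periodic.image_Icc (f := γ) h.per h.pos a

theorem isCompact_range (h : JCurve γ N) : IsCompact (range γ) := by
  rw [← range_Icc h 0]
  exact isCompact_Icc.image h.cont

theorem exists_lift (h : JCurve γ N) {f : ℂ → ℂ} (hf : ContinuousOn f (range γ))
    (h0 : ∀ z ∈ range γ, f z ≠ 0) : ∃ F : ℝ → ℂ, ∃ n : ℤ, Continuous F ∧
      (∀ t, Complex.exp (F t) = f (γ t)) ∧ ∀ t, F (t + N) = F t + n * (2 * Real.pi * Complex.I) := by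
  obtain ⟨F, hF, hF'⟩ := hasLogOn_of_convex (convex_univ : Convex ℝ (univ : Set ℝ))
    (fun t => f (γ t)) (hf.comp h.cont.continuousOn fun t _ => mem_range_self t)
    fun t _ => h0 _ (mem_range_self t)
  have hFc : Continuous F := continuousOn_univ.1 hF
  have he : ∀ t, Complex.exp (F (t + N)) = Complex.exp (F t) := fun t => by
    rw [hF' _ (mem_univ _), hF' _ (mem_univ _)]
    show f (γ (t + N)) = f (γ t)
    rw [h.per]
  obtain ⟨n, hn⟩ := Complex.exp_eq_exp_iff_exists_int.1 (he 0)
  refine ⟨F, n, hFc, fun t => hF' t (mem_univ _), fun t => ?_⟩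
  have := P153.TOP.log_diff_const isPreconnected_univ
    (F := fun t => F (t + N)) (G := F) (hFc.comp (continuous_add_const N)).continuousOn
    hFc.continuousOn (fun t _ => he t) (mem_univ t) (mem_univ 0)
  linear_combination this + hn

theorem logOn_of_per (h : JCurve γ N) {f : ℂ → ℂ} {F : ℝ → ℂ} (hF : Continuous F)
    (hp : ∀ t, F (t + N) = F t) (he : ∀ t, Complex.exp (F t) = f (γ t)) : LogOn (range γ) f := by
  have key : ∀ t, F (Function.invFun γ (γ t)) = F t := by
    intro t
    obtain ⟨k, hk⟩ := h.inj _ _ (Function.invFun_eq (f := γ) ⟨t, rfl⟩)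
    rw [hk]
    have hP : Function.Periodic F N := hp
    exact hP.int_mul k t
  refine ⟨fun z => F (Function.invFun γ z), ?_, ?_⟩
  · rw [continuousOn_iff_isClosed]
    intro C hC
    refine ⟨γ '' (Icc 0 N ∩ F ⁻¹' C), ?_, ?_⟩
    · exact ((isCompact_Icc.inter_right (hC.preimage hF)).image h.cont).isClosed
    · ext z
      constructor
      · rintro ⟨h1, t, rfl⟩
        have h2 : F t ∈ C := by rw [← key t]; exact h1
        have h3 : γ t ∈ γ '' Icc 0 (0 + N) := by rw [range_Icc h 0]; exact mem_range_self t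
        obtain ⟨s, hs, hst⟩ := h3
        rw [zero_add] at hs
        refine ⟨⟨s, ⟨hs, ?_⟩, hst⟩, mem_range_self t⟩
        show F s ∈ C
        rw [← key s, hst, key t]
        exact h2
      · rintro ⟨⟨s, ⟨-, hs⟩, rfl⟩, -⟩
        refine ⟨?_, mem_range_self s⟩
        show F _ ∈ C
        rw [key s]
        exact hs
  · rintro _ ⟨t, rfl⟩
    show Complex.exp (F (Function.invFun γ (γ t))) = f (γ t)
    rw [key, he]

/-- There are no two disjoint bounded open sets off the curve with frontiers in the curve. -/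
theorem no_two (h : JCurve γ N) {U V : Set ℂ} (hU : IsOpen U) (hUb : IsBounded U)
    (hUf : frontier U ⊆ range γ) (hUr : Disjoint U (range γ)) (hV : IsOpen V) (hVb : IsBounded V)
    (hVf : frontier V ⊆ range γ) (hVr : Disjoint V (range γ)) (hd : Disjoint U V) {p q : ℂ}
    (hp : p ∈ U) (hq : q ∈ V) : False := by
  have hcl : IsClosed (range γ) := (isCompact_range h).isClosed
  have hp0 : ∀ z ∈ range γ, z - p ≠ 0 := fun z hz h0 =>
    disjoint_left.1 hUr hp (by rw [← sub_eq_zero.1 h0]; exact hz)
  have hq0 : ∀ z ∈ range γ, z - q ≠ 0 := fun z hz h0 =>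
    disjoint_left.1 hVr hq (by rw [← sub_eq_zero.1 h0]; exact hz)
  obtain ⟨F, m, hF, hFe, hFp⟩ := exists_lift h (f := fun z => z - p)
    (continuousOn_id.sub continuousOn_const) hp0
  obtain ⟨G, n, hG, hGe, hGp⟩ := exists_lift h (f := fun z => z - q)
    (continuousOn_id.sub continuousOn_const) hq0
  have hqU : ∀ z ∈ closure U, z - q ≠ 0 := by
    intro z hz h0
    rw [sub_eq_zero.1 h0] at hz
    obtain ⟨x, hx, hx'⟩ := mem_closure_iff.1 hz V hV hq
    exact disjoint_left.1 hd hx' hx
  have h1 : LogOn (range γ) (fun z => (z - p) ^ n / (z - q) ^ m) := by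
    refine logOn_of_per h (F := fun t => n * F t - m * G t) (by fun_prop) ?_ ?_
    · intro t
      show (n : ℂ) * F (t + N) - m * G (t + N) = n * F t - m * G t
      rw [hFp, hGp]
      ring
    · intro t
      rw [Complex.exp_sub, Complex.exp_int_mul, Complex.exp_int_mul, hFe, hGe]
  have hn : n = 0 := by
    refine eq_zero_of_extension hcl hU hUb hUf hp (g := fun z => (z - q) ^ m) ?_ ?_ h1
    · exact (continuousOn_id.sub continuousOn_const).zpow₀ m fun z hz => Or.inl (hqU z hz)
    · exact fun z hz => zpow_ne_zero _ (hqU z hz)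
  have h2 : LogOn (range γ) (fun z => (z - q) ^ (1 : ℤ) / (1 : ℂ)) := by
    refine logOn_of_per h (F := G) hG (fun t => ?_) fun t => ?_
    · rw [hGp, hn]; simp
    · rw [hGe]; simp
  have := eq_zero_of_extension hcl hV hVb hVf hq (g := fun _ => (1 : ℂ)) continuousOn_const
    (fun _ _ => one_ne_zero) h2
  exact one_ne_zero this

end curve

namespace JDom

theorem disj (h : JDom D γ N) : Disjoint D (range γ) := by
  rw [← h.frontier_eq, disjoint_left]
  intro z hz hz'
  rw [frontier, h.isOpen.interior_eq] at hz'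
  exact hz'.2 hz

theorem closure_eq (h : JDom D γ N) : closure D = D ∪ range γ := by
  rw [closure_eq_self_union_frontier, h.frontier_eq]

/-- The outer domain. -/
theorem mem_out_iff (h : JDom D γ N) {z : ℂ} : z ∈ (closure D)ᶜ ↔ z ∉ D ∧ z ∉ range γ := by
  rw [h.closure_eq, mem_compl_iff, mem_union, not_or]

theorem comp_spec (h : JDom D γ N) {q : ℂ} (hq : q ∈ (closure D)ᶜ) :
    ¬ IsBounded (connectedComponentIn (range γ)ᶜ q) ∧
      connectedComponentIn (range γ)ᶜ q ⊆ (closure D)ᶜ := by
  have hcl : IsClosed (range γ) := (isCompact_range h.curve).isClosed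
  obtain ⟨hqD, hqr⟩ := h.mem_out_iff.1 hq
  set V := connectedComponentIn (range γ)ᶜ q with hV
  have hVo : IsOpen V := hcl.isOpen_compl.connectedComponentIn
  have hVf : frontier V ⊆ range γ := frontier_component_subset hcl q
  have hVs : V ⊆ (range γ)ᶜ := connectedComponentIn_subset _ _
  have hVr : Disjoint V (range γ) := disjoint_left.2 fun x hx hx' => hVs hx hx'
  have hqV : q ∈ V := mem_connectedComponentIn hqr
  have hVp : IsPreconnected V := isPreconnected_connectedComponentIn
  have hd : Disjoint D V := by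
    rw [disjoint_left]
    intro x hx hxV
    obtain ⟨y, hy1, hy2⟩ := inter_frontier hVp (s := D) ⟨x, hxV, hx⟩ ⟨q, hqV, hqD⟩
    rw [h.frontier_eq] at hy2
    exact hVs hy1 hy2
  refine ⟨fun hVb => ?_, fun x hx => ?_⟩
  · obtain ⟨p, hp⟩ := h.conn.nonempty
    exact no_two h.curve h.isOpen h.bdd h.frontier_eq.subset h.disj hVo hVb hVf hVr hd hp hqV
  · exact h.mem_out_iff.2 ⟨fun hxD => disjoint_left.1 hd hxD hx, hVs hx⟩

theorem out_preconn (h : JDom D γ N) : IsPreconnected (closure D)ᶜ := by
  obtain ⟨R, hR⟩ := h.bdd.closure.subset_ball 0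
  have hB : IsPreconnected (closedBall (0 : ℂ) R)ᶜ := isPreconnected_compl_closedBall 0 R
  have hBE : (closedBall (0 : ℂ) R)ᶜ ⊆ (closure D)ᶜ :=
    compl_subset_compl.2 (hR.trans ball_subset_closedBall)
  have hmeet : ∀ q ∈ (closure D)ᶜ, (connectedComponentIn (range γ)ᶜ q ∩
      (closedBall (0 : ℂ) R)ᶜ).Nonempty := by
    intro q hq
    by_contra hcon
    rw [not_nonempty_iff_eq_empty, ← disjoint_iff_inter_eq_empty, disjoint_compl_right_iff_subset]
      at hcon
    exact (h.comp_spec hq).1 (isBounded_closedBall.subset hcon)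
  refine isPreconnected_of_forall_pair fun q hq q' hq' => ?_
  have hqr := (h.mem_out_iff.1 hq).2
  have hqr' := (h.mem_out_iff.1 hq').2
  refine ⟨connectedComponentIn (range γ)ᶜ q ∪ (closedBall (0 : ℂ) R)ᶜ ∪
    connectedComponentIn (range γ)ᶜ q', ?_, ?_, ?_, ?_⟩
  · exact union_subset (union_subset (h.comp_spec hq).2 hBE) (h.comp_spec hq').2
  · exact Or.inl (Or.inl (mem_connectedComponentIn hqr))
  · exact Or.inr (mem_connectedComponentIn hqr')
  · refine IsPreconnected.union' ?_ (IsPreconnected.union' (hmeet q hq)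
      isPreconnected_connectedComponentIn hB) isPreconnected_connectedComponentIn
    obtain ⟨x, hx, hx'⟩ := hmeet q' hq'
    exact ⟨x, Or.inr hx', hx⟩

theorem out_unbdd (h : JDom D γ N) : ¬ IsBounded (closure D)ᶜ := by
  intro hb
  have h1 : IsBounded (univ : Set ℂ) := by
    rw [← union_compl_self (closure D)]
    exact h.bdd.closure.union hb
  exact NormedSpace.unbounded_univ ℂ ℂ h1

theorem out_nonempty (h : JDom D γ N) : (closure D)ᶜ.Nonempty := by
  by_contra hcon
  rw [not_nonempty_iff_eq_empty] at hcon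
  exact h.out_unbdd (by rw [hcon]; exact isBounded_empty)

theorem injOn_Icc (h : JCurve γ N) {a b : ℝ} (hab : b < a + N) : InjOn γ (Icc a b) := by
  intro x hx y hy hxy
  obtain ⟨k, hk⟩ := h.inj _ _ hxy
  have hN := h.pos
  have h1 : |(k : ℝ) * N| < N := by
    rw [abs_lt]
    have := hx.1
    have := hx.2
    have := hy.1
    have := hy.2
    constructor <;> linarith
  have h2 : |(k : ℝ)| < 1 := by
    rw [abs_mul, abs_of_pos hN] at h1
    by_contra hcon
    push Not at hcon
    nlinarith
  have h3 : k = 0 := by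
    rw [← Int.cast_abs] at h2
    have : |k| < 1 := by exact_mod_cast h2
    exact Int.abs_lt_one_iff.1 this
  rw [hk, h3]
  simp

theorem frontier_out (h : JDom D γ N) : frontier (closure D)ᶜ = range γ := by
  have hsub : frontier (closure D)ᶜ ⊆ range γ := by
    rw [frontier_compl, ← h.frontier_eq]
    exact frontier_closure_subset
  have hEo : IsOpen (closure D)ᶜ := isClosed_closure.isOpen_compl
  refine hsub.antisymm ?_
  rintro _ ⟨t₀, rfl⟩
  have hout : γ t₀ ∉ (closure D)ᶜ := fun hc => (h.mem_out_iff.1 hc).2 (mem_range_self t₀)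
  rw [frontier, hEo.interior_eq]
  refine ⟨?_, hout⟩
  by_contra hcon
  have hN := h.curve.pos
  have hopen : IsOpen (γ ⁻¹' (closure (closure D)ᶜ)ᶜ) :=
    isClosed_closure.isOpen_compl.preimage h.curve.cont
  obtain ⟨δ', hδ', hball⟩ := Metric.isOpen_iff.1 hopen t₀ hcon
  obtain ⟨δ, hδ, hδ1, hδ2⟩ : ∃ δ > 0, δ < δ' ∧ δ < N / 2 :=
    ⟨min δ' (N / 2) / 2, by positivity, by
      have := min_le_left δ' (N / 2)
      linarith, by
      have := min_le_right δ' (N / 2)
      linarith⟩
  set A := γ '' Icc (t₀ + δ) (t₀ + N - δ) with hA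
  have hAc : IsPathConnected Aᶜ := isPathConnected_compl_arc h.curve.cont.continuousOn
    (injOn_Icc h.curve (by linarith))
  have hAr : A ⊆ range γ := image_subset_range _ _
  have hfA : frontier (closure D)ᶜ ⊆ A := by
    intro x hx
    have hx' := hsub hx
    rw [← range_Icc h.curve t₀] at hx'
    obtain ⟨t, ht, rfl⟩ := hx'
    have hxc := frontier_subset_closure hx
    refine ⟨t, ⟨?_, ?_⟩, rfl⟩
    · by_contra hlt
      push Not at hlt
      refine hball ?_ hxc
      rw [mem_ball, Real.dist_eq, abs_lt]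
      have := ht.1
      constructor <;> linarith
    · by_contra hlt
      push Not at hlt
      have hm : t - N ∈ ball t₀ δ' := by
        rw [mem_ball, Real.dist_eq, abs_lt]
        have := ht.2
        constructor <;> linarith
      have := hball hm
      refine this ?_
      have he : γ (t - N) = γ t := by
        have := h.curve.per (t - N)
        rw [sub_add_cancel] at this
        exact this.symm
      rw [he]
      exact hxc
  obtain ⟨e, he⟩ := h.out_nonempty
  obtain ⟨d, hd⟩ := h.conn.nonempty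
  obtain ⟨y, hy, hy'⟩ := inter_frontier hAc.isConnected.isPreconnected
    (s := (closure D)ᶜ) ⟨e, fun hc => (h.mem_out_iff.1 he).2 (hAr hc), he⟩
    ⟨d, fun hc => disjoint_left.1 h.disj hd (hAr hc), fun hc => hc (subset_closure hd)⟩
  exact hy (hfA hy')

theorem closure_out (h : JDom D γ N) : closure (closure D)ᶜ = Dᶜ := by
  rw [closure_eq_self_union_frontier, h.frontier_out]
  ext z
  rw [mem_union, h.mem_out_iff, mem_compl_iff]
  constructor
  · rintro (⟨h1, -⟩ | h1)
    · exact h1
    · exact fun hz => disjoint_left.1 h.disj hz h1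
  · intro hz
    by_cases hr : z ∈ range γ
    · exact Or.inr hr
    · exact Or.inl ⟨hz, hr⟩

theorem noBdd (h : JDom D γ N) : NoBdd D := by
  intro z hz
  refine ⟨closure (closure D)ᶜ, h.out_preconn.closure, ?_, h.closure_out.subset, fun hb =>
    h.out_unbdd (hb.subset subset_closure)⟩
  rw [h.closure_out]
  exact hz

theorem good (h : JDom D γ N) : Good D where
  isOpen := h.isOpen
  rdom := ⟨h.conn, hasLogOn_of_noBdd h.isOpen h.conn.isPreconnected h.noBdd⟩
  bdd := h.bdd
  lc := h.curve.lc h.frontier_eq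
  nocut := h.curve.noCut h.frontier_eq

end JDom

end Vale.Agent.P148.R2.H592.Sch
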