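import Vale.Agent.P148.R2.H592.Sch1

/-!
# Inversion of the outer domain
-/

open Set Topology Metric Filter Bornology
open P153.TOP Vale.Agent.P153.R2.R1

namespace Vale.Agent.P148.R2.H592.Sch

variable {D : Set ℂ} {γ : ℝ → ℂ} {N : ℝ} {p : ℂ}

/-- The outer domain, inverted at `p`. -/
def inv (D : Set ℂ) (p : ℂ) : Set ℂ := {w | w = 0 ∨ p + w⁻¹ ∈ (closure D)ᶜ}

namespace JDom

theorem exists_closure_ball (h : JDom D γ N) (p : ℂ) : ∃ R > 0, closure D ⊆ ball p R := by
  obtain ⟨R, hR⟩ := h.bdd.closure.subset_ball p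
  exact ⟨max R 1, by positivity, hR.trans (ball_subset_ball (le_max_left _ _))⟩

theorem exists_ball (h : JDom D γ N) (hp : p ∈ D) : ∃ r > 0, ball p r ⊆ D :=
  Metric.isOpen_iff.1 h.isOpen p hp

theorem mem_inv_of_ne {w : ℂ} (hw : w ≠ 0) : w ∈ inv D p ↔ p + w⁻¹ ∈ (closure D)ᶜ :=
  ⟨fun h => h.resolve_left hw, Or.inr⟩

theorem ne_of_out (hp : p ∈ D) {z : ℂ} (hz : z ∈ (closure D)ᶜ) : z ≠ p := by
  rintro rfl
  exact hz (subset_closure hp)

theorem sub_inv_mem (hp : p ∈ D) {z : ℂ} (hz : z ∈ (closure D)ᶜ) : (z - p)⁻¹ ∈ inv D p := by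
  have h1 : z - p ≠ 0 := sub_ne_zero.2 (ne_of_out hp hz)
  rw [mem_inv_of_ne (inv_ne_zero h1), inv_inv, add_sub_cancel]
  exact hz

theorem ne_curve (h : JDom D γ N) (hp : p ∈ D) (t : ℝ) : γ t - p ≠ 0 := by
  intro h0
  exact disjoint_left.1 h.disj hp (by rw [← sub_eq_zero.1 h0]; exact mem_range_self t)

theorem isOpen_inv (h : JDom D γ N) : IsOpen (inv D p) := by
  obtain ⟨R, hR0, hR⟩ := h.exists_closure_ball p
  have he : inv D p = ball 0 R⁻¹ ∪ ({0}ᶜ ∩ (fun w : ℂ => p + w⁻¹) ⁻¹' (closure D)ᶜ) := by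
    ext w
    constructor
    · rintro (rfl | hw)
      · exact Or.inl (mem_ball_self (inv_pos.2 hR0))
      · by_cases h0 : w = 0
        · rw [h0]
          exact Or.inl (mem_ball_self (inv_pos.2 hR0))
        · exact Or.inr ⟨h0, hw⟩
    · rintro (hw | hw)
      · by_cases h0 : w = 0
        · exact Or.inl h0
        · refine Or.inr fun hc => ?_
          have h1 := hR hc
          rw [mem_ball, dist_eq_norm, add_sub_cancel_left, norm_inv] at h1
          rw [mem_ball_zero_iff] at hw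
          have h2 : 0 < ‖w‖ := norm_pos_iff.2 h0
          have h3 := (inv_lt_comm₀ h2 hR0).1 h1
          exact absurd hw (not_lt.2 h3.le)
      · exact Or.inr hw.2
  rw [he]
  refine isOpen_ball.union (ContinuousOn.isOpen_inter_preimage ?_ isOpen_compl_singleton
    isClosed_closure.isOpen_compl)
  intro w hw
  exact (continuousAt_const.add (continuousAt_inv₀ hw)).continuousWithinAt

theorem bdd_inv (h : JDom D γ N) (hp : p ∈ D) : IsBounded (inv D p) := by
  obtain ⟨r, hr, hrD⟩ := h.exists_ball hp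
  refine (isBounded_closedBall (x := (0 : ℂ)) (r := r⁻¹)).subset ?_
  intro w hw
  rw [mem_closedBall_zero_iff]
  by_cases h0 : w = 0
  · rw [h0, norm_zero]; positivity
  · rw [mem_inv_of_ne h0] at hw
    have h1 : ¬ (p + w⁻¹ ∈ ball p r) := fun hc => hw (subset_closure (hrD hc))
    rw [mem_ball, dist_eq_norm, add_sub_cancel_left, norm_inv, not_lt] at h1
    exact (le_inv_comm₀ hr (norm_pos_iff.2 h0)).1 h1

theorem conn_inv (h : JDom D γ N) (hp : p ∈ D) : IsConnected (inv D p) := by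
  refine ⟨⟨0, Or.inl rfl⟩, ?_⟩
  have h1 : IsPreconnected ((fun z : ℂ => (z - p)⁻¹) '' (closure D)ᶜ) := by
    refine h.out_preconn.image _ ?_
    refine (continuousOn_id.sub continuousOn_const).inv₀ fun z hz => ?_
    exact sub_ne_zero.2 (ne_of_out hp hz)
  refine h1.subset_closure ?_ ?_
  · rintro _ ⟨z, hz, rfl⟩
    exact sub_inv_mem hp hz
  · intro w hw
    by_cases h0 : w = 0
    · rw [h0, Metric.mem_closure_iff]
      intro ε hε
      obtain ⟨z, hz, hz'⟩ : ∃ z ∈ (closure D)ᶜ, z ∉ closedBall p ε⁻¹ := by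
        by_contra hcon
        push Not at hcon
        exact h.out_unbdd (isBounded_closedBall.subset hcon)
      refine ⟨_, mem_image_of_mem _ hz, ?_⟩
      rw [mem_closedBall, not_le, dist_eq_norm] at hz'
      rw [dist_zero_left, norm_inv]
      exact (inv_lt_comm₀ ((inv_pos.2 hε).trans hz') hε).2 hz'
    · refine subset_closure ⟨p + w⁻¹, (mem_inv_of_ne h0).1 hw, ?_⟩
      show (p + w⁻¹ - p)⁻¹ = w
      rw [add_sub_cancel_left, inv_inv]

theorem curve_inv (h : JDom D γ N) (hp : p ∈ D) : JCurve (fun t => (γ t - p)⁻¹) N where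
  pos := h.curve.pos
  cont := (h.curve.cont.sub continuous_const).inv₀ (h.ne_curve hp)
  per x := by show (γ (x + N) - p)⁻¹ = _; rw [h.curve.per]
  inj x y hxy := h.curve.inj x y (sub_left_injective (inv_injective hxy))

theorem frontier_inv (h : JDom D γ N) (hp : p ∈ D) :
    frontier (inv D p) = range fun t => (γ t - p)⁻¹ := by
  have hrange : ∀ z, z ∈ range γ ↔ z ∈ closure (closure D)ᶜ ∧ z ∉ (closure D)ᶜ := by
    intro z
    rw [← h.frontier_out, frontier, isClosed_closure.isOpen_compl.interior_eq, Set.mem_sdiff]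
  ext w
  rw [frontier, h.isOpen_inv.interior_eq, Set.mem_sdiff]
  constructor
  · rintro ⟨h1, h2⟩
    have h0 : w ≠ 0 := fun h0 => h2 (Or.inl h0)
    rw [mem_inv_of_ne h0] at h2
    have h3 : p + w⁻¹ ∈ closure (closure D)ᶜ := by
      have hw' : w ∈ closure (inv D p ∩ {0}ᶜ) := by
        rw [_root_.mem_closure_iff] at h1 ⊢
        intro o ho hwo
        obtain ⟨x, ⟨hx1, hx2⟩, hx3⟩ := h1 (o ∩ {0}ᶜ) (ho.inter isOpen_compl_singleton) ⟨hwo, h0⟩
        exact ⟨x, hx1, hx3, hx2⟩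
      have hc : ContinuousWithinAt (fun w : ℂ => p + w⁻¹) (inv D p ∩ {0}ᶜ) w :=
        (continuousAt_const.add (continuousAt_inv₀ h0)).continuousWithinAt
      exact hc.mem_closure hw' fun x hx => (mem_inv_of_ne hx.2).1 hx.1
    obtain ⟨t, ht⟩ := (hrange _).2 ⟨h3, h2⟩
    refine ⟨t, ?_⟩
    show (γ t - p)⁻¹ = w
    rw [ht, add_sub_cancel_left, inv_inv]
  · rintro ⟨t, rfl⟩
    have h0 := h.ne_curve hp t
    obtain ⟨h1, h2⟩ := (hrange (γ t)).1 (mem_range_self t)
    refine ⟨?_, fun hc => ?_⟩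
    · have hc : ContinuousWithinAt (fun z : ℂ => (z - p)⁻¹) (closure D)ᶜ (γ t) :=
        ((continuousAt_id.sub continuousAt_const).inv₀ h0).continuousWithinAt
      exact hc.mem_closure h1 fun z hz => sub_inv_mem hp hz
    · rw [mem_inv_of_ne (inv_ne_zero h0), inv_inv, add_sub_cancel] at hc
      exact h2 hc

theorem inv (h : JDom D γ N) (hp : p ∈ D) : JDom (inv D p) (fun t => (γ t - p)⁻¹) N where
  isOpen := h.isOpen_inv
  conn := h.conn_inv hp
  bdd := h.bdd_inv hp
  curve := h.curve_inv hp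
  frontier_eq := h.frontier_inv hp

end JDom

end Vale.Agent.P148.R2.H592.Sch
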