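import Vale.Agent.P148.R2.H592.Sch2

/-!
# Gluing the inner and the outer map
-/

open Set Topology Metric Filter Bornology
open P153.TOP Vale.Agent.P153.R2.R1

namespace Vale.Agent.P148.R2.H592.Sch

/-! ### The square norm -/

/-- The norm whose unit ball is the square. -/
noncomputable def nrm (z : ℂ) : ℝ := max |z.re| |z.im|

/-- The boundary of the square. -/
def bd : Set ℂ := {z | nrm z = 1}

theorem continuous_nrm : Continuous nrm := by
  unfold nrm
  fun_prop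

theorem nrm_nonneg (z : ℂ) : 0 ≤ nrm z := (abs_nonneg _).trans (le_max_left _ _)

theorem nrm_zero : nrm 0 = 0 := by simp [nrm]

theorem nrm_eq_zero {z : ℂ} : nrm z = 0 ↔ z = 0 := by
  constructor
  · intro h
    have h1 : |z.re| ≤ 0 := h ▸ le_max_left _ _
    have h2 : |z.im| ≤ 0 := h ▸ le_max_right _ _
    exact Complex.ext (abs_nonpos_iff.1 h1) (abs_nonpos_iff.1 h2)
  · rintro rfl
    exact nrm_zero

theorem nrm_pos {z : ℂ} (hz : z ≠ 0) : 0 < nrm z :=
  lt_of_le_of_ne (nrm_nonneg z) fun h => hz (nrm_eq_zero.1 h.symm)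

theorem nrm_mul (r : ℝ) (z : ℂ) : nrm ((r : ℂ) * z) = |r| * nrm z := by
  unfold nrm
  rw [Complex.re_ofReal_mul, Complex.im_ofReal_mul, abs_mul, abs_mul,
    mul_max_of_nonneg _ _ (abs_nonneg r)]

theorem norm_le_nrm (z : ℂ) : ‖z‖ ≤ 2 * nrm z := by
  have h1 : |z.re| ≤ nrm z := le_max_left _ _
  have h2 : |z.im| ≤ nrm z := le_max_right _ _
  have := Complex.norm_le_abs_re_add_abs_im z
  linarith

theorem nrm_le_norm (z : ℂ) : nrm z ≤ ‖z‖ :=
  max_le (Complex.abs_re_le_norm z) (Complex.abs_im_le_norm z)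

theorem scale_mem {z : ℂ} (hz : z ≠ 0) : (((nrm z)⁻¹ : ℝ) : ℂ) * z ∈ bd := by
  show nrm _ = 1
  rw [nrm_mul, abs_of_pos (inv_pos.2 (nrm_pos hz)), inv_mul_cancel₀ (nrm_pos hz).ne']

theorem scale_back {z : ℂ} (hz : z ≠ 0) : ((nrm z : ℝ) : ℂ) * ((((nrm z)⁻¹ : ℝ) : ℂ) * z) = z := by
  rw [← mul_assoc, ← Complex.ofReal_mul, mul_inv_cancel₀ (nrm_pos hz).ne', Complex.ofReal_one,
    one_mul]

theorem ne_zero_of_bd {z : ℂ} (hz : z ∈ bd) : z ≠ 0 := by
  rintro rfl
  exact zero_ne_one (nrm_zero.symm.trans hz)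

theorem scale_of {y : ℂ} (hy : y ∈ bd) {r : ℝ} (hr : 0 < r) :
    nrm ((r : ℂ) * y) = r ∧ (((nrm ((r : ℂ) * y))⁻¹ : ℝ) : ℂ) * ((r : ℂ) * y) = y := by
  have h1 : nrm ((r : ℂ) * y) = r := by
    rw [nrm_mul, abs_of_pos hr, show nrm y = 1 from hy, mul_one]
  refine ⟨h1, ?_⟩
  rw [h1, ← mul_assoc, ← Complex.ofReal_mul, inv_mul_cancel₀ hr.ne', Complex.ofReal_one, one_mul]

/-! ### Cones -/

/-- A homeomorphism of the boundary of the square onto the circle. -/
structure BdMap (h : ℂ → ℂ) : Prop where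
  cont : ContinuousOn h bd
  maps : ∀ z ∈ bd, ‖h z‖ = 1
  inj : InjOn h bd
  surj : ∀ w : ℂ, ‖w‖ = 1 → ∃ z ∈ bd, h z = w

/-- The radial extension to the inside. -/
noncomputable def cone (h : ℂ → ℂ) (z : ℂ) : ℂ :=
  ((nrm z : ℝ) : ℂ) * h ((((nrm z)⁻¹ : ℝ) : ℂ) * z)

/-- The radial extension of the outside. -/
noncomputable def cone' (h : ℂ → ℂ) (z : ℂ) : ℂ :=
  (((nrm z)⁻¹ : ℝ) : ℂ) * h ((((nrm z)⁻¹ : ℝ) : ℂ) * z)

theorem cone_of_bd (h : ℂ → ℂ) {z : ℂ} (hz : z ∈ bd) : cone h z = h z := by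
  have h1 : nrm z = 1 := hz
  rw [cone, h1]
  simp

theorem cone'_of_bd (h : ℂ → ℂ) {z : ℂ} (hz : z ∈ bd) : cone' h z = h z := by
  have h1 : nrm z = 1 := hz
  rw [cone', h1]
  simp

namespace BdMap

variable {h : ℂ → ℂ}

theorem norm_cone (hh : BdMap h) (z : ℂ) : ‖cone h z‖ = nrm z := by
  by_cases hz : z = 0
  · rw [hz, cone, nrm_zero]; simp
  · rw [cone, norm_mul, hh.maps _ (scale_mem hz), mul_one, Complex.norm_real, Real.norm_eq_abs,
      abs_of_nonneg (nrm_nonneg z)]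

theorem norm_cone' (hh : BdMap h) {z : ℂ} (hz : z ≠ 0) : ‖cone' h z‖ = (nrm z)⁻¹ := by
  rw [cone', norm_mul, hh.maps _ (scale_mem hz), mul_one, Complex.norm_real, Real.norm_eq_abs,
    abs_of_nonneg (inv_nonneg.2 (nrm_nonneg z))]

theorem cont_scale (hh : BdMap h) :
    ContinuousOn (fun z : ℂ => h ((((nrm z)⁻¹ : ℝ) : ℂ) * z)) {0}ᶜ := by
  refine hh.cont.comp (ContinuousOn.mul (Complex.continuous_ofReal.comp_continuousOn
    (continuous_nrm.continuousOn.inv₀ fun z hz => (nrm_pos hz).ne')) continuousOn_id) ?_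
  exact fun z hz => scale_mem hz

theorem continuous_cone (hh : BdMap h) : Continuous (cone h) := by
  rw [continuous_iff_continuousAt]
  intro z
  by_cases hz : z = 0
  · subst hz
    have h1 : Tendsto (fun z => ‖cone h z‖) (𝓝 0) (𝓝 0) := by
      have h2 : Tendsto nrm (𝓝 0) (𝓝 0) := by
        have := continuous_nrm.tendsto 0
        rwa [nrm_zero] at this
      exact h2.congr fun z => (hh.norm_cone z).symm
    have h3 : cone h 0 = 0 := by rw [← norm_eq_zero, hh.norm_cone, nrm_zero]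
    rw [ContinuousAt, h3]
    exact tendsto_zero_iff_norm_tendsto_zero.2 h1
  · have ho : ({0}ᶜ : Set ℂ) ∈ 𝓝 z := isOpen_compl_singleton.mem_nhds hz
    exact (((Complex.continuous_ofReal.comp continuous_nrm).continuousOn.mul
      hh.cont_scale).continuousAt ho)

theorem cont_cone' (hh : BdMap h) : ContinuousOn (cone' h) {0}ᶜ :=
  (Complex.continuous_ofReal.comp_continuousOn
    (continuous_nrm.continuousOn.inv₀ fun _ hz => (nrm_pos hz).ne')).mul hh.cont_scale

theorem aux_inj (hh : BdMap h) {z z' : ℂ} (hz : z ≠ 0) (hz' : z' ≠ 0) (hn : nrm z = nrm z')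
    (he : h ((((nrm z)⁻¹ : ℝ) : ℂ) * z) = h ((((nrm z')⁻¹ : ℝ) : ℂ) * z')) : z = z' := by
  have h1 := hh.inj (scale_mem hz) (scale_mem hz') he
  rw [← scale_back hz, h1, hn, scale_back hz']

theorem cone_inj (hh : BdMap h) : Function.Injective (cone h) := by
  intro z z' he
  have hn : nrm z = nrm z' := by rw [← hh.norm_cone z, he, hh.norm_cone z']
  by_cases hz : z = 0
  · rw [hz, nrm_zero] at hn
    rw [hz, nrm_eq_zero.1 hn.symm]
  · have hz' : z' ≠ 0 := fun h0 => hz (nrm_eq_zero.1 (by rw [hn, h0, nrm_zero]))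
    refine hh.aux_inj hz hz' hn ?_
    have h0 : ((nrm z : ℝ) : ℂ) ≠ 0 := by exact_mod_cast (nrm_pos hz).ne'
    refine mul_left_cancel₀ h0 ?_
    rw [cone, cone, ← hn] at he
    rw [← hn]
    exact he

theorem cone'_inj (hh : BdMap h) {z z' : ℂ} (hz : z ≠ 0) (hz' : z' ≠ 0)
    (he : cone' h z = cone' h z') : z = z' := by
  have hn : nrm z = nrm z' := by
    have := hh.norm_cone' hz
    rw [he, hh.norm_cone' hz'] at this
    exact (inv_injective this).symm
  refine hh.aux_inj hz hz' hn ?_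
  have h0 : (((nrm z)⁻¹ : ℝ) : ℂ) ≠ 0 := by exact_mod_cast (inv_pos.2 (nrm_pos hz)).ne'
  refine mul_left_cancel₀ h0 ?_
  rw [cone', cone', ← hn] at he
  rw [← hn]
  exact he

theorem cone_surj (hh : BdMap h) (w : ℂ) : ∃ z, nrm z = ‖w‖ ∧ cone h z = w := by
  by_cases hw : w = 0
  · refine ⟨0, by rw [hw, nrm_zero, norm_zero], ?_⟩
    rw [hw, ← norm_eq_zero, hh.norm_cone, nrm_zero]
  · have hw0 : 0 < ‖w‖ := norm_pos_iff.2 hw
    obtain ⟨y, hy, he⟩ := hh.surj ((((‖w‖)⁻¹ : ℝ) : ℂ) * w) (by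
      rw [norm_mul, Complex.norm_real, Real.norm_eq_abs, abs_of_pos (inv_pos.2 hw0),
        inv_mul_cancel₀ hw0.ne'])
    obtain ⟨h1, h2⟩ := scale_of hy hw0
    refine ⟨((‖w‖ : ℝ) : ℂ) * y, h1, ?_⟩
    rw [cone, h2, h1, he, ← mul_assoc, ← Complex.ofReal_mul, mul_inv_cancel₀ hw0.ne',
      Complex.ofReal_one, one_mul]

theorem cone'_surj (hh : BdMap h) {w : ℂ} (hw : w ≠ 0) :
    ∃ z, nrm z = ‖w‖⁻¹ ∧ cone' h z = w := by
  have hw0 : 0 < ‖w‖ := norm_pos_iff.2 hw
  obtain ⟨y, hy, he⟩ := hh.surj ((((‖w‖)⁻¹ : ℝ) : ℂ) * w) (by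
    rw [norm_mul, Complex.norm_real, Real.norm_eq_abs, abs_of_pos (inv_pos.2 hw0),
      inv_mul_cancel₀ hw0.ne'])
  obtain ⟨h1, h2⟩ := scale_of hy (inv_pos.2 hw0)
  refine ⟨((‖w‖⁻¹ : ℝ) : ℂ) * y, h1, ?_⟩
  rw [cone', h2, h1, he, inv_inv, ← mul_assoc, ← Complex.ofReal_mul, mul_inv_cancel₀ hw0.ne',
    Complex.ofReal_one, one_mul]

end BdMap

/-! ### Boundary maps from parametrisations -/

/-- A homeomorphism of the boundary of the square onto `S`. -/
structure Par (u : ℂ → ℂ) (S : Set ℂ) : Prop where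
  cont : ContinuousOn u bd
  inj : InjOn u bd
  img : u '' bd = S

theorem Par.bdMap {u Φ : ℂ → ℂ} {D : Set ℂ} (hΦ : CConf Φ D) (hn : NoCut D)
    (hu : Par u (frontier D)) : ∃ h, BdMap h ∧ ∀ z ∈ bd, Φ (h z) = u z := by
  have hex : ∀ z ∈ bd, ∃ y ∈ sphere (0 : ℂ) 1, Φ y = u z := by
    intro z hz
    have : u z ∈ Φ '' sphere 0 1 := by
      rw [hΦ.frontier_eq, ← hu.img]
      exact mem_image_of_mem _ hz
    exact this
  choose! h hs he using hex
  refine ⟨h, ⟨?_, ?_, ?_, ?_⟩, he⟩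
  · intro z hz
    refine hΦ.tendsto_inv hn ?_ (sphere_subset_closedBall (hs z hz)) ?_
    · filter_upwards [self_mem_nhdsWithin] with i hi
      exact sphere_subset_closedBall (hs i hi)
    · rw [he z hz]
      refine (hu.cont z hz).tendsto.congr' ?_
      filter_upwards [self_mem_nhdsWithin] with i hi
      exact (he i hi).symm
  · exact fun z hz => mem_sphere_zero_iff_norm.1 (hs z hz)
  · intro z hz z' hz' hzz
    exact hu.inj hz hz' (by rw [← he z hz, ← he z' hz', hzz])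
  · intro w hw
    have hw' : w ∈ sphere (0 : ℂ) 1 := mem_sphere_zero_iff_norm.2 hw
    have h1 : Φ w ∈ frontier D := hΦ.sphere_mem hw'
    rw [← hu.img] at h1
    obtain ⟨z, hz, hzw⟩ := h1
    refine ⟨z, hz, hΦ.injOn hn (sphere_subset_closedBall (hs z hz))
      (sphere_subset_closedBall hw') ?_⟩
    rw [he z hz, hzw]

/-! ### Gluing -/

/-- A continuous bijection of the plane which tends to infinity at infinity is a homeomorphism. -/
theorem exists_homeo {H : ℂ → ℂ} (hc : Continuous H) (hb : Function.Bijective H)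
    (ht : Tendsto (fun z => ‖H z‖) (cobounded ℂ) atTop) : ∃ G : ℂ ≃ₜ ℂ, ∀ z, G z = H z := by
  have hp : IsProperMap H := by
    rw [isProperMap_iff_tendsto_cocompact]
    refine ⟨hc, ?_⟩
    rw [← Metric.cobounded_eq_cocompact]
    exact tendsto_norm_atTop_iff_cobounded.1 ht
  exact ⟨(Equiv.ofBijective H hb).toHomeomorphOfContinuousClosed hc hp.isClosedMap, fun _ => rfl⟩

variable {D : Set ℂ} {γ : ℝ → ℂ} {N : ℝ}

/-- **Schoenflies theorem**, with a given parametrisation of the boundary. -/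
theorem JDom.schoenflies (hD : JDom D γ N) {u : ℂ → ℂ} (hu : Par u (range γ)) :
    ∃ G : ℂ ≃ₜ ℂ, (∀ z ∈ bd, G z = u z) ∧ G '' {z | nrm z < 1} = D := by
  obtain ⟨p, hp⟩ := hD.conn.nonempty
  have hE := hD.inv hp
  obtain ⟨Φ, hΦ, hΦ0, -⟩ := hD.good.exists_cconf hp
  obtain ⟨Ψ, hΨ, hΨ0, -⟩ := hE.good.exists_cconf (z₀ := 0) (Or.inl rfl)
  have hΦi := hΦ.injOn hD.good.nocut
  have hΨi := hΨ.injOn hE.good.nocut
  obtain ⟨h₁, hh₁, he₁⟩ := Par.bdMap hΦ hD.good.nocut (u := u) (by rw [hD.frontier_eq]; exact hu)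
  have hup : ∀ z ∈ bd, u z - p ≠ 0 := by
    intro z hz
    have : u z ∈ range γ := by rw [← hu.img]; exact mem_image_of_mem _ hz
    obtain ⟨t, ht⟩ := this
    rw [← ht]
    exact hD.ne_curve hp t
  have hu' : Par (fun z => (u z - p)⁻¹) (frontier (Sch.inv D p)) := by
    refine ⟨(hu.cont.sub continuousOn_const).inv₀ hup, ?_, ?_⟩
    · intro z hz z' hz' he
      exact hu.inj hz hz' (sub_left_injective (inv_injective he))
    · rw [hE.frontier_eq]
      ext w
      constructor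
      · rintro ⟨z, hz, rfl⟩
        have : u z ∈ range γ := by rw [← hu.img]; exact mem_image_of_mem _ hz
        obtain ⟨t, ht⟩ := this
        refine ⟨t, ?_⟩
        show (γ t - p)⁻¹ = (u z - p)⁻¹
        rw [ht]
      · rintro ⟨t, rfl⟩
        have : γ t ∈ u '' bd := by rw [hu.img]; exact mem_range_self t
        obtain ⟨z, hz, hzt⟩ := this
        refine ⟨z, hz, ?_⟩
        show (u z - p)⁻¹ = (γ t - p)⁻¹
        rw [hzt]
  obtain ⟨h₂, hh₂, he₂⟩ := Par.bdMap hΨ hE.good.nocut hu'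
  -- membership
  have hball₁ : ∀ z, nrm z ≤ 1 → cone h₁ z ∈ closedBall (0 : ℂ) 1 := fun z hz => by
    rw [mem_closedBall_zero_iff, hh₁.norm_cone]; exact hz
  have hball₂ : ∀ z, 1 ≤ nrm z → cone' h₂ z ∈ closedBall (0 : ℂ) 1 := fun z hz => by
    have h0 : z ≠ 0 := fun h0 => by rw [h0, nrm_zero] at hz; linarith
    rw [mem_closedBall_zero_iff, hh₂.norm_cone' h0]
    exact inv_le_one_of_one_le₀ hz
  have hne₂ : ∀ z, 1 ≤ nrm z → Ψ (cone' h₂ z) ≠ 0 := by
    intro z hz h0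
    have hz0 : z ≠ 0 := fun h0 => by rw [h0, nrm_zero] at hz; linarith
    have h1 := hΨi (hball₂ z hz) (mem_closedBall_self zero_le_one) (h0.trans hΨ0.symm)
    have h2 := hh₂.norm_cone' hz0
    rw [h1, norm_zero] at h2
    exact absurd h2.symm (inv_pos.2 (nrm_pos hz0)).ne'
  set H : ℂ → ℂ := fun z => if nrm z ≤ 1 then Φ (cone h₁ z) else p + (Ψ (cone' h₂ z))⁻¹ with hH
  have hin : ∀ z, nrm z ≤ 1 → H z = Φ (cone h₁ z) := fun z hz => if_pos hz
  have hout : ∀ z, 1 < nrm z → H z = p + (Ψ (cone' h₂ z))⁻¹ := fun z hz => if_neg (not_le.2 hz)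
  have hinD : ∀ z, nrm z ≤ 1 → H z ∈ closure D := by
    intro z hz
    rw [hin z hz, ← hΦ.closure_eq]
    exact mem_image_of_mem _ (hball₁ z hz)
  have houtD : ∀ z, 1 < nrm z → H z ∉ closure D := by
    intro z hz
    rw [hout z hz]
    have hz0 : z ≠ 0 := fun h0 => by rw [h0, nrm_zero] at hz; linarith
    have h1 : Ψ (cone' h₂ z) ∈ Sch.inv D p := by
      refine hΨ.mem ?_
      rw [mem_ball_zero_iff, hh₂.norm_cone' hz0]
      exact inv_lt_one_of_one_lt₀ hz
    exact (JDom.mem_inv_of_ne (hne₂ z hz.le)).1 h1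
  have hcont : Continuous H := by
    refine continuous_if_le continuous_nrm continuous_const ?_ ?_ ?_
    · exact hΦ.cont.comp hh₁.continuous_cone.continuousOn hball₁
    · refine continuousOn_const.add (ContinuousOn.inv₀ ?_ hne₂)
      refine hΨ.cont.comp (hh₂.cont_cone'.mono ?_) hball₂
      intro z hz h0
      have hz' : 1 ≤ nrm z := hz
      rw [show z = 0 from h0, nrm_zero] at hz'
      linarith
    · intro z hz
      have hz' : z ∈ bd := hz
      rw [cone_of_bd _ hz', cone'_of_bd _ hz', he₁ z hz', he₂ z hz', inv_inv, add_sub_cancel]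
  have hinj : Function.Injective H := by
    intro z z' he
    rcases le_or_gt (nrm z) 1 with h1 | h1 <;> rcases le_or_gt (nrm z') 1 with h2 | h2
    · rw [hin z h1, hin z' h2] at he
      exact hh₁.cone_inj (hΦi (hball₁ z h1) (hball₁ z' h2) he)
    · exact (houtD z' h2 (he ▸ hinD z h1)).elim
    · exact (houtD z h1 (he ▸ hinD z' h2)).elim
    · have h3 : z ≠ 0 := fun h0 => by rw [h0, nrm_zero] at h1; linarith
      have h4 : z' ≠ 0 := fun h0 => by rw [h0, nrm_zero] at h2; linarith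
      rw [hout z h1, hout z' h2] at he
      exact hh₂.cone'_inj h3 h4 (hΨi (hball₂ z h1.le) (hball₂ z' h2.le)
        (inv_injective (add_left_cancel he)))
  have hsurj : Function.Surjective H := by
    intro w
    by_cases hw : w ∈ closure D
    · rw [← hΦ.closure_eq] at hw
      obtain ⟨y, hy, rfl⟩ := hw
      obtain ⟨z, hz, hzy⟩ := hh₁.cone_surj y
      rw [mem_closedBall_zero_iff] at hy
      exact ⟨z, by rw [hin z (by rw [hz]; exact hy), hzy]⟩
    · have h1 : (w - p)⁻¹ ∈ Sch.inv D p := JDom.sub_inv_mem hp hw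
      have h0 : w - p ≠ 0 := sub_ne_zero.2 (JDom.ne_of_out hp hw)
      rw [← hΨ.img] at h1
      obtain ⟨y, hy, hyw⟩ := h1
      have hy0 : y ≠ 0 := by
        rintro rfl
        rw [hΨ0] at hyw
        exact inv_ne_zero h0 hyw.symm
      obtain ⟨z, hz, hzy⟩ := hh₂.cone'_surj hy0
      rw [mem_ball_zero_iff] at hy
      have hz1 : 1 < nrm z := by
        rw [hz]
        exact (one_lt_inv₀ (norm_pos_iff.2 hy0)).2 hy
      exact ⟨z, by rw [hout z hz1, hzy, hyw, inv_inv, add_sub_cancel]⟩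
  have htend : Tendsto (fun z => ‖H z‖) (cobounded ℂ) atTop := by
    have h1 : Tendsto nrm (cobounded ℂ) atTop := by
      have h2 : Tendsto (fun z : ℂ => ‖z‖ / 2) (cobounded ℂ) atTop :=
        tendsto_norm_cobounded_atTop.atTop_div_const two_pos
      refine tendsto_atTop_mono (fun z => ?_) h2
      have := norm_le_nrm z
      linarith
    have h3 : ∀ᶠ z in cobounded ℂ, 1 < nrm z := h1.eventually_gt_atTop 1
    have h4 : Tendsto (fun z => cone' h₂ z) (cobounded ℂ) (𝓝 0) := by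
      rw [tendsto_zero_iff_norm_tendsto_zero]
      refine (tendsto_inv_atTop_zero.comp h1).congr' ?_
      filter_upwards [h3] with z hz
      have hz0 : z ≠ 0 := fun h0 => by rw [h0, nrm_zero] at hz; linarith
      exact (hh₂.norm_cone' hz0).symm
    have h5 : Tendsto (fun z => Ψ (cone' h₂ z)) (cobounded ℂ) (𝓝 0) := by
      have h6 : Tendsto Ψ (𝓝[closedBall 0 1] 0) (𝓝 (Ψ 0)) :=
        hΨ.cont 0 (mem_closedBall_self zero_le_one)
      rw [hΨ0] at h6
      refine h6.comp (tendsto_nhdsWithin_iff.2 ⟨h4, ?_⟩)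
      filter_upwards [h3] with z hz
      exact hball₂ z hz.le
    have h7 : Tendsto (fun z => Ψ (cone' h₂ z)) (cobounded ℂ) (𝓝[≠] 0) := by
      refine tendsto_nhdsWithin_iff.2 ⟨h5, ?_⟩
      filter_upwards [h3] with z hz
      exact hne₂ z hz.le
    have h8 : Tendsto (fun z => ‖(Ψ (cone' h₂ z))⁻¹‖ - ‖p‖) (cobounded ℂ) atTop :=
      tendsto_atTop_add_const_right _ _
        (tendsto_norm_cobounded_atTop.comp (tendsto_inv₀_nhdsNE_zero.comp h7))
    refine tendsto_atTop_mono' _ ?_ h8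
    filter_upwards [h3] with z hz
    rw [hout z hz]
    have h9 := norm_sub_le (p + (Ψ (cone' h₂ z))⁻¹) p
    rw [add_sub_cancel_left] at h9
    linarith
  obtain ⟨G, hG⟩ := exists_homeo hcont ⟨hinj, hsurj⟩ htend
  refine ⟨G, fun z hz => ?_, ?_⟩
  · rw [hG, hin z (le_of_eq hz), cone_of_bd _ hz, he₁ z hz]
  · apply Subset.antisymm
    · rintro _ ⟨z, hz, rfl⟩
      have hz' : nrm z < 1 := hz
      rw [hG, hin z hz'.le]
      refine hΦ.mem ?_
      rw [mem_ball_zero_iff, hh₁.norm_cone]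
      exact hz'
    · intro w hw
      rw [← hΦ.img] at hw
      obtain ⟨y, hy, rfl⟩ := hw
      obtain ⟨z, hz, hzy⟩ := hh₁.cone_surj y
      rw [mem_ball_zero_iff, ← hz] at hy
      exact ⟨z, hy, by rw [hG, hin z hy.le, hzy]⟩

end Vale.Agent.P148.R2.H592.Sch
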