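import Vale.Agent.P148.R2.H592.Sch3
import Vale.Agent.P148.Defs

/-!
# Every marked Jordan domain is a quad

`exists_quad`: for a bounded domain `D` whose frontier is a Jordan curve `γ` of period `N`, and
parameters `t0 < t1 < t2 < t3 < t0 + N`, there is a homeomorphism of the plane which maps the open
square onto `D`, its corners to the points `γ ti` and its sides to the arcs between them.
-/

open Set Topology Metric Filter Bornology
open P153.TOP Vale.Agent.P153.R2.R1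

namespace Vale.Agent.P148.R2.H592.Sch

open _root_.P148

theorem bd_eq : bd = side 0 ∪ side 1 ∪ (side 2 ∪ side 3) := by
  ext z
  show nrm z = 1 ↔ ((|z.re| ≤ 1 ∧ z.im = -1) ∨ (z.re = 1 ∧ |z.im| ≤ 1)) ∨
    ((|z.re| ≤ 1 ∧ z.im = 1) ∨ (z.re = -1 ∧ |z.im| ≤ 1))
  constructor
  · intro h
    have h1 : |z.re| ≤ 1 := h ▸ le_max_left _ _
    have h2 : |z.im| ≤ 1 := h ▸ le_max_right _ _
    rcases max_choice |z.re| |z.im| with h3 | h3
    · have h4 : |z.re| = 1 := h3.symm.trans h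
      rcases (abs_eq zero_le_one).1 h4 with h5 | h5
      · exact Or.inl (Or.inr ⟨h5, h2⟩)
      · exact Or.inr (Or.inr ⟨h5, h2⟩)
    · have h4 : |z.im| = 1 := h3.symm.trans h
      rcases (abs_eq zero_le_one).1 h4 with h5 | h5
      · exact Or.inr (Or.inl ⟨h1, h5⟩)
      · exact Or.inl (Or.inl ⟨h1, h5⟩)
  · rintro ((⟨h1, h2⟩ | ⟨h1, h2⟩) | (⟨h1, h2⟩ | ⟨h1, h2⟩))
    · rw [nrm, h2]; simpa using h1
    · rw [nrm, h1]; simpa using h2
    · rw [nrm, h2]; simpa using h1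
    · rw [nrm, h1]; simpa using h2

theorem isClosed_side (i : Fin 4) : IsClosed (side i) := by
  have hr : Continuous fun z : ℂ => |z.re| := by fun_prop
  have hi : Continuous fun z : ℂ => |z.im| := by fun_prop
  have h0 : IsClosed (side 0) := (isClosed_le hr continuous_const).inter
    (isClosed_eq Complex.continuous_im continuous_const)
  have h1 : IsClosed (side 1) := (isClosed_eq Complex.continuous_re continuous_const).inter
    (isClosed_le hi continuous_const)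
  have h2 : IsClosed (side 2) := (isClosed_le hr continuous_const).inter
    (isClosed_eq Complex.continuous_im continuous_const)
  have h3 : IsClosed (side 3) := (isClosed_eq Complex.continuous_re continuous_const).inter
    (isClosed_le hi continuous_const)
  fin_cases i
  exacts [h0, h1, h2, h3]

theorem side_subset (i : Fin 4) : side i ⊆ bd := by
  rw [bd_eq]
  fin_cases i
  · exact fun z hz => Or.inl (Or.inl hz)
  · exact fun z hz => Or.inl (Or.inr hz)
  · exact fun z hz => Or.inr (Or.inl hz)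
  · exact fun z hz => Or.inr (Or.inr hz)

section par

variable {D : Set ℂ} {γ : ℝ → ℂ} {N t0 t1 t2 t3 : ℝ}

open Classical in
/-- The parameter of a point of the boundary of the square. -/
noncomputable def tau (N t0 t1 t2 t3 : ℝ) (z : ℂ) : ℝ :=
  if z.im = -1 then t0 + (z.re + 1) / 2 * (t1 - t0)
  else if z.re = 1 then t1 + (z.im + 1) / 2 * (t2 - t1)
  else if z.im = 1 then t2 + (1 - z.re) / 2 * (t3 - t2)
  else t3 + (1 - z.im) / 2 * (t0 + N - t3)

theorem tau_cases (h01 : t0 < t1) (h12 : t1 < t2) (h23 : t2 < t3) (h30 : t3 < t0 + N) {z : ℂ}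
    (hz : z ∈ bd) :
    (z.im = -1 ∧ tau N t0 t1 t2 t3 z = t0 + (z.re + 1) / 2 * (t1 - t0) ∧
      t0 ≤ tau N t0 t1 t2 t3 z ∧ tau N t0 t1 t2 t3 z ≤ t1) ∨
    (z.re = 1 ∧ tau N t0 t1 t2 t3 z = t1 + (z.im + 1) / 2 * (t2 - t1) ∧
      t1 < tau N t0 t1 t2 t3 z ∧ tau N t0 t1 t2 t3 z ≤ t2) ∨
    (z.im = 1 ∧ tau N t0 t1 t2 t3 z = t2 + (1 - z.re) / 2 * (t3 - t2) ∧
      t2 < tau N t0 t1 t2 t3 z ∧ tau N t0 t1 t2 t3 z ≤ t3) ∨
    (z.re = -1 ∧ tau N t0 t1 t2 t3 z = t3 + (1 - z.im) / 2 * (t0 + N - t3) ∧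
      t3 < tau N t0 t1 t2 t3 z ∧ tau N t0 t1 t2 t3 z < t0 + N) := by
  have hre : |z.re| ≤ 1 := (show nrm z = 1 from hz) ▸ le_max_left _ _
  have him : |z.im| ≤ 1 := (show nrm z = 1 from hz) ▸ le_max_right _ _
  rw [abs_le] at hre him
  by_cases h1 : z.im = -1
  · refine Or.inl ⟨h1, ?_⟩
    have e : tau N t0 t1 t2 t3 z = t0 + (z.re + 1) / 2 * (t1 - t0) := by
      rw [tau, if_pos h1]
    rw [e]
    refine ⟨rfl, ?_, ?_⟩ <;> nlinarith
  · have h1' : -1 < z.im := lt_of_le_of_ne him.1 (Ne.symm h1)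
    by_cases h2 : z.re = 1
    · refine Or.inr (Or.inl ⟨h2, ?_⟩)
      have e : tau N t0 t1 t2 t3 z = t1 + (z.im + 1) / 2 * (t2 - t1) := by
        rw [tau, if_neg h1, if_pos h2]
      rw [e]
      refine ⟨rfl, ?_, ?_⟩ <;> nlinarith
    · have h2' : z.re < 1 := lt_of_le_of_ne hre.2 h2
      by_cases h3 : z.im = 1
      · refine Or.inr (Or.inr (Or.inl ⟨h3, ?_⟩))
        have e : tau N t0 t1 t2 t3 z = t2 + (1 - z.re) / 2 * (t3 - t2) := by
          rw [tau, if_neg h1, if_neg h2, if_pos h3]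
        rw [e]
        refine ⟨rfl, ?_, ?_⟩ <;> nlinarith
      · have h3' : z.im < 1 := lt_of_le_of_ne him.2 h3
        have h4 : z.re = -1 := by
          have hz' : z ∈ side 0 ∪ side 1 ∪ (side 2 ∪ side 3) := bd_eq ▸ hz
          rcases hz' with (⟨-, h⟩ | ⟨h, -⟩) | (⟨-, h⟩ | ⟨h, -⟩)
          · exact absurd h h1
          · exact absurd h h2
          · exact absurd h h3
          · exact h
        refine Or.inr (Or.inr (Or.inr ⟨h4, ?_⟩))
        have e : tau N t0 t1 t2 t3 z = t3 + (1 - z.im) / 2 * (t0 + N - t3) := by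
          rw [tau, if_neg h1, if_neg h2, if_neg h3]
        rw [e]
        refine ⟨rfl, ?_, ?_⟩ <;> nlinarith

theorem tau_side0 {z : ℂ} (hz : z ∈ side 0) :
    tau N t0 t1 t2 t3 z = t0 + (z.re + 1) / 2 * (t1 - t0) := by
  rw [tau, if_pos hz.2]

theorem tau_side1 {z : ℂ} (hz : z ∈ side 1) :
    tau N t0 t1 t2 t3 z = t1 + (z.im + 1) / 2 * (t2 - t1) := by
  have h1 : z.re = 1 := hz.1
  by_cases h : z.im = -1
  · rw [tau, if_pos h, h, h1]; ring
  · rw [tau, if_neg h, if_pos h1]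

theorem tau_side2 {z : ℂ} (hz : z ∈ side 2) :
    tau N t0 t1 t2 t3 z = t2 + (1 - z.re) / 2 * (t3 - t2) := by
  have h1 : z.im = 1 := hz.2
  have h2 : ¬ z.im = -1 := by rw [h1]; norm_num
  by_cases h : z.re = 1
  · rw [tau, if_neg h2, if_pos h, h, h1]; ring
  · rw [tau, if_neg h2, if_neg h, if_pos h1]

theorem tau_side3 (hc : JCurve γ N) {z : ℂ} (hz : z ∈ side 3) :
    γ (tau N t0 t1 t2 t3 z) = γ (t3 + (1 - z.im) / 2 * (t0 + N - t3)) := by
  have h1 : z.re = -1 := hz.1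
  have h2 : ¬ z.re = 1 := by rw [h1]; norm_num
  by_cases h : z.im = -1
  · rw [tau, if_pos h, h, h1]
    have e1 : t0 + (-1 + 1) / 2 * (t1 - t0) = t0 := by ring
    have e2 : t3 + (1 - -1) / 2 * (t0 + N - t3) = t0 + N := by ring
    rw [e1, e2, hc.per]
  · by_cases h3 : z.im = 1
    · rw [tau, if_neg h, if_neg h2, if_pos h3, h3, h1]
      congr 1
      ring
    · rw [tau, if_neg h, if_neg h2, if_neg h3]

theorem arc_aux {u : ℂ → ℂ} {S : Set ℂ} {a b : ℝ} (hab : a < b) {l : ℂ → ℝ} {c : ℝ → ℂ}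
    (h1 : ∀ z ∈ S, u z = γ (a + l z * (b - a))) (h2 : ∀ z ∈ S, 0 ≤ l z ∧ l z ≤ 1)
    (h3 : ∀ x, 0 ≤ x → x ≤ 1 → c x ∈ S ∧ l (c x) = x) : u '' S = γ '' Icc a b := by
  have hb : 0 < b - a := sub_pos.2 hab
  apply Subset.antisymm
  · rintro _ ⟨z, hz, rfl⟩
    obtain ⟨h4, h5⟩ := h2 z hz
    refine ⟨_, ⟨?_, ?_⟩, (h1 z hz).symm⟩ <;> nlinarith
  · rintro _ ⟨s, ⟨hs1, hs2⟩, rfl⟩
    obtain ⟨h4, h5⟩ := h3 ((s - a) / (b - a)) (div_nonneg (by linarith) hb.le)
      ((div_le_one hb).2 (by linarith))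
    refine ⟨_, h4, ?_⟩
    rw [h1 _ h4, h5, div_mul_cancel₀ _ hb.ne', add_sub_cancel]

theorem arc_img (hc : JCurve γ N) (h01 : t0 < t1) (h12 : t1 < t2) (h23 : t2 < t3)
    (h30 : t3 < t0 + N) :
    (fun z => γ (tau N t0 t1 t2 t3 z)) '' side 0 = γ '' Icc t0 t1 ∧
    (fun z => γ (tau N t0 t1 t2 t3 z)) '' side 1 = γ '' Icc t1 t2 ∧
    (fun z => γ (tau N t0 t1 t2 t3 z)) '' side 2 = γ '' Icc t2 t3 ∧
    (fun z => γ (tau N t0 t1 t2 t3 z)) '' side 3 = γ '' Icc t3 (t0 + N) := by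
  refine ⟨?_, ?_, ?_, ?_⟩
  · refine arc_aux h01 (l := fun z => (z.re + 1) / 2) (c := fun x => ⟨2 * x - 1, -1⟩)
      (fun z hz => by show γ _ = _; rw [tau_side0 hz]) ?_ ?_
    · intro z hz
      have := abs_le.1 hz.1
      constructor <;> linarith
    · intro x hx hx'
      refine ⟨⟨?_, rfl⟩, by show (2 * x - 1 + 1) / 2 = x; ring⟩
      show |2 * x - 1| ≤ 1
      rw [abs_le]
      constructor <;> linarith
  · refine arc_aux h12 (l := fun z => (z.im + 1) / 2) (c := fun x => ⟨1, 2 * x - 1⟩)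
      (fun z hz => by show γ _ = _; rw [tau_side1 hz]) ?_ ?_
    · intro z hz
      have := abs_le.1 hz.2
      constructor <;> linarith
    · intro x hx hx'
      refine ⟨⟨rfl, ?_⟩, by show (2 * x - 1 + 1) / 2 = x; ring⟩
      show |2 * x - 1| ≤ 1
      rw [abs_le]
      constructor <;> linarith
  · refine arc_aux h23 (l := fun z => (1 - z.re) / 2) (c := fun x => ⟨1 - 2 * x, 1⟩)
      (fun z hz => by show γ _ = _; rw [tau_side2 hz]) ?_ ?_
    · intro z hz
      have := abs_le.1 hz.1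
      constructor <;> linarith
    · intro x hx hx'
      refine ⟨⟨?_, rfl⟩, by show (1 - (1 - 2 * x)) / 2 = x; ring⟩
      show |1 - 2 * x| ≤ 1
      rw [abs_le]
      constructor <;> linarith
  · refine arc_aux h30 (l := fun z => (1 - z.im) / 2) (c := fun x => ⟨-1, 1 - 2 * x⟩)
      (fun z hz => tau_side3 hc hz) ?_ ?_
    · intro z hz
      have := abs_le.1 hz.2
      constructor <;> linarith
    · intro x hx hx'
      refine ⟨⟨rfl, ?_⟩, by show (1 - (1 - 2 * x)) / 2 = x; ring⟩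
      show |1 - 2 * x| ≤ 1
      rw [abs_le]
      constructor <;> linarith

theorem par_tau (hc : JCurve γ N) (h01 : t0 < t1) (h12 : t1 < t2) (h23 : t2 < t3)
    (h30 : t3 < t0 + N) : Par (fun z => γ (tau N t0 t1 t2 t3 z)) (range γ) where
  cont := by
    have hγ := hc.cont
    rw [bd_eq]
    refine ContinuousOn.union_of_isClosed
      (ContinuousOn.union_of_isClosed ?_ ?_ (isClosed_side 0) (isClosed_side 1))
      (ContinuousOn.union_of_isClosed ?_ ?_ (isClosed_side 2) (isClosed_side 3))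
      ((isClosed_side 0).union (isClosed_side 1)) ((isClosed_side 2).union (isClosed_side 3))
    · have : Continuous fun z : ℂ => γ (t0 + (z.re + 1) / 2 * (t1 - t0)) :=
        hγ.comp (by fun_prop)
      exact this.continuousOn.congr fun z hz => by rw [tau_side0 hz]
    · have : Continuous fun z : ℂ => γ (t1 + (z.im + 1) / 2 * (t2 - t1)) :=
        hγ.comp (by fun_prop)
      exact this.continuousOn.congr fun z hz => by rw [tau_side1 hz]
    · have : Continuous fun z : ℂ => γ (t2 + (1 - z.re) / 2 * (t3 - t2)) :=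
        hγ.comp (by fun_prop)
      exact this.continuousOn.congr fun z hz => by rw [tau_side2 hz]
    · have : Continuous fun z : ℂ => γ (t3 + (1 - z.im) / 2 * (t0 + N - t3)) :=
        hγ.comp (by fun_prop)
      exact this.continuousOn.congr fun z hz => tau_side3 hc hz
  inj := by
    intro z hz z' hz' he
    have hI : InjOn γ (Ico t0 (t0 + N)) := by
      intro x hx y hy hxy
      have h1 : max x y < t0 + N := max_lt hx.2 hy.2
      exact JDom.injOn_Icc hc h1 ⟨hx.1, le_max_left _ _⟩ ⟨hy.1, le_max_right _ _⟩ hxy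
    have d0 : 0 < t1 - t0 := by linarith
    have d1 : 0 < t2 - t1 := by linarith
    have d2 : 0 < t3 - t2 := by linarith
    have d3 : 0 < t0 + N - t3 := by linarith
    have key : tau N t0 t1 t2 t3 z = tau N t0 t1 t2 t3 z' := by
      refine hI ?_ ?_ he
      · rcases tau_cases h01 h12 h23 h30 hz with ⟨-, -, h1, h2⟩ | ⟨-, -, h1, h2⟩ |
          ⟨-, -, h1, h2⟩ | ⟨-, -, h1, h2⟩ <;> constructor <;> linarith
      · rcases tau_cases h01 h12 h23 h30 hz' with ⟨-, -, h1, h2⟩ | ⟨-, -, h1, h2⟩ |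
          ⟨-, -, h1, h2⟩ | ⟨-, -, h1, h2⟩ <;> constructor <;> linarith
    rcases tau_cases h01 h12 h23 h30 hz with ⟨a1, a2, a3, a4⟩ | ⟨a1, a2, a3, a4⟩ |
      ⟨a1, a2, a3, a4⟩ | ⟨a1, a2, a3, a4⟩ <;>
    rcases tau_cases h01 h12 h23 h30 hz' with ⟨b1, b2, b3, b4⟩ | ⟨b1, b2, b3, b4⟩ |
      ⟨b1, b2, b3, b4⟩ | ⟨b1, b2, b3, b4⟩ <;>
    first
    | (exfalso; linarith)
    | (rw [a2, b2] at key
       have e := mul_right_cancel₀ (ne_of_gt (by assumption)) (add_left_cancel key)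
       exact Complex.ext (by linarith) (by linarith))
  img := by
    obtain ⟨h0, h1, h2, h3⟩ := arc_img (t0 := t0) hc h01 h12 h23 h30
    rw [bd_eq, image_union, image_union, image_union, h0, h1, h2, h3, ← image_union,
      ← image_union, ← image_union, Icc_union_Icc_eq_Icc h01.le h12.le,
      Icc_union_Icc_eq_Icc h23.le h30.le,
      Icc_union_Icc_eq_Icc (h01.trans h12).le (h23.trans h30).le, range_Icc hc t0]

end par

variable {D : Set ℂ} {γ : ℝ → ℂ} {N t0 t1 t2 t3 : ℝ}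

/-- **Every Jordan domain with four marked boundary points is a quad.** -/
theorem exists_quad (h : JDom D γ N) (h01 : t0 < t1) (h12 : t1 < t2) (h23 : t2 < t3)
    (h30 : t3 < t0 + N) : ∃ Q : Quad, Q.D = D ∧
      (Q.mark 0 = γ t0 ∧ Q.mark 1 = γ t1 ∧ Q.mark 2 = γ t2 ∧ Q.mark 3 = γ t3) ∧
      Q.arc 0 = γ '' Icc t0 t1 ∧ Q.arc 1 = γ '' Icc t1 t2 ∧ Q.arc 2 = γ '' Icc t2 t3 ∧
      Q.arc 3 = γ '' Icc t3 (t0 + N) := by
  obtain ⟨G, hG, hGD⟩ := h.schoenflies (par_tau h.curve h01 h12 h23 h30)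
  have himg : ∀ i, G '' side i = (fun z => γ (tau N t0 t1 t2 t3 z)) '' side i := fun i =>
    image_congr fun z hz => hG z (side_subset i hz)
  obtain ⟨h0, h1, h2, h3⟩ := arc_img (t0 := t0) h.curve h01 h12 h23 h30
  have c0 : corner 0 ∈ side 0 := by
    refine ⟨?_, rfl⟩
    show |(-1 : ℝ)| ≤ 1
    norm_num
  have c1 : corner 1 ∈ side 1 := by
    refine ⟨rfl, ?_⟩
    show |(-1 : ℝ)| ≤ 1
    norm_num
  have c2 : corner 2 ∈ side 2 := by
    refine ⟨?_, rfl⟩
    show |(1 : ℝ)| ≤ 1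
    norm_num
  have c3 : corner 3 ∈ side 3 := by
    refine ⟨rfl, ?_⟩
    show |(1 : ℝ)| ≤ 1
    norm_num
  refine ⟨⟨G⟩, ?_, ⟨?_, ?_, ?_, ?_⟩, ?_, ?_, ?_, ?_⟩
  · rw [← hGD]
    show G '' {z | |z.re| < 1 ∧ |z.im| < 1} = _
    congr 1
    ext z
    exact max_lt_iff.symm
  · show G (corner 0) = _
    rw [hG _ (side_subset 0 c0)]
    show γ _ = _
    rw [tau_side0 c0]
    show γ (t0 + (-1 + 1) / 2 * (t1 - t0)) = γ t0
    congr 1; ring
  · show G (corner 1) = _
    rw [hG _ (side_subset 1 c1)]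
    show γ _ = _
    rw [tau_side1 c1]
    show γ (t1 + (-1 + 1) / 2 * (t2 - t1)) = γ t1
    congr 1; ring
  · show G (corner 2) = _
    rw [hG _ (side_subset 2 c2)]
    show γ _ = _
    rw [tau_side2 c2]
    show γ (t2 + (1 - 1) / 2 * (t3 - t2)) = γ t2
    congr 1; ring
  · show G (corner 3) = _
    rw [hG _ (side_subset 3 c3)]
    show γ _ = _
    rw [tau_side3 h.curve c3]
    show γ (t3 + (1 - 1) / 2 * (t0 + N - t3)) = γ t3
    congr 1; ring
  · exact (himg 0).trans h0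
  · exact (himg 1).trans h1
  · exact (himg 2).trans h2
  · exact (himg 3).trans h3

end Vale.Agent.P148.R2.H592.Sch
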