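import Vale.Agent.P148.R2.H592.JDefs
import Vale.Agent.P148.R2.H592.Sch4

/-!
# P148: the final statement for arbitrary Jordan domains, from the one for quads
-/

open MeasureTheory Set Metric Topology Filter ProbabilityTheory
open scoped ENNReal NNReal

universe u

namespace Vale.Agent.P148.R2.H592.Sch

open _root_.P148
open Vale.Agent.P153.R2.R1 (JCurve)

variable {D : Set ℂ} {γ : ℝ → ℂ} {N : ℝ} {t : Fin 4 → ℝ}

theorem Marked.jdom (h : Marked D γ N t) : JDom D γ N where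
  isOpen := h.isOpen
  conn := h.conn
  bdd := h.bdd
  curve := ⟨h.pos, h.cont, h.per, h.inj⟩
  frontier_eq := h.frontier_eq

theorem Marked.exists_quad (h : Marked D γ N t) : ∃ Q : Quad, Q.D = D ∧
    (Q.mark 0 = γ (t 0) ∧ Q.mark 1 = γ (t 1) ∧ Q.mark 2 = γ (t 2) ∧ Q.mark 3 = γ (t 3)) ∧
    Q.arc 0 = γ '' Icc (t 0) (t 1) ∧ Q.arc 1 = γ '' Icc (t 1) (t 2) ∧
    Q.arc 2 = γ '' Icc (t 2) (t 3) ∧ Q.arc 3 = γ '' Icc (t 3) (t 0 + N) :=
  Sch.exists_quad h.jdom h.lt01 h.lt12 h.lt23 h.lt30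

/-- The reversed curve with the marks in the reversed order. -/
theorem Marked.rev (h : Marked D γ N t) :
    Marked D (fun s => γ (-s)) N (fun i => -t (3 - i)) where
  isOpen := h.isOpen
  conn := h.conn
  bdd := h.bdd
  frontier_eq := by
    rw [h.frontier_eq]
    ext z
    constructor
    · rintro ⟨s, rfl⟩
      exact ⟨-s, by show γ (- -s) = γ s; rw [neg_neg]⟩
    · rintro ⟨s, rfl⟩
      exact ⟨-s, rfl⟩
  pos := h.pos
  cont := h.cont.comp continuous_neg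
  per s := by
    show γ (-(s + N)) = γ (-s)
    rw [← h.per (-(s + N))]
    congr 1
    ring
  inj s s' he := by
    obtain ⟨k, hk⟩ := h.inj _ _ he
    refine ⟨-k, ?_⟩
    push_cast
    linarith
  lt01 := neg_lt_neg h.lt23
  lt12 := neg_lt_neg h.lt12
  lt23 := neg_lt_neg h.lt01
  lt30 := by
    show -t 0 < -t 3 + N
    have := h.lt30
    linarith

theorem image_neg_Icc (γ : ℝ → ℂ) (a b : ℝ) :
    (fun s => γ (-s)) '' Icc (-b) (-a) = γ '' Icc a b := by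
  ext z
  constructor
  · rintro ⟨s, ⟨h1, h2⟩, rfl⟩
    exact ⟨-s, ⟨by linarith, by linarith⟩, rfl⟩
  · rintro ⟨s, ⟨h1, h2⟩, rfl⟩
    exact ⟨-s, ⟨by linarith, by linarith⟩, by show γ (- -s) = γ s; rw [neg_neg]⟩

theorem Crosses.symm {A A' R : Set ℂ} (h : Crosses D A A' R) : Crosses D A' A R := by
  obtain ⟨K, h1, h2, h3, h4⟩ := h
  exact ⟨K, h1, h2, h4, h3⟩

theorem xev_rev (R : Set ℂ) :
    XEv D (fun s => γ (-s)) (fun i => -t (3 - i)) R ↔ XEv D γ t R := by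
  have e1 : (fun s => γ (-s)) '' Icc (-t (3 - 0)) (-t (3 - 1)) = γ '' Icc (t 2) (t 3) :=
    image_neg_Icc γ (t 2) (t 3)
  have e2 : (fun s => γ (-s)) '' Icc (-t (3 - 2)) (-t (3 - 3)) = γ '' Icc (t 0) (t 1) :=
    image_neg_Icc γ (t 0) (t 1)
  unfold XEv
  rw [e1, e2]
  exact ⟨Crosses.symm, Crosses.symm⟩

theorem xev_iff {Q : Quad} (hD : Q.D = D) (h0 : Q.arc 0 = γ '' Icc (t 0) (t 1))
    (h2 : Q.arc 2 = γ '' Icc (t 2) (t 3)) (R : Set ℂ) : XEv D γ t R ↔ Q.Cross 0 2 R := by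
  unfold XEv Crosses Quad.Cross
  rw [hD, h0, h2]

theorem unif_iff {Q : Quad} (hD : Q.D = D) {a b c d : ℂ} (ha : Q.mark 0 = a) (hb : Q.mark 1 = b)
    (hc : Q.mark 2 = c) (hd : Q.mark 3 = d) {φ : ℂ → ℂ} {x : ℝ} :
    Unif D a b c d φ x ↔ Q.IsUniformizer φ x := by
  subst hD ha hb hc hd
  exact ⟨fun ⟨h1, h2, h3, h4, h5, h6, h7⟩ => ⟨h1, h2, h3, h4, h5, h6, h7⟩,
    fun ⟨h1, h2, h3, h4, h5, h6, h7⟩ => ⟨h1, h2, h3, h4, h5, h6, h7⟩⟩

/-- The final statement for quads gives the final statement for all Jordan domains. -/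
theorem final_jordan (h : F.FinalStmt.{u}) : FinalJordan.{u} := by
  obtain ⟨h1, h2, h3, h4⟩ := h
  have main : ∀ D γ N t, Marked D γ N t → ∀ (φ : ℂ → ℂ) (x : ℝ),
      Unif D (γ (t 0)) (γ (t 1)) (γ (t 2)) (γ (t 3)) φ x → (0 < x ∧ x < 1) ∧
      ∀ (Ω : ℝ → Type u) [∀ ε, MeasurableSpace (Ω ε)] (P : ∀ ε, Measure (Ω ε))
        [∀ ε, IsProbabilityMeasure (P ε)] (S : ∀ ε, Ω ε → Set Pt),
        (∀ ε > 0, IsColouredPoisson (P ε) (S ε) (Real.toNNReal (ε ^ (-2 : ℤ)))) →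
        Tendsto (fun ε => (P ε {ω | XEv D γ t (blackRegion (S ε ω))}).toReal) (𝓝[>] 0)
          (𝓝 (cardy x)) ∧
        Tendsto (fun ε => ∫ ω, |((P ε)[{ω | XEv D γ t (blackRegion (S ε ω))}.indicator
          (fun _ => (1 : ℝ)) | H771.posSigma (S ε)]) ω - cardy x| ∂(P ε)) (𝓝[>] 0) (𝓝 0) := by
    intro D γ N t hM φ x hφ
    obtain ⟨Q, hD, ⟨m0, m1, m2, m3⟩, a0, -, a2, -⟩ := hM.exists_quad
    have hx : ∀ R, XEv D γ t R ↔ Q.Cross 0 2 R := xev_iff hD a0 a2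
    obtain ⟨h5, h6⟩ := h4 Q φ x ((unif_iff hD m0 m1 m2 m3).1 hφ)
    refine ⟨h5, fun Ω _ P _ S hS => ?_⟩
    simp only [hx]
    exact h6 Ω P S hS
  refine ⟨h1, ?_, ?_, ?_⟩
  · intro D γ N t hM
    obtain ⟨Q, hD, ⟨m0, m1, m2, m3⟩, -⟩ := hM.exists_quad
    obtain ⟨Q', hD', hm, -, φ, x, hφ⟩ := h2 Q
    refine ⟨φ, x, ?_⟩
    rcases hm with hm | hm
    · exact Or.inl ((unif_iff (hD'.trans hD) ((hm 0).trans m0) ((hm 1).trans m1)
        ((hm 2).trans m2) ((hm 3).trans m3)).2 hφ)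
    · exact Or.inr ((unif_iff (hD'.trans hD) ((hm 0).trans m3) ((hm 1).trans m2)
        ((hm 2).trans m1) ((hm 3).trans m0)).2 hφ)
  · intro Ω _ P _ S lam hlam hS
    obtain ⟨h5, h6⟩ := h3 Ω P S lam hlam hS
    refine ⟨h5, fun D γ N t hM => ?_⟩
    obtain ⟨Q, hD, -, a0, -, a2, -⟩ := hM.exists_quad
    have hx : ∀ R, XEv D γ t R ↔ Q.Cross 0 2 R := xev_iff hD a0 a2
    simp only [hx]
    exact h6 Q
  · intro D γ N t hM φ x hφ
    rcases hφ with hφ | hφ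
    · exact main D γ N t hM φ x hφ
    · have h7 := main D _ N _ hM.rev φ x (by
        show Unif D (γ (- -t 3)) (γ (- -t 2)) (γ (- -t 1)) (γ (- -t 0)) φ x
        simp only [neg_neg]
        exact hφ)
      simp only [xev_rev] at h7
      exact h7

end Vale.Agent.P148.R2.H592.Sch
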